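import Mathlib

/-!
Coxeter presentation of the symmetric group `Perm (Fin (n+1))` (existence part):
a family `f 0, …, f (n-1)` in a monoid `H` satisfying the Coxeter relations of type `A_n`
extends to a monoid homomorphism `Perm (Fin (n+1)) →* H`.
-/

namespace Crest.Agent.R187.SN.Cox

open Equiv Equiv.Perm

variable {H : Type*} [Monoid H]

/-- `C f k = f (k-1) * ... * f 1 * f 0`. -/
def C (f : ℕ → H) : ℕ → H
  | 0 => 1
  | k + 1 => f k * C f k

/-- The Coxeter relations of type `A_n` for `f 0, ..., f (n-1)`. -/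
structure Rel (n : ℕ) (f : ℕ → H) : Prop where
  sq : ∀ i, i < n → f i * f i = 1
  braid : ∀ i, i + 1 < n → f i * f (i + 1) * f i = f (i + 1) * f i * f (i + 1)
  comm : ∀ i j, i + 1 < j → j < n → f i * f j = f j * f i

theorem Rel.shift {n : ℕ} {f : ℕ → H} (h : Rel (n + 1) f) : Rel n (fun i => f (i + 1)) where
  sq i hi := h.sq (i + 1) (by omega)
  braid i hi := h.braid (i + 1) (by omega)
  comm i j hi hj := h.comm (i + 1) (j + 1) (by omega) (by omega)

theorem comm_C {n : ℕ} {f : ℕ → H} (h : Rel n f) (i : ℕ) (hi : i < n) :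
    ∀ p, p < i → f i * C f p = C f p * f i
  | 0, _ => by simp [C]
  | p + 1, hp => by
    have ih := comm_C h i hi p (by omega)
    rw [C, ← mul_assoc, ← h.comm p i (by omega) hi, mul_assoc, ih, mul_assoc]

theorem near_C {n : ℕ} {f : ℕ → H} (h : Rel n f) (i : ℕ) :
    ∀ m, i + 1 + m < n → f i * C f (i + 2 + m) = C f (i + 2 + m) * f (i + 1)
  | 0, hm => by
    have e1 := comm_C h (i + 1) (by omega) i (by omega)
    show f i * (f (i + 1) * (f i * C f i)) = (f (i + 1) * (f i * C f i)) * f (i + 1)
    rw [← mul_assoc (f i) (f (i+1)), ← mul_assoc, h.braid i (by omega), mul_assoc (f (i+1) * f i),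
      e1, mul_assoc, mul_assoc, mul_assoc]
  | m + 1, hm => by
    have ih := near_C h i m (by omega)
    have e : i + 2 + (m + 1) = (i + 2 + m) + 1 := by omega
    rw [e, C, ← mul_assoc, h.comm i (i + 2 + m) (by omega) (by omega), mul_assoc, ih, mul_assoc]

/-- adjacent transpositions of `Fin (n+1)` indexed by `ℕ`. -/
def s (n : ℕ) (k : ℕ) : Perm (Fin (n + 1)) :=
  if h : k < n then swap ⟨k, by omega⟩ ⟨k + 1, by omega⟩ else 1

theorem s_eq (n : ℕ) (i : Fin n) : s n i = swap i.castSucc i.succ := by
  simp only [s, i.isLt, dite_true]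
  rfl

theorem rel_s (n : ℕ) : Rel n (s n) where
  sq i hi := by simp [s, hi]
  braid i hi := by
    have h1 : i < n := by omega
    simp only [s, h1, hi, dite_true]
    set a : Fin (n + 1) := ⟨i, by omega⟩
    set b : Fin (n + 1) := ⟨i + 1, by omega⟩
    set c : Fin (n + 1) := ⟨i + 1 + 1, by omega⟩
    have hab : a ≠ b := by simp [a, b, Fin.ext_iff]
    have hac : a ≠ c := by simp only [a, c, ne_eq, Fin.ext_iff]; omega
    have hbc : b ≠ c := by simp [b, c, Fin.ext_iff]
    rw [swap_mul_swap_mul_swap hab hac, swap_comm a b, swap_comm b c,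
      swap_mul_swap_mul_swap hbc.symm hac.symm, swap_comm]
  comm i j hi hj := by
    have h1 : i < n := by omega
    simp only [s, h1, hj, dite_true]
    apply Perm.Disjoint.commute
    intro x
    by_cases hx : x.val = j ∨ x.val = j + 1
    · left
      apply swap_apply_of_ne_of_ne
      · intro h
        rw [h] at hx
        simp only at hx
        omega
      · intro h
        rw [h] at hx
        simp only at hx
        omega
    · right
      apply swap_apply_of_ne_of_ne
      · intro h
        apply hx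
        rw [h]
        simp
      · intro h
        apply hx
        rw [h]
        simp

theorem C_s_zero (n : ℕ) : ∀ p, (hp : p ≤ n) → C (s n) p 0 = ⟨p, by omega⟩
  | 0, _ => by simp [C]
  | p + 1, hp => by
    have ih := C_s_zero n p (by omega)
    have h1 : p < n := by omega
    simp only [C, Perm.coe_mul, Function.comp_apply, ih, s, h1, dite_true, swap_apply_left]

/-- extension of a permutation of `Fin n` to `Fin (n+1)` fixing `0`. -/
def iota (n : ℕ) : Perm (Fin n) →* Perm (Fin (n + 1)) where
  toFun e := decomposeFin.symm (0, e)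
  map_one' := by
    ext x
    refine Fin.cases ?_ (fun i => ?_) x <;> simp
  map_mul' a b := by
    ext x
    refine Fin.cases ?_ (fun i => ?_) x <;> simp

theorem iota_zero (n : ℕ) (e : Perm (Fin n)) : iota n e 0 = 0 := by
  simp [iota]

theorem iota_succ (n : ℕ) (e : Perm (Fin n)) (i : Fin n) : iota n e i.succ = (e i).succ := by
  simp [iota]

theorem iota_s (n k : ℕ) (hk : k < n) : iota (n + 1) (s n k) = s (n + 1) (k + 1) := by
  ext x
  refine Fin.cases ?_ (fun i => ?_) x
  · rw [iota_zero]
    simp only [s, Nat.add_lt_add_iff_right, hk, dite_true, swap_apply_def]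
    simp [Fin.ext_iff]
  · rw [iota_succ]
    simp only [s, Nat.add_lt_add_iff_right, hk, dite_true, swap_apply_def, Fin.ext_iff,
      Fin.val_succ]
    split_ifs <;> simp_all

theorem exists_iota (n : ℕ) (σ : Perm (Fin (n + 1))) (h : σ 0 = 0) : ∃ e, iota n e = σ := by
  refine ⟨(decomposeFin σ).2, ?_⟩
  have h1 : (decomposeFin σ).1 = 0 := by
    have : decomposeFin.symm (decomposeFin σ) 0 = (decomposeFin σ).1 :=
      decomposeFin_symm_apply_zero _ _
    rw [Equiv.symm_apply_apply] at this
    rw [← this, h]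
  show decomposeFin.symm (0, (decomposeFin σ).2) = σ
  rw [← h1]
  exact Equiv.symm_apply_apply _ _

theorem iota_injective (n : ℕ) : Function.Injective (iota n) := by
  intro a b h
  have := decomposeFin.symm.injective h
  exact (Prod.mk.inj this).2

/-- Coxeter presentation of `Perm (Fin (n+1))`, `ℕ`-indexed version. -/
theorem exists_hom_nat (n : ℕ) : ∀ (f : ℕ → H), Rel n f →
    ∃ φ : Perm (Fin (n + 1)) →* H, ∀ i, i < n → φ (s n i) = f i := by
  induction n with
  | zero =>
    intro f _
    exact ⟨1, fun i hi => absurd hi (by omega)⟩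
  | succ n ih =>
    intro f hf
    obtain ⟨φ', hφ'⟩ := ih _ hf.shift
    -- every permutation is `c_p * iota e`
    have ex : ∀ σ : Perm (Fin (n + 2)), ∃ e : Perm (Fin (n + 1)),
        C (s (n + 1)) (σ 0 : ℕ) * iota (n + 1) e = σ := by
      intro σ
      obtain ⟨e, he⟩ := exists_iota (n + 1) ((C (s (n + 1)) (σ 0 : ℕ))⁻¹ * σ) (by
        rw [Perm.mul_apply, Perm.inv_eq_iff_eq]
        rw [C_s_zero (n + 1) (σ 0 : ℕ) (by have := (σ 0).isLt; omega)])
      exact ⟨e, by rw [he]; group⟩
    choose E hE using ex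
    let F : Perm (Fin (n + 2)) → H := fun σ => C f (σ 0 : ℕ) * φ' (E σ)
    have hF : ∀ (p : ℕ) (hp : p ≤ n + 1) (e : Perm (Fin (n + 1))),
        F (C (s (n + 1)) p * iota (n + 1) e) = C f p * φ' e := by
      intro p hp e
      have h0 : (C (s (n + 1)) p * iota (n + 1) e) 0 = ⟨p, by omega⟩ := by
        rw [Perm.mul_apply, iota_zero, C_s_zero _ _ hp]
      have h1 := hE (C (s (n + 1)) p * iota (n + 1) e)
      rw [h0] at h1
      have h2 := iota_injective _ (mul_left_cancel h1)
      show C f _ * φ' _ = _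
      rw [h0, h2]
    have key : ∀ (i : ℕ), i < n + 1 → ∀ σ, F (s (n + 1) i * σ) = f i * F σ := by
      intro i hi σ
      obtain ⟨p, hp, e, rfl⟩ : ∃ p, ∃ _ : p ≤ n + 1, ∃ e,
          C (s (n + 1)) p * iota (n + 1) e = σ :=
        ⟨(σ 0 : ℕ), by have := (σ 0).isLt; omega, E σ, hE σ⟩
      rw [hF p hp e]
      rcases lt_trichotomy p i with hlt | heq | hgt
      · -- p < i
        obtain ⟨j, rfl⟩ : ∃ j, i = j + 1 := ⟨i - 1, by omega⟩
        rw [← mul_assoc, comm_C (rel_s (n + 1)) (j + 1) hi p hlt, mul_assoc,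
          ← iota_s n j (by omega), ← map_mul, hF p hp, map_mul, hφ' j (by omega),
          ← mul_assoc, ← mul_assoc, comm_C hf (j + 1) hi p hlt]
      · subst heq
        have : s (n + 1) p * (C (s (n + 1)) p * iota (n + 1) e)
            = C (s (n + 1)) (p + 1) * iota (n + 1) e := by
          rw [C, mul_assoc]
        rw [this, hF (p + 1) (by omega), C, mul_assoc]
      · rcases Nat.lt_or_ge (i + 1) p with h2 | h2
        · -- p > i + 1
          obtain ⟨m, rfl⟩ : ∃ m, p = i + 2 + m := ⟨p - (i + 2), by omega⟩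
          rw [← mul_assoc, near_C (rel_s (n + 1)) i m (by omega), mul_assoc,
            ← iota_s n i (by omega), ← map_mul, hF _ hp, map_mul, hφ' i (by omega),
            ← mul_assoc, ← mul_assoc, near_C hf i m (by omega)]
        · obtain rfl : p = i + 1 := by omega
          have : s (n + 1) i * (C (s (n + 1)) (i + 1) * iota (n + 1) e)
              = C (s (n + 1)) i * iota (n + 1) e := by
            rw [C, ← mul_assoc, ← mul_assoc, (rel_s (n + 1)).sq i hi, one_mul]
          rw [this, hF i (by omega), C, mul_assoc, ← mul_assoc (f i) (f i), hf.sq i hi, one_mul]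
    have F1 : F 1 = 1 := by
      have := hF 0 (by omega) 1
      simpa [C] using this
    have Fmul : ∀ σ τ, F (σ * τ) = F σ * F τ := by
      intro σ τ
      have hmem : σ ∈ Submonoid.closure
          (Set.range fun i : Fin (n + 1) ↦ swap i.castSucc i.succ) := by
        rw [mclosure_swap_castSucc_succ]; trivial
      induction hmem using Submonoid.closure_induction_left with
      | one => rw [one_mul, F1, one_mul]
      | mul_left x hx y hy ih' =>
        obtain ⟨i, rfl⟩ := hx
        simp only
        rw [← s_eq, mul_assoc, key i i.isLt, ih', key i i.isLt y, mul_assoc (f i)]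
    refine ⟨⟨⟨F, F1⟩, Fmul⟩, fun i hi => ?_⟩
    have := key i hi 1
    rw [mul_one, F1, mul_one] at this
    exact this

/-- Coxeter presentation of `Perm (Fin (n+1))`. -/
theorem exists_hom (n : ℕ) (f : Fin n → H)
    (h1 : ∀ i, f i * f i = 1)
    (h2 : ∀ i j : Fin n, j.val = i.val + 1 → f i * f j * f i = f j * f i * f j)
    (h3 : ∀ i j : Fin n, i.val + 1 < j.val → f i * f j = f j * f i) :
    ∃ φ : Perm (Fin (n + 1)) →* H, ∀ i : Fin n, φ (swap i.castSucc i.succ) = f i := by
  obtain ⟨φ, hφ⟩ := exists_hom_nat n (fun k => if h : k < n then f ⟨k, h⟩ else 1)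
    { sq := fun i hi => by simp only [hi, dite_true]; exact h1 _
      braid := fun i hi => by
        have h : i < n := by omega
        simp only [h, hi, dite_true]
        exact h2 _ _ rfl
      comm := fun i j hi hj => by
        have h : i < n := by omega
        simp only [h, hj, dite_true]
        exact h3 _ _ hi }
  refine ⟨φ, fun i => ?_⟩
  rw [← s_eq, hφ i i.isLt]
  simp

/-- Uniqueness. -/
theorem hom_ext (n : ℕ) {φ ψ : Perm (Fin (n + 1)) →* H}
    (h : ∀ i : Fin n, φ (swap i.castSucc i.succ) = ψ (swap i.castSucc i.succ)) : φ = ψ := by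
  refine MonoidHom.eq_of_eqOn_denseM (mclosure_swap_castSucc_succ n) ?_
  rintro _ ⟨i, rfl⟩
  exact h i

end Crest.Agent.R187.SN.Cox
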