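import Mathlib

/-!
# Row 187, PLAN S, block (A2): Young's seminormal form on lattice words

Words are lists `w : List (Fin r)` in time order (head = first box added to the start shape `κ`).
Vectors are functions `List (Fin r) → K` (coordinates with respect to the basis `u_w`).
-/

set_option autoImplicit false

namespace Crest.Agent.R187.SN

variable {r : ℕ}

/-- add a box in row `a` -/
def add (κ : Fin r → ℕ) (a : Fin r) : Fin r → ℕ := Function.update κ a (κ a + 1)

/-- content of the new box in row `a` -/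
def ct (κ : Fin r → ℕ) (a : Fin r) : ℤ := (κ a : ℤ) - (a : ℕ)

/-- lattice words starting from the shape `κ` -/
def Lat : (Fin r → ℕ) → List (Fin r) → Prop
  | κ, [] => Antitone κ
  | κ, a :: t => Antitone κ ∧ Lat (add κ a) t

/-- final shape -/
def sh : (Fin r → ℕ) → List (Fin r) → (Fin r → ℕ)
  | κ, [] => κ
  | κ, a :: t => sh (add κ a) t

/-- swap of two adjacent letters -/
def sw {α : Type*} : ℕ → List α → List α
  | 0, a :: b :: t => b :: a :: t
  | i + 1, a :: t => a :: sw i t
  | _, w => w

section defs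

variable (K : Type*) [Field K]

/-- diagonal coefficient -/
def coA : (Fin r → ℕ) → ℕ → List (Fin r) → K
  | κ, 0, a :: b :: _ => if a = b then 1 else (((ct κ b - ct κ a : ℤ) : K))⁻¹
  | κ, i + 1, a :: t => coA (add κ a) i t
  | _, _, _ => 1

/-- off-diagonal coefficient -/
def coC : (Fin r → ℕ) → ℕ → List (Fin r) → K
  | κ, 0, a :: b :: _ => if a = b then 0 else 1 - (((ct κ b - ct κ a : ℤ) : K))⁻¹
  | κ, i + 1, a :: t => coC (add κ a) i t
  | _, _, _ => 0

end defs

variable {K : Type*} [Field K]

/-- the adjacent transposition `s_i` in seminormal form, start shape `κ` -/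
def T (κ : Fin r → ℕ) (i : ℕ) : (List (Fin r) → K) →ₗ[K] (List (Fin r) → K) where
  toFun f := fun w => coA K κ i w * f w + coC K κ i w * f (sw i w)
  map_add' f g := by
    funext w
    simp only [Pi.add_apply]
    ring
  map_smul' c f := by
    funext w
    simp only [Pi.smul_apply, smul_eq_mul, RingHom.id_apply]
    ring

lemma T_apply (κ : Fin r → ℕ) (i : ℕ) (f : List (Fin r) → K) (w : List (Fin r)) :
    T κ i f w = coA K κ i w * f w + coC K κ i w * f (sw i w) := rfl

lemma T_zero_eq (κ : Fin r → ℕ) (f : List (Fin r) → K) (a : Fin r) (t : List (Fin r)) :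
    T κ 0 f (a :: a :: t) = f (a :: a :: t) := by
  simp [T_apply, coA, coC]

lemma T_zero_ne (κ : Fin r → ℕ) (f : List (Fin r) → K) {a b : Fin r} (h : a ≠ b)
    (t : List (Fin r)) :
    T κ 0 f (a :: b :: t) = (((ct κ b - ct κ a : ℤ) : K))⁻¹ * f (a :: b :: t) +
      (1 - (((ct κ b - ct κ a : ℤ) : K))⁻¹) * f (b :: a :: t) := by
  simp [T_apply, coA, coC, h, sw]

lemma T_succ (κ : Fin r → ℕ) (i : ℕ) (f : List (Fin r) → K) (a : Fin r) (t : List (Fin r)) :
    T κ (i + 1) f (a :: t) = T (add κ a) i (fun u => f (a :: u)) t := by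
  simp [T_apply, coA, coC, sw]

@[simp] lemma T_nil (κ : Fin r → ℕ) (i : ℕ) (f : List (Fin r) → K) : T κ i f [] = f [] := by
  cases i <;> simp [T_apply, coA, coC]

@[simp] lemma T_zero_single (κ : Fin r → ℕ) (f : List (Fin r) → K) (a : Fin r) :
    T κ 0 f [a] = f [a] := by
  simp [T_apply, coA, coC]

/-! ### basic facts on shapes -/

lemma add_same (κ : Fin r → ℕ) (a : Fin r) : add κ a a = κ a + 1 := by simp [add]

lemma add_ne (κ : Fin r → ℕ) {a b : Fin r} (h : b ≠ a) : add κ a b = κ b := by simp [add, h]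

lemma add_comm' (κ : Fin r → ℕ) (a b : Fin r) : add (add κ a) b = add (add κ b) a := by
  by_cases h : a = b
  · rw [h]
  · funext c
    by_cases hc : c = b
    · subst hc
      rw [add_same, add_ne _ (Ne.symm h), add_ne _ (Ne.symm h), add_same]
    · rw [add_ne _ hc]
      by_cases hc2 : c = a
      · subst hc2
        rw [add_same, add_same, add_ne _ h]
      · rw [add_ne _ hc2, add_ne _ hc2, add_ne _ hc]

lemma ct_add_same (κ : Fin r → ℕ) (a : Fin r) : ct (add κ a) a = ct κ a + 1 := by
  unfold ct
  rw [add_same]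
  push_cast
  ring

lemma ct_add_ne (κ : Fin r → ℕ) {a b : Fin r} (h : b ≠ a) : ct (add κ a) b = ct κ b := by
  unfold ct
  rw [add_ne _ h]

lemma Lat.anti {κ : Fin r → ℕ} {w : List (Fin r)} (h : Lat κ w) : Antitone κ := by
  cases w with
  | nil => exact h
  | cons a t => exact h.1

lemma lat_cons {κ : Fin r → ℕ} {a : Fin r} {t : List (Fin r)} :
    Lat κ (a :: t) ↔ Antitone κ ∧ Lat (add κ a) t := Iff.rfl

@[simp] lemma lat_nil {κ : Fin r → ℕ} : Lat κ [] ↔ Antitone κ := Iff.rfl

lemma Lat.sh_anti {κ : Fin r → ℕ} {w : List (Fin r)} (h : Lat κ w) : Antitone (sh κ w) := by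
  induction w generalizing κ with
  | nil => exact h
  | cons a t ih => exact ih h.2

lemma sh_append (κ : Fin r → ℕ) (x y : List (Fin r)) : sh κ (x ++ y) = sh (sh κ x) y := by
  induction x generalizing κ with
  | nil => rfl
  | cons a t ih => exact ih _

lemma lat_append (κ : Fin r → ℕ) (x y : List (Fin r)) :
    Lat κ (x ++ y) ↔ Lat κ x ∧ Lat (sh κ x) y := by
  induction x generalizing κ with
  | nil =>
    simp only [List.nil_append, lat_nil, sh]
    exact ⟨fun h => ⟨h.anti, h⟩, fun h => h.2⟩
  | cons a t ih =>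
    rw [List.cons_append, lat_cons, lat_cons, ih, sh]
    tauto

@[simp] lemma length_sw {α : Type*} (i : ℕ) (w : List α) : (sw i w).length = w.length := by
  induction i generalizing w with
  | zero => rcases w with _ | ⟨a, _ | ⟨b, t⟩⟩ <;> simp [sw]
  | succ i ih => rcases w with _ | ⟨a, t⟩ <;> simp [sw, ih]

@[simp] lemma sw_sw {α : Type*} (i : ℕ) (w : List α) : sw i (sw i w) = w := by
  induction i generalizing w with
  | zero => rcases w with _ | ⟨a, _ | ⟨b, t⟩⟩ <;> simp [sw]
  | succ i ih => rcases w with _ | ⟨a, t⟩ <;> simp [sw, ih]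

lemma sh_sw (κ : Fin r → ℕ) (i : ℕ) (w : List (Fin r)) : sh κ (sw i w) = sh κ w := by
  induction i generalizing κ w with
  | zero =>
    rcases w with _ | ⟨a, _ | ⟨b, t⟩⟩
    · rfl
    · rfl
    · simp only [sw, sh]
      rw [add_comm']
  | succ i ih =>
    rcases w with _ | ⟨a, t⟩
    · rfl
    · simp only [sw, sh]
      rw [ih]

/-- contents in different rows of a partition are different -/
lemma ct_ne {κ : Fin r → ℕ} (hκ : Antitone κ) {a b : Fin r} (h : a ≠ b) : ct κ b - ct κ a ≠ 0 := by
  unfold ct
  rcases lt_or_gt_of_ne h with h1 | h1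
  · have h2 : κ b ≤ κ a := hκ h1.le
    have h3 : (a : ℕ) < b := h1
    omega
  · have h2 : κ a ≤ κ b := hκ h1.le
    have h3 : (b : ℕ) < a := h1
    omega

/-- if `κ + a` and `κ + b` are partitions with `a ≠ b` then the content difference is not `1` -/
lemma ct_ne_one {κ : Fin r → ℕ} (hκ : Antitone κ) {a b : Fin r} (h : a ≠ b)
    (ha : Antitone (add κ a)) : ct κ b - ct κ a ≠ 1 := by
  intro hd
  unfold ct at hd
  rcases lt_or_gt_of_ne h with h1 | h1
  · have h2 : κ b ≤ κ a := hκ h1.le
    have h3 : (a : ℕ) < b := h1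
    omega
  · -- b < a, so κ b ≥ κ a + 1
    have h2 : add κ a a ≤ add κ a b := ha h1.le
    rw [add_same, add_ne κ h.symm] at h2
    have h3 : (b : ℕ) < a := h1
    omega

/-- the converse: if `κ`, `κ + b`, `κ + b + a` are partitions, `a ≠ b`, but `κ + a` is not,
then the content difference `ct κ b - ct κ a` is `1` -/
lemma ct_eq_one {κ : Fin r → ℕ} (hκ : Antitone κ) {a b : Fin r} (h : a ≠ b)
    (hab : Antitone (add (add κ b) a)) (hna : ¬ Antitone (add κ a)) :
    ct κ b - ct κ a = 1 := by
  -- find the failure of monotonicity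
  have h1 : ∃ c : Fin r, c < a ∧ κ c < κ a + 1 := by
    by_contra hcon
    push Not at hcon
    apply hna
    intro x y hxy
    by_cases hy : y = a
    · subst hy
      by_cases hx : x = y
      · rw [hx]
      · rw [add_same, add_ne κ hx]
        exact hcon x (lt_of_le_of_ne hxy hx)
    · rw [add_ne κ hy]
      by_cases hx : x = a
      · subst hx
        rw [add_same]
        have := hκ hxy
        omega
      · rw [add_ne κ hx]
        exact hκ hxy
  obtain ⟨c, hca, hc⟩ := h1
  have h2 : add (add κ b) a a ≤ add (add κ b) a c := hab hca.le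
  rw [add_same, add_ne κ h, add_ne _ hca.ne] at h2
  have h3 : κ a ≤ κ c := hκ hca.le
  have hcb : c = b := by
    by_contra hcb
    rw [add_ne κ hcb] at h2
    omega
  subst hcb
  rw [add_same] at h2
  -- c = b < a, κ b = κ a
  have h4 : κ c = κ a := by omega
  -- b = a - 1
  have h5 : (a : ℕ) = c + 1 := by
    by_contra h6
    have h7 : (c : ℕ) + 1 < a := by
      have : (c : ℕ) < a := hca
      omega
    let e : Fin r := ⟨(c : ℕ) + 1, by omega⟩
    have hce : c < e := by
      change (c : ℕ) < (c : ℕ) + 1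
      omega
    have hea : e < a := h7
    have h8 : add (add κ c) a a ≤ add (add κ c) a e := hab hea.le
    rw [add_same, add_ne κ h, add_ne _ hea.ne, add_ne κ hce.ne'] at h8
    have h9 : κ e ≤ κ c := hκ hce.le
    omega
  unfold ct
  omega

/-- vectors supported on lattice words of length `n` -/
def V (K : Type*) [Field K] (κ : Fin r → ℕ) (n : ℕ) : Submodule K (List (Fin r) → K) where
  carrier := {f | ∀ w, ¬ (Lat κ w ∧ w.length = n) → f w = 0}
  add_mem' := by
    intro f g hf hg w hw
    simp [hf w hw, hg w hw]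
  zero_mem' := fun _ _ => rfl
  smul_mem' := by
    intro c f hf w hw
    simp [hf w hw]

lemma mem_V {κ : Fin r → ℕ} {n : ℕ} {f : List (Fin r) → K} :
    f ∈ V K κ n ↔ ∀ w, ¬ (Lat κ w ∧ w.length = n) → f w = 0 := Iff.rfl

lemma V_cons {κ : Fin r → ℕ} {n : ℕ} {f : List (Fin r) → K} (hf : f ∈ V K κ (n + 1))
    (a : Fin r) : (fun u => f (a :: u)) ∈ V K (add κ a) n := by
  intro w hw
  apply hf
  rintro ⟨h1, h2⟩
  exact hw ⟨h1.2, by simpa using h2⟩

/-- **`V` is stable** -/
lemma T_mem {κ : Fin r → ℕ} {n : ℕ} {f : List (Fin r) → K} (i : ℕ) (hf : f ∈ V K κ n) :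
    T κ i f ∈ V K κ n := by
  induction i generalizing κ n f with
  | zero =>
    intro w hw
    rcases w with _ | ⟨a, _ | ⟨b, t⟩⟩
    · rw [T_nil]; exact hf _ hw
    · rw [T_zero_single]; exact hf _ hw
    · by_cases hab : a = b
      · subst hab
        rw [T_zero_eq]; exact hf _ hw
      · rw [T_zero_ne κ f hab, hf _ hw, mul_zero, zero_add]
        by_cases hw2 : Lat κ (b :: a :: t) ∧ (b :: a :: t).length = n
        · -- then κ + a is not a partition
          have hκ := hw2.1.anti
          have h1 : Antitone (add (add κ b) a) := hw2.1.2.2.anti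
          have h2 : ¬ Antitone (add κ a) := by
            intro h3
            apply hw
            refine ⟨⟨hκ, h3, ?_⟩, by simpa using hw2.2⟩
            rw [add_comm']
            exact hw2.1.2.2
          rw [ct_eq_one hκ hab h1 h2]
          simp
        · rw [hf _ hw2, mul_zero]
  | succ i ih =>
    intro w hw
    rcases w with _ | ⟨a, t⟩
    · rw [T_nil]; exact hf _ hw
    · rw [T_succ]
      rcases n with _ | n
      · -- f (a :: u) = 0 for all u
        have h0 : (fun u => f (a :: u)) = 0 := by
          funext u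
          exact hf _ (fun h => by simpa using h.2)
        rw [h0, map_zero]
        rfl
      · by_cases hκ : Antitone κ
        · apply ih (V_cons hf a)
          rintro ⟨h1, h2⟩
          exact hw ⟨⟨hκ, h1⟩, by simpa using h2⟩
        · have h0 : (fun u => f (a :: u)) = 0 := by
            funext u
            exact hf _ (fun h => hκ h.1.anti)
          rw [h0, map_zero]
          rfl

end Crest.Agent.R187.SN
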