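import Mathlib
import Crest.Agent.R187.SN.Semi

/-!
# Row 187, PLAN S, block (A2): Coxeter relations for the seminormal operators
-/

set_option autoImplicit false

namespace Crest.Agent.R187.SN

variable {r : ℕ} {K : Type*} [Field K]

/-- small positive integers are invertible -/
def HK (K : Type*) [Field K] (B : ℕ) : Prop := ∀ m : ℕ, 0 < m → m ≤ B → (m : K) ≠ 0

/-- the bound for shapes -/
def Bd (B : ℕ) (κ : Fin r → ℕ) (n : ℕ) : Prop := ∀ a, κ a + n + r ≤ B

lemma HK.int {B : ℕ} (hK : HK K B) {z : ℤ} (hz : z ≠ 0) (h : |z| ≤ B) : (z : K) ≠ 0 := by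
  have h' : z.natAbs ≤ B := by
    rw [Int.abs_eq_natAbs] at h
    exact_mod_cast h
  have h1 : (z.natAbs : K) ≠ 0 := hK _ (Int.natAbs_pos.2 hz) h'
  intro h2
  apply h1
  have h4 : ((z.natAbs : ℤ) : K) = 0 := by
    rcases Int.natAbs_eq z with h3 | h3
    · rw [← h3]
      exact h2
    · have h5 : (z.natAbs : ℤ) = -z := by omega
      rw [h5, Int.cast_neg, h2, neg_zero]
  rwa [Int.cast_natCast] at h4

lemma Bd.add {B : ℕ} {κ : Fin r → ℕ} {n : ℕ} (h : Bd B κ (n + 1)) (a : Fin r) :
    Bd B (add κ a) n := by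
  intro b
  have := h b
  by_cases hb : b = a
  · subst hb
    rw [add_same]
    omega
  · rw [add_ne κ hb]
    omega

lemma abs_ct_sub {B : ℕ} {κ : Fin r → ℕ} {n : ℕ} (h : Bd B κ n) (a b : Fin r) :
    |ct κ b - ct κ a| + n ≤ B := by
  have h1 := h a
  have h2 := h b
  have h3 := a.2
  have h4 := b.2
  unfold ct
  rw [← le_sub_iff_add_le, abs_le]
  constructor <;> omega

lemma T_mem' {κ : Fin r → ℕ} {n : ℕ} {f : List (Fin r) → K} (i : ℕ) (hf : f ∈ V K κ n)
    {w : List (Fin r)} (hw : ¬ (Lat κ w ∧ w.length = n)) : T κ i f w = 0 :=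
  T_mem i hf w hw

/-- `s_i ^ 2 = 1` -/
lemma T_sq {B : ℕ} (hK : HK K B) (i : ℕ) {κ : Fin r → ℕ} {n : ℕ} (hB : Bd B κ n)
    {f : List (Fin r) → K} (hf : f ∈ V K κ n) : T κ i (T κ i f) = f := by
  induction i generalizing κ n f with
  | zero =>
    funext w
    rcases w with _ | ⟨a, _ | ⟨b, t⟩⟩
    · simp
    · simp
    · by_cases hab : a = b
      · subst hab
        rw [T_zero_eq, T_zero_eq]
      · by_cases hκ : Antitone κ
        · have hd : (((ct κ b - ct κ a : ℤ) : K)) ≠ 0 :=
            hK.int (ct_ne hκ hab) (by have := abs_ct_sub hB a b; omega)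
          rw [T_zero_ne κ _ hab, T_zero_ne κ _ hab, T_zero_ne κ _ (Ne.symm hab)]
          have e1 : (((ct κ a - ct κ b : ℤ) : K)) = -(((ct κ b - ct κ a : ℤ) : K)) := by
            push_cast; ring
          rw [e1]
          field_simp
          ring
        · rw [hf _ (fun h => hκ h.1.anti)]
          exact T_mem 0 (T_mem 0 hf) _ (fun h => hκ h.1.anti)
  | succ i ih =>
    funext w
    rcases w with _ | ⟨a, t⟩
    · simp
    · rw [T_succ]
      have e1 : (fun u => T κ (i + 1) f (a :: u)) = T (add κ a) i (fun u => f (a :: u)) := by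
        funext u
        rw [T_succ]
      rw [e1]
      rcases n with _ | n
      · have h0 : (fun u => f (a :: u)) = 0 := by
          funext u
          exact hf _ (fun h => by simpa using h.2)
        rw [h0, map_zero, map_zero]
        exact (hf _ (fun h => by simpa using h.2)).symm
      · rw [ih (hB.add a) (V_cons hf a)]

/-- far commutation, for all functions -/
lemma T_comm (i j : ℕ) (hij : i + 1 < j) (κ : Fin r → ℕ) (f : List (Fin r) → K) :
    T κ i (T κ j f) = T κ j (T κ i f) := by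
  induction i generalizing κ f j with
  | zero =>
    obtain ⟨j, rfl⟩ : ∃ j', j = j' + 2 := ⟨j - 2, by omega⟩
    funext w
    rcases w with _ | ⟨a, _ | ⟨b, t⟩⟩
    · simp
    · rw [T_zero_single, T_succ, T_succ, T_nil, T_nil, T_zero_single]
    · have e1 : ∀ (g : List (Fin r) → K) (a b : Fin r) (t : List (Fin r)),
          T κ (j + 2) g (a :: b :: t) = T (add (add κ a) b) j (fun u => g (a :: b :: u)) t := by
        intro g a b t
        rw [T_succ, T_succ]
      by_cases hab : a = b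
      · subst hab
        have e2 : (fun u => T κ 0 f (a :: a :: u)) = fun u => f (a :: a :: u) := by
          funext u
          rw [T_zero_eq]
        rw [T_zero_eq, e1, e1, e2]
      · rw [T_zero_ne κ _ hab, e1, e1, e1, add_comm' κ b a]
        have e2 : (fun u => T κ 0 f (a :: b :: u)) =
            (((ct κ b - ct κ a : ℤ) : K))⁻¹ • (fun u => f (a :: b :: u)) +
              (1 - (((ct κ b - ct κ a : ℤ) : K))⁻¹) • (fun u => f (b :: a :: u)) := by
          funext u
          rw [T_zero_ne κ _ hab]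
          simp
        rw [e2, map_add, map_smul, map_smul]
        simp
  | succ i ih =>
    obtain ⟨j, rfl⟩ : ∃ j', j = j' + 1 := ⟨j - 1, by omega⟩
    funext w
    rcases w with _ | ⟨a, t⟩
    · simp
    · rw [T_succ, T_succ]
      have e1 : (fun u => T κ (j + 1) f (a :: u)) = T (add κ a) j (fun u => f (a :: u)) := by
        funext u
        rw [T_succ]
      have e2 : (fun u => T κ (i + 1) f (a :: u)) = T (add κ a) i (fun u => f (a :: u)) := by
        funext u
        rw [T_succ]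
      rw [e1, e2, ih j (by omega)]

section braid

variable {B : ℕ}

lemma T1_ne (κ : Fin r → ℕ) (f : List (Fin r) → K) (a : Fin r) {b c : Fin r} (h : b ≠ c)
    (t : List (Fin r)) :
    T κ 1 f (a :: b :: c :: t) = (((ct (add κ a) c - ct (add κ a) b : ℤ) : K))⁻¹ *
      f (a :: b :: c :: t) +
      (1 - (((ct (add κ a) c - ct (add κ a) b : ℤ) : K))⁻¹) * f (a :: c :: b :: t) := by
  rw [T_succ, T_zero_ne _ _ h]

lemma T1_eq (κ : Fin r → ℕ) (f : List (Fin r) → K) (a b : Fin r) (t : List (Fin r)) :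
    T κ 1 f (a :: b :: b :: t) = f (a :: b :: b :: t) := by
  rw [T_succ, T_zero_eq]

/-- braid relation at distinct letters -/
lemma braid_distinct (κ : Fin r → ℕ) (f : List (Fin r) → K) {a b c : Fin r}
    (hab : a ≠ b) (hac : a ≠ c) (hbc : b ≠ c) (t : List (Fin r))
    (h1 : ((ct κ b : K) - ct κ a) ≠ 0) (h2 : ((ct κ c : K) - ct κ b) ≠ 0)
    (h3 : ((ct κ c : K) - ct κ a) ≠ 0) :
    T κ 0 (T κ 1 (T κ 0 f)) (a :: b :: c :: t) = T κ 1 (T κ 0 (T κ 1 f)) (a :: b :: c :: t) := by
  simp only [T_zero_ne κ _ hab, T_zero_ne κ _ hac, T_zero_ne κ _ hbc, T_zero_ne κ _ hab.symm,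
    T_zero_ne κ _ hbc.symm, T1_ne κ _ _ hab, T1_ne κ _ _ hac,
    T1_ne κ _ _ hbc, T1_ne κ _ _ hab.symm, T1_ne κ _ _ hac.symm, T1_ne κ _ _ hbc.symm,
    ct_add_ne κ hab, ct_add_ne κ hac, ct_add_ne κ hbc, ct_add_ne κ hab.symm,
    ct_add_ne κ hac.symm, ct_add_ne κ hbc.symm, Int.cast_sub]
  set x := (ct κ a : K)
  set y := (ct κ b : K)
  set z := (ct κ c : K)
  have e1 : x - y = -(y - x) := by ring
  have e2 : y - z = -(z - y) := by ring
  rw [e1, e2]
  have e4 : z - x = (z - y) + (y - x) := by ring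
  rw [e4] at h3 ⊢
  set p := y - x
  set q := z - y
  field_simp
  ring

/-- braid relation at the words `aac, aca, caa` (`d = ct κ c - ct κ a`) -/
lemma braid_aac (κ : Fin r → ℕ) (f : List (Fin r) → K) {a c : Fin r} (hac : a ≠ c)
    (t : List (Fin r)) (h0 : ((ct κ c : K) - ct κ a) ≠ 0)
    (h1 : ((ct κ c : K) - ct κ a - 1) ≠ 0) :
    T κ 0 (T κ 1 (T κ 0 f)) (a :: a :: c :: t) = T κ 1 (T κ 0 (T κ 1 f)) (a :: a :: c :: t) ∧
    T κ 0 (T κ 1 (T κ 0 f)) (a :: c :: a :: t) = T κ 1 (T κ 0 (T κ 1 f)) (a :: c :: a :: t) ∧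
    T κ 0 (T κ 1 (T κ 0 f)) (c :: a :: a :: t) = T κ 1 (T κ 0 (T κ 1 f)) (c :: a :: a :: t) := by
  have e2 : (ct κ c : K) = ((ct κ c : K) - ct κ a) + ct κ a := by ring
  simp only [T_zero_ne κ _ hac, T_zero_ne κ _ hac.symm, T_zero_eq, T1_eq, T1_ne κ _ _ hac,
    T1_ne κ _ _ hac.symm, ct_add_ne κ hac, ct_add_ne κ hac.symm, ct_add_same, Int.cast_sub,
    Int.cast_add, Int.cast_one]
  set x := (ct κ a : K)
  set z := (ct κ c : K)
  have e3 : x - z = -(z - x) := by ring
  have e4 : z - (x + 1) = z - x - 1 := by ring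
  have e5 : x + 1 - z = -(z - x - 1) := by ring
  rw [e3, e4, e5]
  set p := z - x
  have h1' : p - 1 ≠ 0 := h1
  refine ⟨?_, ?_, ?_⟩ <;> field_simp <;> ring

/-- integrality facts for three boxes -/
lemma three_ne {κ : Fin r → ℕ} (hκ : Antitone κ) {a c : Fin r} (hac : a ≠ c)
    (h : Antitone (add (add (add κ a) a) c)) : ct κ c - ct κ a ≠ 0 ∧ ct κ c - ct κ a - 1 ≠ 0 := by
  refine ⟨ct_ne hκ hac, ?_⟩
  intro hd
  unfold ct at hd
  rcases lt_or_gt_of_ne hac with h1 | h1
  · have h2 : κ c ≤ κ a := hκ h1.le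
    have h3 : (a : ℕ) < c := h1
    omega
  · have h2 := h h1.le
    rw [add_ne _ hac, add_same, add_same, add_same, add_ne _ hac.symm, add_ne _ hac.symm] at h2
    have h3 : (c : ℕ) < a := h1
    omega

lemma T_braid_zero (hK : HK K B) {κ : Fin r → ℕ} {n : ℕ} (hB : Bd B κ n) (hn : 2 < n)
    {f : List (Fin r) → K} (hf : f ∈ V K κ n) :
    T κ 0 (T κ 1 (T κ 0 f)) = T κ 1 (T κ 0 (T κ 1 f)) := by
  funext w
  by_cases hw : Lat κ w ∧ w.length = n
  swap
  · rw [T_mem' 0 (T_mem 1 (T_mem 0 hf)) hw, T_mem' 1 (T_mem 0 (T_mem 1 hf)) hw]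
  rcases w with _ | ⟨a, _ | ⟨b, _ | ⟨c, t⟩⟩⟩
  · exfalso
    have := hw.2
    simp at this
    omega
  · exfalso
    have := hw.2
    simp at this
    omega
  · exfalso
    have := hw.2
    simp at this
    omega
  have hκ := hw.1.anti
  have h3 : Antitone (add (add (add κ a) b) c) := hw.1.2.2.2.anti
  have key : ∀ x y : Fin r, x ≠ y → ((ct κ y : K) - ct κ x) ≠ 0 := by
    intro x y hxy
    have := hK.int (ct_ne hκ hxy) (by have := abs_ct_sub hB x y; omega)
    push_cast at this
    exact this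
  have key1 : ∀ x y : Fin r, ct κ y - ct κ x - 1 ≠ 0 → ((ct κ y : K) - ct κ x - 1) ≠ 0 := by
    intro x y hxy
    have := hK.int hxy (by
      have h4 := abs_ct_sub hB x y
      have h5 : |ct κ y - ct κ x - 1| ≤ |ct κ y - ct κ x| + |(1 : ℤ)| := abs_sub _ _
      rw [abs_one] at h5
      omega)
    push_cast at this
    exact this
  by_cases hab : a = b
  · subst hab
    by_cases hac : a = c
    · subst hac
      simp only [T_zero_eq, T1_eq]
    · obtain ⟨-, h5⟩ := three_ne hκ hac h3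
      exact (braid_aac κ f hac t (key _ _ hac) (key1 _ _ h5)).1
  · by_cases hac : a = c
    · subst hac
      have h3' : Antitone (add (add (add κ a) a) b) := by
        rw [add_comm' _ a b]
        exact h3
      obtain ⟨-, h5⟩ := three_ne hκ hab h3'
      exact (braid_aac κ f hab t (key _ _ hab) (key1 _ _ h5)).2.1
    · by_cases hbc : b = c
      · subst hbc
        have h3' : Antitone (add (add (add κ b) b) a) := by
          rw [add_comm' _ b a, add_comm' _ b a]
          exact h3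
        obtain ⟨-, h5⟩ := three_ne hκ (Ne.symm hab) h3'
        exact (braid_aac κ f (Ne.symm hab) t (key _ _ (Ne.symm hab)) (key1 _ _ h5)).2.2
      · exact braid_distinct κ f hab hac hbc t (key _ _ hab) (key _ _ hbc) (key _ _ hac)

/-- the braid relation -/
lemma T_braid (hK : HK K B) (i : ℕ) {κ : Fin r → ℕ} {n : ℕ} (hB : Bd B κ n) (hn : i + 2 < n)
    {f : List (Fin r) → K} (hf : f ∈ V K κ n) :
    T κ i (T κ (i + 1) (T κ i f)) = T κ (i + 1) (T κ i (T κ (i + 1) f)) := by
  induction i generalizing κ n f with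
  | zero => exact T_braid_zero hK hB hn hf
  | succ i ih =>
    obtain ⟨n, rfl⟩ : ∃ n', n = n' + 1 := ⟨n - 1, by omega⟩
    funext w
    rcases w with _ | ⟨a, t⟩
    · simp
    · have e1 : ∀ (j : ℕ) (g : List (Fin r) → K), (fun u => T κ (j + 1) g (a :: u)) =
          T (add κ a) j (fun u => g (a :: u)) := by
        intro j g
        funext u
        rw [T_succ]
      rw [T_succ, T_succ, e1, e1, e1, e1, ih (hB.add a) (by omega) (V_cons hf a)]

end braid

end Crest.Agent.R187.SN
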