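import Mathlib
import Crest.Agent.R187.SN.SemiRel
import Crest.Agent.R187.SN.Coxeter

/-!
# Row 187, PLAN S, block (A2)/(A3): the modules and the Jucys–Murphy elements
-/

set_option autoImplicit false

namespace Crest.Agent.R187.SN

variable {r : ℕ} {K : Type*} [Field K]

/-! ### append rules -/

lemma T_append_left (κ : Fin r → ℕ) (i : ℕ) (f : List (Fin r) → K) (x y : List (Fin r))
    (h : i + 1 < x.length) :
    T κ i f (x ++ y) = T κ i (fun u => f (u ++ y)) x := by
  induction i generalizing κ f x with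
  | zero =>
    rcases x with _ | ⟨a, _ | ⟨b, t⟩⟩
    · simp at h
    · simp at h
    · by_cases hab : a = b
      · subst hab
        rw [T_zero_eq, List.cons_append, List.cons_append, T_zero_eq]
      · rw [T_zero_ne κ _ hab, List.cons_append, List.cons_append, T_zero_ne κ _ hab]
        rfl
  | succ i ih =>
    rcases x with _ | ⟨a, t⟩
    · simp at h
    · rw [List.cons_append, T_succ, T_succ, ih _ _ _ (by simpa using h)]
      rfl

lemma T_append_right (κ : Fin r → ℕ) (j : ℕ) (f : List (Fin r) → K) (x y : List (Fin r)) :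
    T κ (x.length + j) f (x ++ y) = T (sh κ x) j (fun u => f (x ++ u)) y := by
  induction x generalizing κ f with
  | nil => simp [sh]
  | cons a t ih =>
    have h1 : (a :: t).length + j = (t.length + j) + 1 := by
      simp only [List.length_cons]; omega
    rw [h1, List.cons_append, T_succ, ih]
    rfl

/-! ### contents of the letters of a word -/

/-- content of the `t`-th box -/
def cn : (Fin r → ℕ) → List (Fin r) → ℕ → ℤ
  | κ, a :: _, 0 => ct κ a
  | κ, a :: w, t + 1 => cn (add κ a) w t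
  | _, [], _ => 0

lemma loc (κ : Fin r → ℕ) (t : ℕ) (w : List (Fin r)) (h : t + 1 < w.length) :
    (coA K κ t w = 1 ∧ coC K κ t w = 0 ∧ cn κ w (t + 1) = cn κ w t + 1) ∨
    (coA K κ t w = (((cn κ w (t + 1) - cn κ w t : ℤ) : K))⁻¹ ∧
      coC K κ t w = 1 - (((cn κ w (t + 1) - cn κ w t : ℤ) : K))⁻¹ ∧
      coA K κ t (sw t w) = (((cn κ w t - cn κ w (t + 1) : ℤ) : K))⁻¹ ∧
      coC K κ t (sw t w) = 1 - (((cn κ w t - cn κ w (t + 1) : ℤ) : K))⁻¹ ∧
      cn κ (sw t w) t = cn κ w (t + 1) ∧ cn κ (sw t w) (t + 1) = cn κ w t ∧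
      (Antitone (sh κ (w.take t)) → cn κ w (t + 1) - cn κ w t ≠ 0)) := by
  induction t generalizing κ w with
  | zero =>
    rcases w with _ | ⟨a, _ | ⟨b, u⟩⟩
    · simp at h
    · simp at h
    · by_cases hab : a = b
      · subst hab
        left
        simp [coA, coC, cn, ct_add_same]
      · right
        have hba : b ≠ a := Ne.symm hab
        simp only [coA, coC, cn, sw, if_neg hab, if_neg hba, ct_add_ne κ hba, ct_add_ne κ hab,
          List.take_zero, sh, true_and]
        exact fun hκ => ct_ne hκ hab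
  | succ t ih =>
    rcases w with _ | ⟨a, u⟩
    · simp at h
    · have := ih (add κ a) u (by simpa using h)
      simpa only [coA, coC, cn, sw, List.take_succ_cons, sh] using this

lemma abs_cn_sub {B : ℕ} {κ : Fin r → ℕ} {n : ℕ} (hB : Bd B κ n) {w : List (Fin r)}
    (hl : w.length = n) {s t : ℕ} (hs : s < n) (ht : t < n) :
    |cn κ w s - cn κ w t| < B := by
  -- contents lie in (-r, max κ + n)
  have key : ∀ (w : List (Fin r)) (κ : Fin r → ℕ) (n : ℕ), Bd B κ n → w.length = n → ∀ t < n,
      -(r : ℤ) < cn κ w t ∧ cn κ w t + r < B := by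
    intro w
    induction w with
    | nil =>
      intro κ n _ hl t ht
      simp at hl
      omega
    | cons a w ih =>
      intro κ n hB hl t ht
      obtain ⟨n, rfl⟩ : ∃ n', n = n' + 1 := ⟨n - 1, by omega⟩
      rcases t with _ | t
      · simp only [cn, ct]
        have h1 := hB a
        have h2 := a.2
        constructor <;> omega
      · simp only [cn]
        exact ih (add κ a) n (hB.add a) (by simpa using hl) t (by omega)
  have h1 := key w κ n hB hl s hs
  have h2 := key w κ n hB hl t ht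
  rw [abs_lt]
  constructor <;> omega

/-! ### the modules -/

/-- the operators on `V` -/
def TV (κ : Fin r → ℕ) (n i : ℕ) : Module.End K (V K κ n) :=
  (T κ i).restrict (fun _ hf => T_mem i hf)

@[simp] lemma TV_coe (κ : Fin r → ℕ) (n i : ℕ) (f : V K κ n) :
    ((TV κ n i f : V K κ n) : List (Fin r) → K) = T κ i f := rfl

theorem rel_TV {B : ℕ} (hK : HK K B) {κ : Fin r → ℕ} {n : ℕ} (hB : Bd B κ (n + 1)) :
    Cox.Rel n (TV (K := K) κ (n + 1)) where
  sq i _ := by
    ext1 f
    apply Subtype.ext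
    exact T_sq hK i hB f.2
  braid i hi := by
    ext1 f
    apply Subtype.ext
    exact T_braid hK i hB (by omega) f.2
  comm i j hi _ := by
    ext1 f
    apply Subtype.ext
    exact T_comm i j hi κ _

/-- the representation of the symmetric group on `V κ (n+1)` -/
noncomputable def rho {B : ℕ} (hK : HK K B) {κ : Fin r → ℕ} {n : ℕ} (hB : Bd B κ (n + 1)) :
    Equiv.Perm (Fin (n + 1)) →* Module.End K (V K κ (n + 1)) :=
  Classical.choose (Cox.exists_hom_nat n _ (rel_TV hK hB))

theorem rho_s {B : ℕ} (hK : HK K B) {κ : Fin r → ℕ} {n : ℕ} (hB : Bd B κ (n + 1)) (i : ℕ)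
    (hi : i < n) : rho hK hB (Cox.s n i) = TV κ (n + 1) i :=
  Classical.choose_spec (Cox.exists_hom_nat n _ (rel_TV hK hB)) i hi

/-- the representation of the group algebra -/
noncomputable def rhoA {B : ℕ} (hK : HK K B) {κ : Fin r → ℕ} {n : ℕ} (hB : Bd B κ (n + 1)) :
    MonoidAlgebra K (Equiv.Perm (Fin (n + 1))) →ₐ[K] Module.End K (V K κ (n + 1)) :=
  MonoidAlgebra.lift K _ _ (rho hK hB)

@[simp] theorem rhoA_of {B : ℕ} (hK : HK K B) {κ : Fin r → ℕ} {n : ℕ} (hB : Bd B κ (n + 1))
    (g : Equiv.Perm (Fin (n + 1))) : rhoA hK hB (MonoidAlgebra.of K _ g) = rho hK hB g := by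
  unfold rhoA
  rw [MonoidAlgebra.lift_of]

/-! ### Jucys–Murphy elements -/

/-- Jucys–Murphy elements of a family -/
def JM {A : Type*} [Semiring A] (f : ℕ → A) : ℕ → A
  | 0 => 0
  | t + 1 => f t * JM f t * f t + f t

lemma cn_zero_eq {κ : Fin r → ℕ} (hκ : κ = 0) {w : List (Fin r)} (hw : Lat κ w) :
    cn κ w 0 = 0 := by
  subst hκ
  rcases w with _ | ⟨a, t⟩
  · rfl
  · simp only [cn, ct, Pi.zero_apply]
    have h1 : Antitone (add (0 : Fin r → ℕ) a) := hw.2.anti
    by_contra h
    have h2 : 0 < (a : ℕ) := by omega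
    let z : Fin r := ⟨0, by omega⟩
    have hz : z < a := h2
    have h3 := h1 hz.le
    rw [add_same, add_ne _ hz.ne] at h3
    simp at h3

/-- **Jucys–Murphy elements act by contents** (empty start shape). -/
theorem JM_TV {B : ℕ} (hK : HK K B) {n : ℕ} (hB : Bd B (0 : Fin r → ℕ) n) (t : ℕ) (ht : t < n)
    (f : V K (0 : Fin r → ℕ) n) (w : List (Fin r)) :
    (JM (TV (K := K) 0 n) t f : List (Fin r) → K) w = (cn 0 w t : K) * (f : List (Fin r) → K) w := by
  induction t generalizing f w with
  | zero =>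
    by_cases hw : Lat 0 w ∧ w.length = n
    · rw [cn_zero_eq rfl hw.1]
      simp [JM]
    · rw [f.2 w hw, mul_zero]
      simp [JM]
  | succ t ih =>
    by_cases hw : Lat 0 w ∧ w.length = n
    swap
    · rw [f.2 w hw, mul_zero]
      exact (JM (TV (K := K) 0 n) (t + 1) f).2 w hw
    have hih := ih (by omega) (TV 0 n t f)
    have e1 : (JM (TV (K := K) 0 n) (t + 1) f : List (Fin r) → K) w =
        coA K 0 t w * ((cn 0 w t : K) * (T 0 t f) w) +
          coC K 0 t w * ((cn 0 (sw t w) t : K) * (T 0 t f) (sw t w)) + (T 0 t f) w := by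
      have h1 : (JM (TV (K := K) 0 n) (t + 1) f : List (Fin r) → K) w =
          (TV (K := K) 0 n t (JM (TV (K := K) 0 n) t (TV 0 n t f)) : List (Fin r) → K) w +
            (T 0 t f) w := rfl
      rw [h1, TV_coe, T_apply, hih w, hih (sw t w)]
      rfl
    rw [e1, T_apply, T_apply, sw_sw]
    rcases loc (K := K) 0 t w (by omega) with ⟨h1, h2, h3⟩ | ⟨h1, h2, h3, h4, h5, h6, h7⟩
    · rw [h1, h2, h3]
      push_cast
      ring
    · have hlat : Antitone (sh (0 : Fin r → ℕ) (w.take t)) := by
        have h8 : Lat (0 : Fin r → ℕ) (w.take t ++ w.drop t) := by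
          rw [List.take_append_drop]
          exact hw.1
        exact ((lat_append _ _ _).1 h8).1.sh_anti
      have h9 : (((cn 0 w (t + 1) - cn 0 w t : ℤ) : K)) ≠ 0 :=
        hK.int (h7 hlat) (abs_cn_sub hB hw.2 ht (by omega)).le
      rw [h1, h2, h3, h4, h5]
      have e2 : (((cn 0 w t - cn 0 w (t + 1) : ℤ) : K)) =
          -(((cn 0 w (t + 1) - cn 0 w t : ℤ) : K)) := by push_cast; ring
      have e3 : ((cn 0 w (t + 1) : ℤ) : K) = ((cn 0 w (t + 1) - cn 0 w t : ℤ) : K) +
          (cn 0 w t : K) := by push_cast; ring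
      rw [e2, e3]
      set d := (((cn 0 w (t + 1) - cn 0 w t : ℤ) : K))
      field_simp
      ring

end Crest.Agent.R187.SN
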