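import Mathlib
import Crest.Agent.R187.SN.Jucys

/-!
# Row 187, PLAN S, block (A3): density and the dimension inequality
-/

set_option autoImplicit false

namespace Crest.Agent.R187.SN

open scoped Classical

variable {r : ℕ} {K : Type*} [Field K]

/-! ### the finite set of words -/

/-- all words of length `n` -/
noncomputable def words (r : ℕ) : ℕ → Finset (List (Fin r))
  | 0 => {[]}
  | n + 1 => Finset.univ.biUnion fun a : Fin r => (words r n).image (fun w => a :: w)

lemma mem_words {n : ℕ} {w : List (Fin r)} : w ∈ words r n ↔ w.length = n := by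
  induction n generalizing w with
  | zero => simp [words, List.length_eq_zero_iff]
  | succ n ih =>
    simp only [words, Finset.mem_biUnion, Finset.mem_univ, true_and, Finset.mem_image]
    constructor
    · rintro ⟨a, u, hu, rfl⟩
      simp [ih.1 hu]
    · intro h
      rcases w with _ | ⟨a, u⟩
      · simp at h
      · exact ⟨a, u, ih.2 (by simpa using h), rfl⟩

/-- lattice words of length `n` with final shape `lam` (empty start shape) -/
noncomputable def LW (n : ℕ) (lam : Fin r → ℕ) : Finset (List (Fin r)) :=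
  (words r n).filter (fun w => Lat 0 w ∧ sh 0 w = lam)

lemma mem_LW {n : ℕ} {lam : Fin r → ℕ} {w : List (Fin r)} :
    w ∈ LW n lam ↔ w.length = n ∧ Lat 0 w ∧ sh 0 w = lam := by
  unfold LW
  rw [Finset.mem_filter, mem_words]

/-- all lattice words of length `n` -/
noncomputable def LA (r n : ℕ) : Finset (List (Fin r)) := (words r n).filter (fun w => Lat 0 w)

lemma mem_LA {n : ℕ} {w : List (Fin r)} : w ∈ LA r n ↔ w.length = n ∧ Lat 0 w := by
  unfold LA
  rw [Finset.mem_filter, mem_words]

/-! ### basis vectors -/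

/-- basis vector -/
noncomputable def dl (K : Type*) [Field K] {n : ℕ} (w : List (Fin r)) (hw : w ∈ LA r n) :
    V K (0 : Fin r → ℕ) n :=
  ⟨fun u => if u = w then 1 else 0, by
    intro u hu
    change (if u = w then (1 : K) else 0) = 0
    rw [if_neg]
    rintro rfl
    rw [mem_LA] at hw
    exact hu ⟨hw.2, hw.1⟩⟩

lemma dl_apply {n : ℕ} (w : List (Fin r)) (hw : w ∈ LA r n) (u : List (Fin r)) :
    (dl K w hw : List (Fin r) → K) u = if u = w then 1 else 0 := rfl

lemma V_eq_zero {n : ℕ} (f : V K (0 : Fin r → ℕ) n) {w : List (Fin r)} (hw : w ∉ LA r n) :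
    (f : List (Fin r) → K) w = 0 := by
  apply f.2
  rintro ⟨h1, h2⟩
  exact hw (mem_LA.2 ⟨h2, h1⟩)

/-! ### images of Jucys–Murphy elements -/

lemma map_JM {A C : Type*} [Semiring A] [Semiring C] (φ : A →+* C) (f : ℕ → A) (t : ℕ) :
    φ (JM f t) = JM (fun i => φ (f i)) t := by
  induction t with
  | zero => simp [JM]
  | succ t ih => simp [JM, ih]

lemma JM_congr {A : Type*} [Semiring A] {f g : ℕ → A} (t : ℕ) (h : ∀ i < t, f i = g i) :
    JM f t = JM g t := by
  induction t with
  | zero => rfl
  | succ t ih =>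
    simp only [JM]
    rw [ih (fun i hi => h i (by omega)), h t (by omega)]

section main

variable {B n : ℕ} (hK : HK K B) (hB : Bd B (0 : Fin r → ℕ) (n + 1))

/-- functions which are realised as diagonal operators -/
def IsDiag (φ : List (Fin r) → K) : Prop :=
  ∃ y : MonoidAlgebra K (Equiv.Perm (Fin (n + 1))), ∀ (f : V K (0 : Fin r → ℕ) (n + 1))
    (w : List (Fin r)), (rhoA hK hB y f : List (Fin r) → K) w = φ w * (f : List (Fin r) → K) w

lemma isDiag_mul {φ ψ : List (Fin r) → K} (h1 : IsDiag hK hB φ) (h2 : IsDiag hK hB ψ) :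
    IsDiag hK hB (φ * ψ) := by
  obtain ⟨y, hy⟩ := h1
  obtain ⟨z, hz⟩ := h2
  refine ⟨y * z, fun f w => ?_⟩
  rw [map_mul, Module.End.mul_apply, hy, hz, Pi.mul_apply]
  ring

lemma isDiag_one : IsDiag hK hB (1 : List (Fin r) → K) := by
  refine ⟨1, fun f w => ?_⟩
  rw [map_one, Module.End.one_apply, Pi.one_apply, one_mul]

lemma isDiag_prod {ι : Type*} (s : Finset ι) (φ : ι → List (Fin r) → K)
    (h : ∀ i ∈ s, IsDiag hK hB (φ i)) : IsDiag hK hB (∏ i ∈ s, φ i) := by
  induction s using Finset.induction_on with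
  | empty => simpa using isDiag_one hK hB
  | insert a s ha ih =>
    rw [Finset.prod_insert ha]
    exact isDiag_mul hK hB (h a (Finset.mem_insert_self _ _))
      (ih fun i hi => h i (Finset.mem_insert_of_mem hi))

lemma isDiag_lin (t : ℕ) (ht : t < n + 1) (c e : K) :
    IsDiag hK hB (fun w => e * ((cn 0 w t : K) - c)) := by
  let s : ℕ → MonoidAlgebra K (Equiv.Perm (Fin (n + 1))) :=
    fun i => MonoidAlgebra.of K _ (Cox.s n i)
  refine ⟨e • (JM s t - c • 1), fun f w => ?_⟩
  have h1 : rhoA hK hB (JM s t) = JM (TV (K := K) 0 (n + 1)) t := by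
    have h2 := map_JM (rhoA hK hB).toRingHom s t
    have h3 : rhoA hK hB (JM s t) = JM (fun i => rhoA hK hB (s i)) t := h2
    rw [h3]
    apply JM_congr
    intro i hi
    change rhoA hK hB (MonoidAlgebra.of K _ (Cox.s n i)) = _
    rw [rhoA_of, rho_s hK hB i (by omega)]
  have h4 := JM_TV hK hB t ht f w
  rw [map_smul, map_sub, map_smul, map_one, h1]
  have h5 : (((e • (JM (TV (K := K) 0 (n + 1)) t - c • 1) :
      Module.End K (V K (0 : Fin r → ℕ) (n + 1))) f :
      V K (0 : Fin r → ℕ) (n + 1)) : List (Fin r) → K) w =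
      e * ((JM (TV (K := K) 0 (n + 1)) t f : List (Fin r) → K) w -
        c * (f : List (Fin r) → K) w) := rfl
  rw [h5, h4]
  ring

lemma cn_bounds {κ : Fin r → ℕ} {m : ℕ} (hB : Bd B κ m) {w : List (Fin r)}
    (hl : w.length = m) {t : ℕ} (ht : t < m) : -(r : ℤ) < cn κ w t ∧ cn κ w t + r < B := by
  induction w generalizing κ m t with
  | nil =>
    simp at hl
    omega
  | cons a w ih =>
    obtain ⟨m, rfl⟩ : ∃ m', m = m' + 1 := ⟨m - 1, by omega⟩
    rcases t with _ | t
    · simp only [cn, ct]
      have h1 := hB a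
      have h2 := a.2
      constructor <;> omega
    · simp only [cn]
      exact ih (hB.add a) (by simpa using hl) (by omega)

lemma separate {κ : Fin r → ℕ} {w v : List (Fin r)} (hw : Lat κ w) (hv : Lat κ v)
    (hl : w.length = v.length) (hne : w ≠ v) : ∃ t < w.length, cn κ w t ≠ cn κ v t := by
  induction w generalizing κ v with
  | nil =>
    exfalso
    apply hne
    simp at hl
    exact (List.length_eq_zero_iff.1 hl.symm).symm
  | cons a w ih =>
    rcases v with _ | ⟨b, v⟩
    · simp at hl
    · by_cases hab : a = b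
      · subst hab
        have hne' : w ≠ v := fun h => hne (by rw [h])
        obtain ⟨t, ht, h⟩ := ih hw.2 hv.2 (by simpa using hl) hne'
        exact ⟨t + 1, by simpa using ht, h⟩
      · refine ⟨0, by simp, ?_⟩
        simp only [cn]
        have := ct_ne hw.1 hab
        omega

/-- indicator functions of single words are realised -/
lemma isDiag_single (w₀ : List (Fin r)) (h₀ : w₀ ∈ LA r (n + 1)) :
    ∃ φ : List (Fin r) → K, IsDiag hK hB φ ∧ ∀ w ∈ LA r (n + 1), φ w = if w = w₀ then 1 else 0 := by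
  have hsep : ∀ v : {v // v ∈ (LA r (n + 1)).erase w₀}, ∃ t < n + 1, ((cn 0 w₀ t - cn 0 v.1 t : ℤ) : K) ≠ 0 := by
    rintro ⟨v, hv⟩
    rw [Finset.mem_erase] at hv
    obtain ⟨hl0, hlat0⟩ := mem_LA.1 h₀
    obtain ⟨hl, hlat⟩ := mem_LA.1 hv.2
    obtain ⟨t, ht, h⟩ := separate hlat0 hlat (by rw [hl0, hl]) (Ne.symm hv.1)
    rw [hl0] at ht
    have h1 := cn_bounds hB hl0 ht
    have h2 := cn_bounds hB hl ht
    have h3 : |cn 0 w₀ t - cn 0 v t| ≤ (B : ℤ) := by
      rw [abs_le]
      constructor <;> omega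
    exact ⟨t, ht, hK.int (sub_ne_zero.2 h) h3⟩
  choose t ht hne using hsep
  refine ⟨∏ v ∈ ((LA r (n + 1)).erase w₀).attach,
    (fun w => (((cn 0 w₀ (t v) - cn 0 v.1 (t v) : ℤ) : K))⁻¹ *
      ((cn 0 w (t v) : K) - (cn 0 v.1 (t v) : K))), ?_, ?_⟩
  · apply isDiag_prod
    intro v _
    exact isDiag_lin hK hB (t v) (ht v) _ _
  · intro w hw
    rw [Finset.prod_apply]
    by_cases h : w = w₀
    · rw [if_pos h]
      apply Finset.prod_eq_one
      intro v _
      subst h
      have := hne v
      push_cast at this ⊢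
      exact inv_mul_cancel₀ this
    · rw [if_neg h]
      have hmem : w ∈ (LA r (n + 1)).erase w₀ := Finset.mem_erase.2 ⟨h, hw⟩
      apply Finset.prod_eq_zero (Finset.mem_attach _ ⟨w, hmem⟩)
      simp

lemma exists_E (w₀ : List (Fin r)) (h₀ : w₀ ∈ LA r (n + 1)) :
    ∃ y : MonoidAlgebra K (Equiv.Perm (Fin (n + 1))), ∀ f : V K (0 : Fin r → ℕ) (n + 1),
      rhoA hK hB y f = (f : List (Fin r) → K) w₀ • dl K w₀ h₀ := by
  obtain ⟨φ, ⟨y, hy⟩, hφ⟩ := isDiag_single hK hB w₀ h₀
  refine ⟨y, fun f => ?_⟩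
  apply Subtype.ext
  funext w
  rw [hy]
  change φ w * (f : List (Fin r) → K) w = (f : List (Fin r) → K) w₀ * (if w = w₀ then 1 else 0)
  by_cases hw : w ∈ LA r (n + 1)
  · rw [hφ w hw]
    split_ifs with h
    · rw [h]; ring
    · ring
  · rw [V_eq_zero f hw, if_neg (by rintro rfl; exact hw h₀)]
    ring

/-! ### connectivity -/

lemma rtg_lift {α β : Type*} {R : α → α → Prop} {S : β → β → Prop} (f : α → β)
    (h : ∀ a b, R a b → S (f a) (f b)) {a b : α} (hab : Relation.ReflTransGen R a b) :
    Relation.ReflTransGen S (f a) (f b) := by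
  induction hab with
  | refl => exact Relation.ReflTransGen.refl
  | tail _ h2 ih => exact ih.tail (h _ _ h2)

lemma rtg_symm {α : Type*} {R : α → α → Prop} (h : ∀ a b, R a b → R b a) {a b : α}
    (hab : Relation.ReflTransGen R a b) : Relation.ReflTransGen R b a := by
  induction hab with
  | refl => exact Relation.ReflTransGen.refl
  | tail _ h2 ih => exact Relation.ReflTransGen.head (h _ _ h2) ih

/-- adjacency of lattice words -/
def Adj (κ : Fin r → ℕ) (w v : List (Fin r)) : Prop :=
  ∃ i, i + 1 < w.length ∧ v = sw i w ∧ v ≠ w ∧ Lat κ w ∧ Lat κ v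

lemma Adj.symm {κ : Fin r → ℕ} {w v : List (Fin r)} (h : Adj κ w v) : Adj κ v w := by
  obtain ⟨i, hi, rfl, hne, h1, h2⟩ := h
  exact ⟨i, by simpa using hi, by simp, hne.symm, h2, h1⟩

lemma Adj.cons {κ : Fin r → ℕ} {w v : List (Fin r)} (hκ : Antitone κ) {a : Fin r}
    (h : Adj (add κ a) w v) : Adj κ (a :: w) (a :: v) := by
  obtain ⟨i, hi, rfl, hne, h1, h2⟩ := h
  refine ⟨i + 1, by simpa using hi, rfl, ?_, ⟨hκ, h1⟩, ⟨hκ, h2⟩⟩
  intro h
  exact hne (List.cons.inj h).2

lemma descent {κ : Fin r → ℕ} {a b : Fin r} {u : List (Fin r)} (h : Lat κ (a :: b :: u))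
    (hba : b < a) : Lat κ (b :: a :: u) := by
  have h3 : Lat (add (add κ a) b) u := h.2.2
  refine ⟨h.1, ?_, ?_⟩
  · intro x y hxy
    by_cases hy : y = b
    · subst hy
      by_cases hx : x = y
      · rw [hx]
      · have h4 := h3.anti hxy
        have hxa : x ≠ a := by
          rintro rfl
          exact absurd hxy (not_le.2 hba)
        rw [add_same, add_ne _ hba.ne, add_ne _ hx, add_ne _ hxa] at h4
        rw [add_same, add_ne _ hx]
        exact h4
    · rw [add_ne _ hy]
      refine (h.1 hxy).trans ?_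
      by_cases hx : x = b
      · subst hx
        rw [add_same]
        omega
      · rw [add_ne _ hx]
  · rw [add_comm']
    exact h3

lemma reach_insert (a : Fin r) (u : List (Fin r)) (κ : Fin r → ℕ) (h : Lat κ (a :: u)) :
    Relation.ReflTransGen (Adj κ) (a :: u) (u.orderedInsert (· ≤ ·) a) := by
  induction u generalizing κ with
  | nil => exact Relation.ReflTransGen.refl
  | cons b u ih =>
    rw [List.orderedInsert_cons]
    split_ifs with hab
    · exact Relation.ReflTransGen.refl
    · have hba : b < a := not_le.1 hab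
      have h1 := descent h hba
      have h2 : Adj κ (a :: b :: u) (b :: a :: u) :=
        ⟨0, by simp, rfl, fun h3 => hba.ne (List.cons.inj h3).1, h, h1⟩
      refine Relation.ReflTransGen.head h2 ?_
      exact rtg_lift (fun u => b :: u) (fun _ _ h => h.cons h1.1) (ih (add κ b) h1.2)

lemma reach_lat {κ : Fin r → ℕ} {w v : List (Fin r)} (h : Relation.ReflTransGen (Adj κ) w v)
    (hw : Lat κ w) : Lat κ v := by
  induction h with
  | refl => exact hw
  | tail _ h2 _ =>
    obtain ⟨i, _, _, _, _, h6⟩ := h2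
    exact h6

lemma reach_sort (w : List (Fin r)) (κ : Fin r → ℕ) (h : Lat κ w) :
    Relation.ReflTransGen (Adj κ) w (w.insertionSort (· ≤ ·)) := by
  induction w generalizing κ with
  | nil => exact Relation.ReflTransGen.refl
  | cons a u ih =>
    have h1 : Relation.ReflTransGen (Adj κ) (a :: u) (a :: u.insertionSort (· ≤ ·)) :=
      rtg_lift (fun u => a :: u) (fun _ _ h' => h'.cons h.1) (ih (add κ a) h.2)
    rw [List.insertionSort_cons]
    exact h1.trans (reach_insert a _ κ (reach_lat h1 h))

lemma sh_count (κ : Fin r → ℕ) (w : List (Fin r)) (a : Fin r) :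
    sh κ w a = κ a + w.count a := by
  induction w generalizing κ with
  | nil => simp [sh]
  | cons b u ih =>
    simp only [sh]
    rw [ih, List.count_cons]
    by_cases h : b = a
    · subst h
      rw [add_same]
      simp
      omega
    · rw [add_ne _ (Ne.symm h)]
      simp [h]

lemma reach {κ : Fin r → ℕ} {w v : List (Fin r)} (hw : Lat κ w) (hv : Lat κ v)
    (h : sh κ w = sh κ v) : Relation.ReflTransGen (Adj κ) w v := by
  have hperm : w.Perm v := by
    rw [List.perm_iff_count]
    intro a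
    have := congrFun h a
    rw [sh_count, sh_count] at this
    omega
  have hs : w.insertionSort (· ≤ ·) = v.insertionSort (· ≤ ·) := by
    apply List.Perm.eq_of_pairwise (le := (· ≤ ·)) (fun _ _ _ _ h1 h2 => le_antisymm h1 h2)
      (List.pairwise_insertionSort (· ≤ ·) w) (List.pairwise_insertionSort (· ≤ ·) v)
    exact (List.perm_insertionSort _ w).trans (hperm.trans (List.perm_insertionSort _ v).symm)
  have h1 := reach_sort w κ hw
  have h2 := reach_sort v κ hv
  rw [hs] at h1
  refine h1.trans ?_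
  exact rtg_symm (fun _ _ h => h.symm) h2

end main

end Crest.Agent.R187.SN
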