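import Mathlib
import Crest.Agent.R187.SN.Density

/-!
# Row 187, PLAN S, block (A3): the dimension inequality
-/

set_option autoImplicit false

namespace Crest.Agent.R187.SN

open scoped Classical

variable {r : ℕ} {K : Type*} [Field K]

/-- for lattice words with distinct adjacent letters the off-diagonal coefficient is nonzero -/
lemma coC_ne_zero {B : ℕ} (hK : HK K B) (i : ℕ) {κ : Fin r → ℕ} {m : ℕ} (hB : Bd B κ m)
    {w : List (Fin r)} (hw : Lat κ w) (hl : w.length = m) (hi : i + 1 < m) (hne : sw i w ≠ w) :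
    coC K κ i w ≠ 0 := by
  induction i generalizing κ m w with
  | zero =>
    rcases w with _ | ⟨a, _ | ⟨b, u⟩⟩
    · exact absurd rfl hne
    · exact absurd rfl hne
    · by_cases hab : a = b
      · subst hab
        exact absurd rfl hne
      · simp only [coC, if_neg hab]
        have h1 : ct κ b - ct κ a ≠ 1 := ct_ne_one hw.1 hab hw.2.anti
        have h2 := abs_ct_sub hB a b
        have h3 : ((ct κ b - ct κ a - 1 : ℤ) : K) ≠ 0 := by
          apply hK.int (by omega)
          have h5 : |ct κ b - ct κ a - 1| ≤ |ct κ b - ct κ a| + |(1 : ℤ)| := abs_sub _ _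
          rw [abs_one] at h5
          omega
        intro h4
        apply h3
        have h5 : (((ct κ b - ct κ a : ℤ) : K))⁻¹ = 1 := by linear_combination -h4
        rw [inv_eq_one] at h5
        rw [Int.cast_sub, h5]
        simp
  | succ i ih =>
    rcases w with _ | ⟨a, u⟩
    · simp at hl
      omega
    · obtain ⟨m, rfl⟩ : ∃ m', m = m' + 1 := ⟨m - 1, by omega⟩
      simp only [coC]
      refine ih (hB.add a) hw.2 (by simpa using hl) (by omega) ?_
      intro h
      apply hne
      simp only [sw, h]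

section main

variable {B n : ℕ} (hK : HK K B) (hB : Bd B (0 : Fin r → ℕ) (n + 1))

/-- the operator `f ↦ f v • δ_w` is realised -/
lemma conn {v w : List (Fin r)} (hv : v ∈ LA r (n + 1)) (hw : w ∈ LA r (n + 1))
    (hsh : sh (0 : Fin r → ℕ) v = sh 0 w) :
    ∃ y : MonoidAlgebra K (Equiv.Perm (Fin (n + 1))), ∀ f : V K (0 : Fin r → ℕ) (n + 1),
      rhoA hK hB y f = (f : List (Fin r) → K) v • dl K w hw := by
  obtain ⟨hlv, hlatv⟩ := mem_LA.1 hv
  obtain ⟨hlw, hlatw⟩ := mem_LA.1 hw
  have h := reach hlatv hlatw hsh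
  have key : ∀ u, Relation.ReflTransGen (Adj 0) v u → ∀ hu : u ∈ LA r (n + 1),
      ∃ y : MonoidAlgebra K (Equiv.Perm (Fin (n + 1))), ∀ f : V K (0 : Fin r → ℕ) (n + 1),
      rhoA hK hB y f = (f : List (Fin r) → K) v • dl K u hu := by
    intro u hu
    induction hu with
    | refl => exact fun hu => exists_E hK hB v hu
    | @tail x u hx hadj ih =>
      intro hu
      obtain ⟨i, hi, hux, hne, hlx, hlu⟩ := hadj
      have hlen : u.length = x.length := by rw [hux]; simp
      have hxm : x ∈ LA r (n + 1) := mem_LA.2 ⟨by rw [← hlen]; exact (mem_LA.1 hu).1, hlx⟩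
      obtain ⟨y, hy⟩ := ih hxm
      obtain ⟨z, hz⟩ := exists_E hK hB u hu
      have hlu' := (mem_LA.1 hu).1
      have hi' : i < n := by omega
      have hxu : x = sw i u := by rw [hux]; simp
      have hne' : sw i u ≠ u := by rw [← hxu]; exact hne.symm
      have hc : coC K 0 i u ≠ 0 := coC_ne_zero hK i hB hlu hlu' (by omega) hne'
      refine ⟨(coC K 0 i u)⁻¹ • (z * (MonoidAlgebra.of K _ (Cox.s n i) * y)), fun f => ?_⟩
      rw [map_smul, map_mul, map_mul, rhoA_of, rho_s hK hB i hi', LinearMap.smul_apply,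
        Module.End.mul_apply, Module.End.mul_apply, hy, map_smul, map_smul, hz, TV_coe, T_apply,
        dl_apply, dl_apply, if_neg (by rw [hux]; rw [← hux]; exact hne), if_pos hxu.symm]
      rw [mul_zero, zero_add, mul_one, smul_smul, smul_smul]
      congr 1
      field_simp
  exact key w h hw

/-- the operator `f ↦ f v • z` is realised for `z` supported on the shape of `v` -/
lemma conn_vec {v : List (Fin r)} (hv : v ∈ LA r (n + 1)) (z : V K (0 : Fin r → ℕ) (n + 1))
    (hz : ∀ w, sh 0 w ≠ sh 0 v → (z : List (Fin r) → K) w = 0) :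
    ∃ y : MonoidAlgebra K (Equiv.Perm (Fin (n + 1))), ∀ f : V K (0 : Fin r → ℕ) (n + 1),
      rhoA hK hB y f = (f : List (Fin r) → K) v • z := by
  have hmem : ∀ w : {w // w ∈ LW (n + 1) (sh (0 : Fin r → ℕ) v)}, w.1 ∈ LA r (n + 1) := by
    intro w
    have := mem_LW.1 w.2
    exact mem_LA.2 ⟨this.1, this.2.1⟩
  have hy : ∀ w : {w // w ∈ LW (n + 1) (sh (0 : Fin r → ℕ) v)},
      ∃ y : MonoidAlgebra K (Equiv.Perm (Fin (n + 1))), ∀ f : V K (0 : Fin r → ℕ) (n + 1),
      rhoA hK hB y f = (f : List (Fin r) → K) v • dl K w.1 (hmem w) :=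
    fun w => conn hK hB hv (hmem w) (mem_LW.1 w.2).2.2.symm
  choose y hy using hy
  refine ⟨∑ w, (z : List (Fin r) → K) w.1 • y w, fun f => ?_⟩
  rw [map_sum, LinearMap.sum_apply]
  simp only [map_smul, LinearMap.smul_apply, hy]
  apply Subtype.ext
  funext u
  have e1 : ((∑ w : {w // w ∈ LW (n + 1) (sh (0 : Fin r → ℕ) v)},
      (z : List (Fin r) → K) w.1 • ((f : List (Fin r) → K) v • dl K w.1 (hmem w)) :
      V K (0 : Fin r → ℕ) (n + 1)) : List (Fin r) → K) u =
      ∑ w : {w // w ∈ LW (n + 1) (sh (0 : Fin r → ℕ) v)},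
        (z : List (Fin r) → K) w.1 * ((f : List (Fin r) → K) v * (if u = w.1 then 1 else 0)) := by
    rw [Submodule.coe_sum, Finset.sum_apply]
    rfl
  rw [e1]
  change _ = (f : List (Fin r) → K) v * (z : List (Fin r) → K) u
  by_cases hu : u ∈ LW (n + 1) (sh (0 : Fin r → ℕ) v)
  · rw [Finset.sum_eq_single ⟨u, hu⟩]
    · simp
      ring
    · intro w _ hw
      rw [if_neg]
      · ring
      · rintro rfl
        exact hw rfl
    · intro h
      exact absurd (Finset.mem_univ _) h
  · have hzu : (z : List (Fin r) → K) u = 0 := by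
      by_cases h1 : u ∈ LA r (n + 1)
      · apply hz
        intro h2
        exact hu (mem_LW.2 ⟨(mem_LA.1 h1).1, (mem_LA.1 h1).2, h2⟩)
      · exact V_eq_zero z h1
    rw [hzu, mul_zero]
    apply Finset.sum_eq_zero
    intro w _
    rw [if_neg]
    · ring
    · rintro rfl
      exact hu w.2

/-- projection to a shape -/
noncomputable def Pr (K : Type*) [Field K] (n : ℕ) (lam : Fin r → ℕ) :
    Module.End K (V K (0 : Fin r → ℕ) n) where
  toFun f := ⟨fun w => if sh 0 w = lam then (f : List (Fin r) → K) w else 0, by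
    intro w hw
    change (if sh 0 w = lam then (f : List (Fin r) → K) w else 0) = 0
    rw [f.2 w hw]
    simp⟩
  map_add' f g := by
    apply Subtype.ext
    funext w
    change (if sh 0 w = lam then (f : List (Fin r) → K) w + (g : List (Fin r) → K) w else 0) =
      (if sh 0 w = lam then (f : List (Fin r) → K) w else 0) +
        (if sh 0 w = lam then (g : List (Fin r) → K) w else 0)
    split_ifs <;> simp
  map_smul' c f := by
    apply Subtype.ext
    funext w
    change (if sh 0 w = lam then c * (f : List (Fin r) → K) w else 0) =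
      c * (if sh 0 w = lam then (f : List (Fin r) → K) w else 0)
    split_ifs <;> simp

lemma Pr_apply (lam : Fin r → ℕ) {n : ℕ} (f : V K (0 : Fin r → ℕ) n) (w : List (Fin r)) :
    (Pr K n lam f : List (Fin r) → K) w = if sh 0 w = lam then (f : List (Fin r) → K) w else 0 :=
  rfl

lemma commute_TV (lam : Fin r → ℕ) (i : ℕ) : Commute (TV (K := K) 0 (n + 1) i) (Pr K (n + 1) lam) := by
  change _ * _ = _ * _
  ext1 f
  apply Subtype.ext
  funext w
  rw [Module.End.mul_apply, Module.End.mul_apply, TV_coe, Pr_apply, TV_coe, T_apply, T_apply,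
    Pr_apply, Pr_apply, sh_sw]
  split_ifs <;> ring

lemma commute_rho (lam : Fin r → ℕ) (g : Equiv.Perm (Fin (n + 1))) :
    Commute (rho hK hB g) (Pr K (n + 1) lam) := by
  have hg : g ∈ Submonoid.closure (Set.range fun i : Fin n => Equiv.swap i.castSucc i.succ) := by
    rw [Equiv.Perm.mclosure_swap_castSucc_succ]
    trivial
  induction hg using Submonoid.closure_induction with
  | mem x hx =>
    obtain ⟨i, rfl⟩ := hx
    change Commute (rho hK hB (Equiv.swap i.castSucc i.succ)) _
    rw [← Cox.s_eq, rho_s hK hB i i.2]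
    exact commute_TV lam i
  | one =>
    rw [map_one]
    exact Commute.one_left _
  | mul x y _ _ hx hy =>
    rw [map_mul]
    exact hx.mul_left hy

lemma commute_rhoA (lam : Fin r → ℕ) (x : MonoidAlgebra K (Equiv.Perm (Fin (n + 1)))) :
    Commute (rhoA hK hB x) (Pr K (n + 1) lam) := by
  induction x using MonoidAlgebra.induction_on with
  | of g =>
    rw [rhoA_of]
    exact commute_rho hK hB lam g
  | add x y hx hy =>
    rw [map_add]
    exact hx.add_left hy
  | smul c x hx =>
    rw [map_smul]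
    exact hx.smul_left c

/-- **(A3)** the dimension inequality -/
theorem dim_ge (x : MonoidAlgebra K (Equiv.Perm (Fin (n + 1)))) (Λ : Finset (Fin r → ℕ))
    (R : (Fin r → ℕ) → ℕ) (z : ∀ lam : Fin r → ℕ, Fin (R lam) → V K (0 : Fin r → ℕ) (n + 1))
    (hz : ∀ lam ∈ Λ, ∀ j, z lam j ∈ LinearMap.range (rhoA hK hB x))
    (hsupp : ∀ lam ∈ Λ, ∀ j, ∀ w, sh 0 w ≠ lam → (z lam j : List (Fin r) → K) w = 0)
    (hli : ∀ lam ∈ Λ, LinearIndependent K (z lam)) :
    ∑ lam ∈ Λ, R lam * (LW (n + 1) lam).card ≤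
      Module.finrank K (LinearMap.range (LinearMap.mulLeft K x)) := by
  -- preimages supported on the shape
  have h1 : ∀ (i : {lam // lam ∈ Λ}) (j : Fin (R i.1)), ∃ z' : V K (0 : Fin r → ℕ) (n + 1),
      rhoA hK hB x z' = z i.1 j ∧ ∀ w, sh 0 w ≠ i.1 → (z' : List (Fin r) → K) w = 0 := by
    rintro ⟨lam, hlam⟩ j
    obtain ⟨z₀, hz₀⟩ := hz lam hlam j
    refine ⟨Pr K (n + 1) lam z₀, ?_, ?_⟩
    · have h2 := commute_rhoA hK hB lam x
      have h3 : rhoA hK hB x (Pr K (n + 1) lam z₀) = Pr K (n + 1) lam (rhoA hK hB x z₀) :=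
        LinearMap.congr_fun h2 z₀
      rw [h3, hz₀]
      apply Subtype.ext
      funext w
      rw [Pr_apply]
      split_ifs with h
      · rfl
      · exact (hsupp lam hlam j w h).symm
    · intro w hw
      rw [Pr_apply, if_neg hw]
  choose z' hz' hz's using h1
  have h2 : ∀ (i : {lam // lam ∈ Λ}) (j : Fin (R i.1)) (v : {v // v ∈ LW (n + 1) i.1}),
      ∃ y : MonoidAlgebra K (Equiv.Perm (Fin (n + 1))), ∀ f : V K (0 : Fin r → ℕ) (n + 1),
      rhoA hK hB y f = (f : List (Fin r) → K) v.1 • z' i j := by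
    intro i j v
    have hv := mem_LW.1 v.2
    apply conn_vec hK hB (mem_LA.2 ⟨hv.1, hv.2.1⟩) (z' i j)
    intro w hw
    apply hz's
    rwa [hv.2.2] at hw
  choose y hy using h2
  let ι := (i : {lam // lam ∈ Λ}) × (Fin (R i.1) × {v // v ∈ LW (n + 1) i.1})
  let F : ι → LinearMap.range (LinearMap.mulLeft K x) := fun p =>
    ⟨x * y p.1 p.2.1 p.2.2, ⟨y p.1 p.2.1 p.2.2, rfl⟩⟩
  have hF : LinearIndependent K F := by
    apply LinearIndependent.of_comp (Submodule.subtype _)
    rw [Fintype.linearIndependent_iff]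
    intro c hc
    rintro ⟨i₀, j₀, v₀⟩
    have hv₀ := mem_LW.1 v₀.2
    have hv₀A : v₀.1 ∈ LA r (n + 1) := mem_LA.2 ⟨hv₀.1, hv₀.2.1⟩
    have h3 : rhoA hK hB (∑ p : ι, c p • (x * y p.1 p.2.1 p.2.2)) (dl K v₀.1 hv₀A) = 0 := by
      have h4 : (∑ p : ι, c p • (x * y p.1 p.2.1 p.2.2)) = 0 := hc
      rw [h4, map_zero]
      rfl
    rw [map_sum, LinearMap.sum_apply] at h3
    have h5 : ∀ p : ι, (rhoA hK hB (c p • (x * y p.1 p.2.1 p.2.2))) (dl K v₀.1 hv₀A) =
        (c p * (if p.2.2.1 = v₀.1 then 1 else 0)) • z p.1.1 p.2.1 := by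
      intro p
      rw [map_smul, map_mul, LinearMap.smul_apply, Module.End.mul_apply, hy, map_smul, hz',
        dl_apply, smul_smul]
    rw [Finset.sum_congr rfl fun p _ => h5 p, Fintype.sum_sigma] at h3
    -- only i = i₀ contributes
    rw [Finset.sum_eq_single i₀] at h3
    · rw [Fintype.sum_prod_type] at h3
      have h6 : ∀ j : Fin (R i₀.1), ∑ v : {v // v ∈ LW (n + 1) i₀.1},
          (c ⟨i₀, j, v⟩ * (if v.1 = v₀.1 then 1 else 0)) • z i₀.1 j = c ⟨i₀, j, v₀⟩ • z i₀.1 j := by
        intro j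
        rw [Finset.sum_eq_single v₀]
        · simp
        · intro v _ hv
          rw [if_neg (fun h => hv (Subtype.ext h)), mul_zero, zero_smul]
        · intro h
          exact absurd (Finset.mem_univ _) h
      have h7 : ∑ j : Fin (R i₀.1), c ⟨i₀, j, v₀⟩ • z i₀.1 j = 0 := by
        rw [← h3]
        apply Finset.sum_congr rfl
        intro j _
        exact (h6 j).symm
      exact (Fintype.linearIndependent_iff.1 (hli i₀.1 i₀.2)) _ h7 j₀
    · intro i _ hi
      apply Finset.sum_eq_zero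
      rintro ⟨j, v⟩ _
      rw [if_neg, mul_zero, zero_smul]
      intro h
      apply hi
      apply Subtype.ext
      have h8 := (mem_LW.1 v.2).2.2
      change v.1 = v₀.1 at h
      rw [← h8, h, hv₀.2.2]
    · intro h
      exact absurd (Finset.mem_univ _) h
  have hcard := hF.fintype_card_le_finrank
  refine le_trans (le_of_eq ?_) hcard
  rw [Fintype.card_sigma]
  simp only [Fintype.card_prod, Fintype.card_fin, Fintype.card_coe]
  exact (Finset.sum_coe_sort Λ (fun lam => R lam * (LW (n + 1) lam).card)).symm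

end main

end Crest.Agent.R187.SN
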