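import Crest.Agent.R187.Canon

/-!
Row 187, PLAN S, block (A4): the link between the rank of the element
`E = (row sum) * (column sum)` of the group algebra of the symmetric group (over `ZMod p`)
and the membership `T a b ∈ D a a 1 ^ b`.
-/

set_option autoImplicit false

namespace Crest.Agent.R187.SN.Link

open Crest.Agent.R187 Crest.AlgebraR.FoulkesHowe

section general

variable {G : Type*} [Group G] [Fintype G]

open Classical in
/-- the sum of the elements of a subgroup -/
noncomputable def ysum (R : Type*) [Semiring R] (H : Subgroup G) : MonoidAlgebra R G :=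
  ∑ g : G, if g ∈ H then MonoidAlgebra.single g 1 else 0

theorem ysum_map {R S : Type*} [Semiring R] [Semiring S] (f : R →+* S) (H : Subgroup G) :
    MonoidAlgebra.mapRingHom G f (ysum R H) = ysum S H := by
  classical
  simp only [ysum, map_sum]
  refine Finset.sum_congr rfl fun g _ => ?_
  split_ifs <;> simp

theorem single_mul_ysum {R : Type*} [Semiring R] {H : Subgroup G} {h : G} (hh : h ∈ H) :
    MonoidAlgebra.single h 1 * ysum R H = ysum R H := by
  classical
  rw [ysum, Finset.mul_sum]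
  refine Fintype.sum_equiv (Equiv.mulLeft h) _ _ fun g => ?_
  rw [mul_ite, mul_zero, MonoidAlgebra.single_mul_single, mul_one, Equiv.coe_mulLeft]
  by_cases hg : g ∈ H
  · rw [if_pos hg, if_pos (H.mul_mem hh hg)]
  · rw [if_neg hg, if_neg (fun h' => hg (by simpa using H.mul_mem (H.inv_mem hh) h'))]

theorem ysum_mul_single {R : Type*} [Semiring R] {H : Subgroup G} {h : G} (hh : h ∈ H) :
    ysum R H * MonoidAlgebra.single h 1 = ysum R H := by
  classical
  rw [ysum, Finset.sum_mul]
  refine Fintype.sum_equiv (Equiv.mulRight h) _ _ fun g => ?_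
  rw [ite_mul, zero_mul, MonoidAlgebra.single_mul_single, mul_one, Equiv.coe_mulRight]
  by_cases hg : g ∈ H
  · rw [if_pos hg, if_pos (H.mul_mem hg hh)]
  · rw [if_neg hg, if_neg (fun h' => hg (by simpa using H.mul_mem h' (H.inv_mem hh)))]

theorem single_conj_ysum {R : Type*} [Semiring R] {H : Subgroup G} {s : G}
    (hs : ∀ g, g ∈ H ↔ s * g * s⁻¹ ∈ H) :
    MonoidAlgebra.single s 1 * ysum R H = ysum R H * MonoidAlgebra.single s 1 := by
  classical
  rw [ysum, Finset.mul_sum, Finset.sum_mul]
  refine Fintype.sum_equiv (MulAut.conj s).toEquiv _ _ fun g => ?_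
  have e : (MulAut.conj s).toEquiv g = s * g * s⁻¹ := rfl
  rw [mul_ite, mul_zero, ite_mul, zero_mul, MonoidAlgebra.single_mul_single,
    MonoidAlgebra.single_mul_single, mul_one, e, inv_mul_cancel_right]
  by_cases hg : g ∈ H
  · rw [if_pos hg, if_pos ((hs g).1 hg)]
  · rw [if_neg hg, if_neg (fun h' => hg ((hs g).2 h'))]

/-- if every element of `H` fixes `x` then `ysum H * x = |H| • x` -/
theorem ysum_mul_of_fixed {R : Type*} [Semiring R] {H : Subgroup G} {x : MonoidAlgebra R G}
    (hx : ∀ h ∈ H, MonoidAlgebra.single h 1 * x = x) :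
    ysum R H * x = (Nat.card H) • x := by
  classical
  rw [ysum, Finset.sum_mul]
  have : ∀ g : G, (if g ∈ H then MonoidAlgebra.single g (1 : R) else 0) * x
      = if g ∈ H then x else 0 := by
    intro g
    split_ifs with h
    · exact hx g h
    · exact zero_mul _
  rw [Finset.sum_congr rfl (fun g _ => this g), ← Finset.sum_filter, Finset.sum_const]
  congr 1
  rw [Nat.card_eq_fintype_card, Fintype.card_subtype]

/-! ### integral linear independence -/

theorem li_of_mod (p : ℕ) [hp : Fact p.Prime] {ι X : Type*} [Finite ι] (v : ι → X → ℤ)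
    (h : LinearIndependent (ZMod p) (fun i x => ((v i x : ℤ) : ZMod p))) :
    LinearIndependent ℤ v := by
  have := Fintype.ofFinite ι
  rw [Fintype.linearIndependent_iff] at h ⊢
  have step : ∀ c : ι → ℤ, ∑ i, c i • v i = 0 → ∀ i, (p : ℤ) ∣ c i := by
    intro c hc i
    have h1 := h (fun i => (c i : ZMod p)) (by
      funext x
      have h2 := congrFun hc x
      simp only [Finset.sum_apply, Pi.smul_apply, smul_eq_mul, Pi.zero_apply] at h2 ⊢
      have h3 := congrArg (Int.cast : ℤ → ZMod p) h2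
      simpa using h3) i
    exact (ZMod.intCast_zmod_eq_zero_iff_dvd _ _).1 h1
  have all : ∀ k : ℕ, ∀ c : ι → ℤ, ∑ i, c i • v i = 0 → ∀ i, (p : ℤ) ^ k ∣ c i := by
    intro k
    induction k with
    | zero => intro c _ i; simp
    | succ k ih =>
      intro c hc i
      choose d hd using step c hc
      have hp0 : (p : ℤ) ≠ 0 := by exact_mod_cast hp.out.ne_zero
      have h4 : ∑ i, d i • v i = 0 := by
        have h5 : (p : ℤ) • ∑ i, d i • v i = 0 := by
          rw [← hc, Finset.smul_sum]
          refine Finset.sum_congr rfl fun i _ => ?_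
          rw [smul_smul, ← hd i]
        exact (smul_eq_zero.1 h5).resolve_left hp0
      rw [hd i, pow_succ']
      exact mul_dvd_mul_left _ (ih d h4 i)
  intro c hc i
  have h6 := all (c i).natAbs c hc i
  refine Int.eq_zero_of_abs_lt_dvd h6 ?_
  have h7 : (c i).natAbs < p ^ (c i).natAbs := Nat.lt_pow_self hp.out.one_lt
  rw [Int.abs_eq_natAbs]
  exact_mod_cast h7

theorem li_rat {ι X : Type*} (v : ι → X → ℤ) (h : LinearIndependent ℤ v) :
    LinearIndependent ℚ (fun i x => ((v i x : ℤ) : ℚ)) := by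
  rw [← LinearIndependent.iff_fractionRing (R := ℤ) (K := ℚ)]
  have h1 := h.map' ((Int.castAddHom ℚ).toIntLinearMap.compLeft X) (by
    rw [LinearMap.ker_eq_bot]
    intro x y hxy
    funext i
    have := congrFun hxy i
    simpa using this)
  exact h1

/-- coefficients as a linear map to functions -/
noncomputable def cf (K : Type*) [Field K] : MonoidAlgebra K G →ₗ[K] (G → K) where
  toFun x g := x.coeff g
  map_add' x y := by funext g; simp
  map_smul' c x := by funext g; simp

omit [Group G] [Fintype G] in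
theorem cf_inj (K : Type*) [Field K] : Function.Injective (cf (G := G) K) := by
  intro x y h
  ext g
  exact congrFun h g

omit [Fintype G] in
theorem range_mulLeft (K : Type*) [Field K] (E : MonoidAlgebra K G) :
    LinearMap.range (LinearMap.mulLeft K E)
      = Submodule.span K (Set.range (fun g : G => E * MonoidAlgebra.single g 1)) := by
  have htop : (⊤ : Submodule K (MonoidAlgebra K G))
      = Submodule.span K (Set.range (fun g : G => MonoidAlgebra.single g (1 : K))) := by
    symm
    rw [eq_top_iff]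
    intro x _
    induction x using MonoidAlgebra.induction_linear with
    | zero => exact Submodule.zero_mem _
    | add x y hx hy => exact Submodule.add_mem _ (hx trivial) (hy trivial)
    | single g c =>
      have : MonoidAlgebra.single g c = c • MonoidAlgebra.single g (1 : K) := by
        rw [MonoidAlgebra.smul_single, smul_eq_mul, mul_one]
      rw [this]
      exact Submodule.smul_mem _ _ (Submodule.subset_span ⟨g, rfl⟩)
  rw [← Submodule.map_top, htop, Submodule.map_span, ← Set.range_comp]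
  rfl

theorem finrank_le (p : ℕ) [hp : Fact p.Prime] (E : MonoidAlgebra ℤ G) :
    Module.finrank (ZMod p) (LinearMap.range (LinearMap.mulLeft (ZMod p)
      (MonoidAlgebra.mapRingHom G (Int.castRingHom (ZMod p)) E)))
    ≤ Module.finrank ℚ (LinearMap.range (LinearMap.mulLeft ℚ
      (MonoidAlgebra.mapRingHom G (Int.castRingHom ℚ) E))) := by
  classical
  set w : G → MonoidAlgebra (ZMod p) G := fun g =>
    MonoidAlgebra.mapRingHom G (Int.castRingHom (ZMod p)) E * MonoidAlgebra.single g 1 with hw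
  set w' : G → MonoidAlgebra ℚ G := fun g =>
    MonoidAlgebra.mapRingHom G (Int.castRingHom ℚ) E * MonoidAlgebra.single g 1 with hw'
  rw [range_mulLeft, range_mulLeft]
  obtain ⟨κ, α, hα, hspan, hli⟩ := exists_linearIndependent' (K := ZMod p) w
  have hfin : Finite κ := Finite.of_injective α hα
  have := Fintype.ofFinite κ
  let v : κ → G → ℤ := fun k x => (E * MonoidAlgebra.single (α k) 1).coeff x
  have hv1 : (fun i x => ((v i x : ℤ) : ZMod p)) = fun i => cf (ZMod p) (w (α i)) := by
    funext i x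
    have : w (α i) = MonoidAlgebra.mapRingHom G (Int.castRingHom (ZMod p))
        (E * MonoidAlgebra.single (α i) 1) := by
      rw [map_mul]; simp [hw]
    rw [this]
    show _ = (MonoidAlgebra.mapRingHom G (Int.castRingHom (ZMod p))
        (E * MonoidAlgebra.single (α i) 1)).coeff x
    rw [MonoidAlgebra.coeff_mapRingHom]
    rfl
  have hv2 : (fun i x => ((v i x : ℤ) : ℚ)) = fun i => cf ℚ (w' (α i)) := by
    funext i x
    have : w' (α i) = MonoidAlgebra.mapRingHom G (Int.castRingHom ℚ)
        (E * MonoidAlgebra.single (α i) 1) := by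
      rw [map_mul]; simp [hw']
    rw [this]
    show _ = (MonoidAlgebra.mapRingHom G (Int.castRingHom ℚ)
        (E * MonoidAlgebra.single (α i) 1)).coeff x
    rw [MonoidAlgebra.coeff_mapRingHom]
    rfl
  have h1 : LinearIndependent (ZMod p) (fun i x => ((v i x : ℤ) : ZMod p)) := by
    rw [hv1]
    exact hli.map' (cf (ZMod p)) (LinearMap.ker_eq_bot.2 (cf_inj _))
  have h2 := li_rat v (li_of_mod p v h1)
  rw [hv2] at h2
  have h3 : LinearIndependent ℚ (fun i => w' (α i)) := LinearIndependent.of_comp (cf ℚ) h2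
  have h4 : Module.finrank (ZMod p) (Submodule.span (ZMod p) (Set.range w)) = Fintype.card κ := by
    rw [← hspan]
    exact finrank_span_eq_card hli
  have h5 : Module.finrank ℚ (Submodule.span ℚ (Set.range (fun i => w' (α i))))
      = Fintype.card κ := finrank_span_eq_card h3
  have : FiniteDimensional ℚ (Submodule.span ℚ (Set.range w')) :=
    FiniteDimensional.span_of_finite ℚ (Set.finite_range w')
  calc Module.finrank (ZMod p) (Submodule.span (ZMod p) (Set.range w))
      = Module.finrank ℚ (Submodule.span ℚ (Set.range (fun i => w' (α i)))) := by rw [h4, h5]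
    _ ≤ Module.finrank ℚ (Submodule.span ℚ (Set.range w')) := by
        apply Submodule.finrank_mono
        apply Submodule.span_mono
        rintro _ ⟨i, rfl⟩
        exact ⟨α i, rfl⟩

/-- dimension of `ysum H * K[G]` is at most the index -/
theorem finrank_ysum_le (K : Type*) [Field K] (H : Subgroup G) :
    Module.finrank K (LinearMap.range (LinearMap.mulLeft K (ysum K H)))
      ≤ Nat.card (G ⧸ H) := by
  classical
  rw [range_mulLeft]
  let f : G ⧸ H → MonoidAlgebra K G := fun q => ysum K H * MonoidAlgebra.single (q.out)⁻¹ 1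
  have hsub : Submodule.span K (Set.range (fun g : G => ysum K H * MonoidAlgebra.single g 1))
      = Submodule.span K (Set.range f) := by
    congr 1
    apply Set.Subset.antisymm
    · rintro _ ⟨g, rfl⟩
      refine ⟨QuotientGroup.mk g⁻¹, ?_⟩
      obtain ⟨k, hk⟩ := QuotientGroup.mk_out_eq_mul H g⁻¹
      show ysum K H * MonoidAlgebra.single ((QuotientGroup.mk g⁻¹ : G ⧸ H).out)⁻¹ 1 = _
      rw [hk]
      have h1 : MonoidAlgebra.single (g⁻¹ * (k : G))⁻¹ (1 : K)
          = MonoidAlgebra.single ((k : G)⁻¹) 1 * MonoidAlgebra.single g 1 := by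
        rw [MonoidAlgebra.single_mul_single, mul_one, mul_inv_rev, inv_inv]
      rw [h1, ← mul_assoc, ysum_mul_single (H.inv_mem k.2)]
    · rintro _ ⟨q, rfl⟩
      exact ⟨(q.out)⁻¹, rfl⟩
  rw [hsub, Nat.card_eq_fintype_card]
  exact finrank_range_le_card f

end general

section perm

open MvPolynomial

theorem pai {X : Type*} (g : Equiv.Perm X) (x : X) : g (g⁻¹ x) = x := g.apply_symm_apply x

theorem pia {X : Type*} (g : Equiv.Perm X) (x : X) : g⁻¹ (g x) = x := g.symm_apply_apply x

section subgroups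

variable {a b : ℕ} {X : Type*}

/-- permutations preserving every row -/
def rowSub (e : Fin a × Fin b ≃ X) : Subgroup (Equiv.Perm X) where
  carrier := {h | ∀ x, (e.symm (h x)).1 = (e.symm x).1}
  mul_mem' := by
    intro g h hg hh x
    rw [Equiv.Perm.mul_apply, hg, hh]
  one_mem' := fun x => rfl
  inv_mem' := by
    intro g hg x
    have := hg (g⁻¹ x)
    rw [pai] at this
    exact this.symm

/-- permutations preserving every column -/
def colSub (e : Fin a × Fin b ≃ X) : Subgroup (Equiv.Perm X) where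
  carrier := {h | ∀ x, (e.symm (h x)).2 = (e.symm x).2}
  mul_mem' := by
    intro g h hg hh x
    rw [Equiv.Perm.mul_apply, hg, hh]
  one_mem' := fun x => rfl
  inv_mem' := by
    intro g hg x
    have := hg (g⁻¹ x)
    rw [pai] at this
    exact this.symm

/-- permutations permuting the rows -/
def wrSub (e : Fin a × Fin b ≃ X) : Subgroup (Equiv.Perm X) where
  carrier := {h | ∃ σ : Equiv.Perm (Fin a), ∀ x, (e.symm (h x)).1 = σ (e.symm x).1}
  mul_mem' := by
    rintro g h ⟨σ, hσ⟩ ⟨τ, hτ⟩
    exact ⟨σ * τ, fun x => by rw [Equiv.Perm.mul_apply, hσ, hτ, Equiv.Perm.mul_apply]⟩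
  one_mem' := ⟨1, fun x => rfl⟩
  inv_mem' := by
    rintro g ⟨σ, hσ⟩
    refine ⟨σ⁻¹, fun x => ?_⟩
    have := hσ (g⁻¹ x)
    rw [pai] at this
    rw [this, pia]

theorem mem_rowSub {e : Fin a × Fin b ≃ X} {h : Equiv.Perm X} :
    h ∈ rowSub e ↔ ∀ x, (e.symm (h x)).1 = (e.symm x).1 := Iff.rfl

theorem mem_colSub {e : Fin a × Fin b ≃ X} {h : Equiv.Perm X} :
    h ∈ colSub e ↔ ∀ x, (e.symm (h x)).2 = (e.symm x).2 := Iff.rfl

theorem mem_wrSub {e : Fin a × Fin b ≃ X} {h : Equiv.Perm X} :
    h ∈ wrSub e ↔ ∃ σ : Equiv.Perm (Fin a), ∀ x, (e.symm (h x)).1 = σ (e.symm x).1 := Iff.rfl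

end subgroups

variable {a b : ℕ} {X : Type*} [Fintype X] [DecidableEq X]

/-- THE element: (row sum) * (column sum) -/
noncomputable def E (R : Type*) [Semiring R] (e : Fin a × Fin b ≃ X) :
    MonoidAlgebra R (Equiv.Perm X) :=
  ysum R (rowSub e) * ysum R (colSub e)

theorem E_map {R S : Type*} [Semiring R] [Semiring S] (f : R →+* S) (e : Fin a × Fin b ≃ X) :
    MonoidAlgebra.mapRingHom (Equiv.Perm X) f (E R e) = E S e := by
  rw [E, map_mul, ysum_map, ysum_map, E]

/-- the block permutation -/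
def blkP (e : Fin a × Fin b ≃ X) (σ : Equiv.Perm (Fin a)) : Equiv.Perm X :=
  e.permCongr (σ.prodCongr (Equiv.refl _))

omit [Fintype X] [DecidableEq X] in
theorem blkP_apply (e : Fin a × Fin b ≃ X) (σ : Equiv.Perm (Fin a)) (x : X) :
    blkP e σ x = e (σ (e.symm x).1, (e.symm x).2) := by
  rw [blkP, Equiv.permCongr_apply]
  rfl

omit [Fintype X] [DecidableEq X] in
theorem symm_blkP (e : Fin a × Fin b ≃ X) (σ : Equiv.Perm (Fin a)) (x : X) :
    e.symm (blkP e σ x) = (σ (e.symm x).1, (e.symm x).2) := by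
  rw [blkP_apply, Equiv.symm_apply_apply]

omit [Fintype X] [DecidableEq X] in
theorem symm_blkP_inv (e : Fin a × Fin b ≃ X) (σ : Equiv.Perm (Fin a)) (x : X) :
    e.symm ((blkP e σ)⁻¹ x) = (σ⁻¹ (e.symm x).1, (e.symm x).2) := by
  have h := symm_blkP e σ ((blkP e σ)⁻¹ x)
  rw [pai] at h
  rw [h]
  simp

theorem wr_fix {R : Type*} [Semiring R] (e : Fin a × Fin b ≃ X) {k : Equiv.Perm X}
    (hk : k ∈ wrSub e) : MonoidAlgebra.single k 1 * E R e = E R e := by
  obtain ⟨σ, hσ⟩ := hk
  have hs : blkP e σ ∈ colSub e := fun x => by rw [symm_blkP]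
  have hr : k * (blkP e σ)⁻¹ ∈ rowSub e := fun x => by
    rw [Equiv.Perm.mul_apply, hσ, symm_blkP_inv]
    simp
  have h1 : MonoidAlgebra.single k (1 : R)
      = MonoidAlgebra.single (k * (blkP e σ)⁻¹) 1 * MonoidAlgebra.single (blkP e σ) 1 := by
    rw [MonoidAlgebra.single_mul_single, mul_one, inv_mul_cancel_right]
  have hn : ∀ g, g ∈ rowSub e ↔ blkP e σ * g * (blkP e σ)⁻¹ ∈ rowSub e := by
    intro g
    constructor
    · intro hg x
      rw [Equiv.Perm.mul_apply, Equiv.Perm.mul_apply, symm_blkP, hg, symm_blkP_inv]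
      simp
    · intro hg x
      have := hg (blkP e σ x)
      rw [Equiv.Perm.mul_apply, Equiv.Perm.mul_apply, symm_blkP, pia,
        symm_blkP] at this
      simpa using this
  rw [h1, E, ← mul_assoc, mul_assoc (MonoidAlgebra.single (k * (blkP e σ)⁻¹) 1),
    single_conj_ysum hn, ← mul_assoc, single_mul_ysum hr, mul_assoc, single_mul_ysum hs]

theorem range_E_le (e : Fin a × Fin b ≃ X) :
    LinearMap.range (LinearMap.mulLeft ℚ (E ℚ e))
      ≤ LinearMap.range (LinearMap.mulLeft ℚ (ysum ℚ (wrSub e))) := by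
  rintro _ ⟨x, rfl⟩
  have h1 := ysum_mul_of_fixed (R := ℚ) (H := wrSub e) (x := E ℚ e * x) (fun h hh => by
    rw [← mul_assoc, wr_fix e hh])
  have h2 : (Nat.card (wrSub e) : ℚ) ≠ 0 := by
    exact_mod_cast Nat.card_pos.ne'
  refine ⟨(Nat.card (wrSub e) : ℚ)⁻¹ • (E ℚ e * x), ?_⟩
  rw [LinearMap.mulLeft_apply, LinearMap.mulLeft_apply, mul_smul_comm, h1,
    ← Nat.cast_smul_eq_nsmul ℚ, smul_smul, inv_mul_cancel₀ h2, one_smul]

omit [DecidableEq X] in
theorem card_wrSub (hb : 0 < b) (e : Fin a × Fin b ≃ X) :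
    b.factorial ^ a * a.factorial ≤ Nat.card (wrSub e) := by
  let φ : Equiv.Perm (Fin a) × (Fin a → Equiv.Perm (Fin b)) → wrSub e := fun p =>
    ⟨e.permCongr (Equiv.prodShear p.1 p.2), ⟨p.1, fun x => by
      rw [Equiv.permCongr_apply, Equiv.symm_apply_apply]; rfl⟩⟩
  have hφ : Function.Injective φ := by
    rintro ⟨σ, τ⟩ ⟨σ', τ'⟩ h
    have h1 : e.permCongr (Equiv.prodShear σ τ) = e.permCongr (Equiv.prodShear σ' τ') :=
      congrArg Subtype.val h
    have h2 := e.permCongr.injective h1
    have h3 : ∀ i j, (σ i, τ i j) = (σ' i, τ' i j) := fun i j =>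
      congrArg (fun q : Equiv.Perm (Fin a × Fin b) => q (i, j)) h2
    refine Prod.ext ?_ ?_
    · ext i
      have := congrArg Prod.fst (h3 i ⟨0, hb⟩)
      simpa using congrArg Fin.val this
    · funext i
      ext j
      have := congrArg Prod.snd (h3 i j)
      simpa using congrArg Fin.val this
  have h := Nat.card_le_card_of_injective φ hφ
  rw [Nat.card_prod, Nat.card_eq_fintype_card, Nat.card_eq_fintype_card, Fintype.card_perm,
    Fintype.card_fin, Fintype.card_fun, Fintype.card_perm, Fintype.card_fin, Fintype.card_fin,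
    mul_comm] at h
  exact h

/-- if the rank is as large as possible, the wreath sum lies in `E * ℚ[G]` -/
theorem exists_of_rank (p : ℕ) [hp : Fact p.Prime] (hb : 0 < b) (e : Fin a × Fin b ≃ X)
    (h : (Fintype.card X).factorial ≤ Module.finrank (ZMod p)
      (LinearMap.range (LinearMap.mulLeft (ZMod p) (E (ZMod p) e)))
        * (b.factorial ^ a * a.factorial)) :
    ∃ y : MonoidAlgebra ℚ (Equiv.Perm X), E ℚ e * y = ysum ℚ (wrSub e) := by
  have h1 := finrank_le p (E ℤ e)
  rw [E_map, E_map] at h1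
  have h2 := finrank_ysum_le ℚ (wrSub e)
  have h3 := Subgroup.card_eq_card_quotient_mul_card_subgroup (wrSub e)
  rw [Nat.card_eq_fintype_card, Fintype.card_perm] at h3
  have h4 := card_wrSub hb e
  have hpos : 0 < b.factorial ^ a * a.factorial :=
    Nat.mul_pos (pow_pos (Nat.factorial_pos _) _) (Nat.factorial_pos _)
  have h5 : Nat.card (Equiv.Perm X ⧸ wrSub e) ≤ Module.finrank (ZMod p)
      (LinearMap.range (LinearMap.mulLeft (ZMod p) (E (ZMod p) e))) := by
    refine Nat.le_of_mul_le_mul_right ?_ hpos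
    calc Nat.card (Equiv.Perm X ⧸ wrSub e) * (b.factorial ^ a * a.factorial)
        ≤ Nat.card (Equiv.Perm X ⧸ wrSub e) * Nat.card (wrSub e) := Nat.mul_le_mul_left _ h4
      _ = (Fintype.card X).factorial := h3.symm
      _ ≤ _ := h
  have hfin : FiniteDimensional ℚ (LinearMap.range (LinearMap.mulLeft ℚ (ysum ℚ (wrSub e)))) := by
    rw [range_mulLeft]
    exact FiniteDimensional.span_of_finite ℚ (Set.finite_range _)
  have h6 := Submodule.eq_of_le_of_finrank_le (range_E_le e) ((h2.trans h5).trans h1)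
  have h7 : ysum ℚ (wrSub e) ∈ LinearMap.range (LinearMap.mulLeft ℚ (E ℚ e)) := by
    rw [h6]
    exact ⟨1, by rw [LinearMap.mulLeft_apply, mul_one]⟩
  obtain ⟨y, hy⟩ := h7
  exact ⟨y, hy⟩

/-! ### evaluation in the polynomial ring -/

/-- the monomial attached to a permutation -/
noncomputable def th (e : Fin a × Fin b ≃ X) (g : Equiv.Perm X) : SA a a :=
  ∏ x : X, MvPolynomial.X ((e.symm x).1, (e.symm (g⁻¹ x)).1)

omit [DecidableEq X] in
theorem th_row (e : Fin a × Fin b ≃ X) {h : Equiv.Perm X} (hh : h ∈ rowSub e)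
    (g : Equiv.Perm X) : th e (h * g) = th e g := by
  rw [th, th]
  refine (Fintype.prod_equiv h _ _ fun x => ?_).symm
  rw [hh x, mul_inv_rev, Equiv.Perm.mul_apply, pia]

theorem perm_X_mem (f : Fin a → Fin a) :
    ∑ σ : Equiv.Perm (Fin a), ∏ i, (MvPolynomial.X (i, f (σ i)) : SA a a) ∈ D a a 1 := by
  have key := perm_mem (D a a 1) (fun i j => (MvPolynomial.X (i, f j) : SA a a)) (by
    intro t
    have h1 : ∏ i : Fin a, ∑ j, t j • (MvPolynomial.X (i, f j) : SA a a)
        = Nm a (∑ j, t j • (MvPolynomial.X (f j) : P a)) := by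
      rw [Nm]
      refine Finset.prod_congr rfl fun i _ => ?_
      rw [map_sum]
      refine Finset.sum_congr rfl fun j _ => ?_
      rw [map_smul, blk, rename_X]
    rw [h1]
    apply Nm_mem_D
    refine Submodule.sum_mem _ fun j _ => Submodule.smul_mem _ _ ?_
    rw [H, mem_homogeneousSubmodule]
    exact isHomogeneous_X _ _)
  exact key

omit [DecidableEq X] in
theorem th_col (e : Fin a × Fin b ≃ X) (τ : Fin b → Equiv.Perm (Fin a)) (g : Equiv.Perm X)
    (c : Equiv.Perm X) (hc : ∀ i j, c⁻¹ (e (i, j)) = e (τ j i, j)) :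
    th e (c * g) = ∏ j : Fin b, ∏ i : Fin a,
      MvPolynomial.X (i, (e.symm (g⁻¹ (e (τ j i, j)))).1) := by
  rw [th, ← Equiv.prod_comp e, Fintype.prod_prod_type, Finset.prod_comm]
  refine Finset.prod_congr rfl fun j _ => Finset.prod_congr rfl fun i _ => ?_
  rw [Equiv.symm_apply_apply, mul_inv_rev, Equiv.Perm.mul_apply, hc]

/-- column permutations from families -/
def colP (e : Fin a × Fin b ≃ X) (τ : Fin b → Equiv.Perm (Fin a)) : Equiv.Perm X :=
  e.permCongr
    { toFun := fun x => (τ x.2 x.1, x.2)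
      invFun := fun x => ((τ x.2)⁻¹ x.1, x.2)
      left_inv := fun x => by simp
      right_inv := fun x => by simp }

omit [Fintype X] [DecidableEq X] in
theorem colP_apply (e : Fin a × Fin b ≃ X) (τ : Fin b → Equiv.Perm (Fin a)) (x : X) :
    colP e τ x = e (τ (e.symm x).2 (e.symm x).1, (e.symm x).2) := by
  simp [colP, Equiv.permCongr_apply]

theorem sum_col (e : Fin a × Fin b ≃ X) (F : Equiv.Perm X → SA a a) [DecidablePred (· ∈ colSub e)] :
    ∑ c : Equiv.Perm X with c ∈ colSub e, F c
      = ∑ τ : Fin b → Equiv.Perm (Fin a), F (colP e τ)⁻¹ := by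
  symm
  refine Finset.sum_bij (fun τ _ => (colP e τ)⁻¹) ?_ ?_ ?_ ?_
  · intro τ _
    rw [Finset.mem_filter]
    refine ⟨Finset.mem_univ _, (colSub e).inv_mem fun x => ?_⟩
    rw [colP_apply, Equiv.symm_apply_apply]
  · intro τ _ τ' _ h
    have h1 := inv_injective h
    funext j
    ext i
    have h2 := congrArg (fun q : Equiv.Perm X => q (e (i, j))) h1
    simp only [colP_apply, Equiv.symm_apply_apply] at h2
    have h3 := congrArg Prod.fst (e.injective h2)
    exact congrArg Fin.val h3
  · intro c hc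
    rw [Finset.mem_filter] at hc
    have hc1 : c⁻¹ ∈ colSub e := (colSub e).inv_mem hc.2
    have hc2 := hc.2
    have key : ∀ (g : Equiv.Perm X), g ∈ colSub e → ∀ i j,
        e ((e.symm (g (e (i, j)))).1, j) = g (e (i, j)) := by
      intro g hg i j
      have h1 : (e.symm (g (e (i, j)))).2 = j := by rw [hg]; simp
      have h2 : ((e.symm (g (e (i, j)))).1, j) = e.symm (g (e (i, j))) := Prod.ext rfl h1.symm
      rw [h2, Equiv.apply_symm_apply]
    refine ⟨fun j =>
      { toFun := fun i => (e.symm (c⁻¹ (e (i, j)))).1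
        invFun := fun i => (e.symm (c (e (i, j)))).1
        left_inv := fun i => by
          show (e.symm (c (e ((e.symm (c⁻¹ (e (i, j)))).1, j)))).1 = i
          rw [key c⁻¹ hc1, pai, Equiv.symm_apply_apply]
        right_inv := fun i => by
          show (e.symm (c⁻¹ (e ((e.symm (c (e (i, j)))).1, j)))).1 = i
          rw [key c hc2, pia, Equiv.symm_apply_apply] }, Finset.mem_univ _, ?_⟩
    rw [inv_eq_iff_eq_inv]
    ext x
    rw [colP_apply]
    show e ((e.symm (c⁻¹ (e ((e.symm x).1, (e.symm x).2)))).1, (e.symm x).2) = c⁻¹ x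
    rw [key c⁻¹ hc1, Prod.mk.eta, Equiv.apply_symm_apply]
  · intro τ _
    rfl

theorem sum_th_mem (e : Fin a × Fin b ≃ X) (g : Equiv.Perm X) [DecidablePred (· ∈ colSub e)] :
    ∑ c : Equiv.Perm X with c ∈ colSub e, th e (c * g) ∈ D a a 1 ^ b := by
  rw [sum_col]
  have h1 : ∀ τ : Fin b → Equiv.Perm (Fin a), th e ((colP e τ)⁻¹ * g)
      = ∏ j : Fin b, ∏ i : Fin a, MvPolynomial.X (i, (e.symm (g⁻¹ (e (τ j i, j)))).1) := by
    intro τ
    apply th_col
    intro i j
    rw [inv_inv, colP_apply, Equiv.symm_apply_apply]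
  rw [Finset.sum_congr rfl fun τ _ => h1 τ]
  have h2 := Finset.prod_univ_sum (fun _ : Fin b => (Finset.univ : Finset (Equiv.Perm (Fin a))))
    (fun j σ => ∏ i : Fin a, (MvPolynomial.X (i, (e.symm (g⁻¹ (e (σ i, j)))).1) : SA a a))
  rw [Fintype.piFinset_univ] at h2
  rw [← h2]
  have h3 : ∀ s : Finset (Fin b), ∏ j ∈ s, ∑ σ : Equiv.Perm (Fin a), ∏ i : Fin a,
      (MvPolynomial.X (i, (e.symm (g⁻¹ (e (σ i, j)))).1) : SA a a) ∈ D a a 1 ^ s.card := by
    intro s
    induction s using Finset.induction_on with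
    | empty => rw [Finset.prod_empty, Finset.card_empty, pow_zero]; exact Submodule.one_le.1 le_rfl
    | insert j s hj ih =>
      rw [Finset.prod_insert hj, Finset.card_insert_of_notMem hj, pow_succ']
      exact Submodule.mul_mem_mul (perm_X_mem (fun i => (e.symm (g⁻¹ (e (i, j)))).1)) ih
  have h4 := h3 Finset.univ
  rwa [Finset.card_univ, Fintype.card_fin] at h4

/-- linear extension of `th` -/
noncomputable def thL (e : Fin a × Fin b ≃ X) :
    MonoidAlgebra ℂ (Equiv.Perm X) →ₗ[ℂ] SA a a :=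
  (Finsupp.linearCombination ℂ (th e)) ∘ₗ (MonoidAlgebra.coeffLinearEquiv ℂ).toLinearMap

omit [DecidableEq X] in
theorem thL_single (e : Fin a × Fin b ≃ X) (g : Equiv.Perm X) (c : ℂ) :
    thL e (MonoidAlgebra.single g c) = c • th e g := by
  show Finsupp.linearCombination ℂ (th e) (MonoidAlgebra.single g c).coeff = _
  rw [MonoidAlgebra.coeff_single, Finsupp.linearCombination_single]

theorem thL_E_mem (e : Fin a × Fin b ≃ X) (y : MonoidAlgebra ℂ (Equiv.Perm X)) :
    thL e (E ℂ e * y) ∈ D a a 1 ^ b := by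
  classical
  induction y using MonoidAlgebra.induction_linear with
  | zero => rw [mul_zero, map_zero]; exact Submodule.zero_mem _
  | add x y hx hy => rw [mul_add, map_add]; exact Submodule.add_mem _ hx hy
  | single g c =>
    have h1 : E ℂ e * MonoidAlgebra.single g c
        = ∑ r : Equiv.Perm X with r ∈ rowSub e, ∑ q : Equiv.Perm X with q ∈ colSub e,
            MonoidAlgebra.single (r * (q * g)) c := by
      rw [E, ysum, ysum, Finset.sum_mul, Finset.sum_mul, Finset.sum_filter]
      refine Finset.sum_congr rfl fun r _ => ?_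
      split_ifs with hr
      · rw [Finset.mul_sum, Finset.sum_mul, Finset.sum_filter]
        refine Finset.sum_congr rfl fun q _ => ?_
        split_ifs with hq
        · rw [MonoidAlgebra.single_mul_single, MonoidAlgebra.single_mul_single, mul_assoc, one_mul,
            one_mul]
        · rw [mul_zero, zero_mul]
      · rw [zero_mul, zero_mul]
    rw [h1, map_sum]
    refine Submodule.sum_mem _ fun r hr => ?_
    rw [map_sum]
    rw [Finset.mem_filter] at hr
    have h2 : ∑ q : Equiv.Perm X with q ∈ colSub e, thL e (MonoidAlgebra.single (r * (q * g)) c)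
        = c • ∑ q : Equiv.Perm X with q ∈ colSub e, th e (q * g) := by
      rw [Finset.smul_sum]
      refine Finset.sum_congr rfl fun q _ => ?_
      rw [thL_single, th_row e hr.2]
    rw [h2]
    exact Submodule.smul_mem _ _ (sum_th_mem e g)

omit [DecidableEq X] in
theorem th_wr (e : Fin a × Fin b ≃ X) {k : Equiv.Perm X} {ρ : Equiv.Perm (Fin a)}
    (hk : ∀ x, (e.symm (k x)).1 = ρ (e.symm x).1) :
    th e k = ∏ i : Fin a, MvPolynomial.X (i, ρ⁻¹ i) ^ b := by
  have hk' : ∀ x, (e.symm (k⁻¹ x)).1 = ρ⁻¹ (e.symm x).1 := by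
    intro x
    have := hk (k⁻¹ x)
    rw [pai] at this
    rw [this, pia]
  rw [th, ← Equiv.prod_comp e, Fintype.prod_prod_type]
  refine Finset.prod_congr rfl fun i _ => ?_
  have h1 : ∀ j ∈ (Finset.univ : Finset (Fin b)),
      (MvPolynomial.X ((e.symm (e (i, j))).1, (e.symm (k⁻¹ (e (i, j)))).1) : SA a a)
        = MvPolynomial.X (i, ρ⁻¹ i) := by
    intro j _
    rw [hk', Equiv.symm_apply_apply]
  rw [Finset.prod_congr rfl h1, Finset.prod_const, Finset.card_univ, Fintype.card_fin]

theorem thL_wr (e : Fin a × Fin b ≃ X) :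
    (a.factorial : ℂ) • thL e (ysum ℂ (wrSub e)) = (Nat.card (wrSub e) : ℂ) • T a b := by
  classical
  have h0 : thL e (ysum ℂ (wrSub e)) = ∑ k : Equiv.Perm X with k ∈ wrSub e, th e k := by
    rw [ysum, map_sum, Finset.sum_filter]
    refine Finset.sum_congr rfl fun k _ => ?_
    split_ifs with hk
    · rw [thL_single, one_smul]
    · rw [map_zero]
  have h1 : ∀ σ : Equiv.Perm (Fin a), ∑ k : Equiv.Perm X with k ∈ wrSub e, th e (blkP e σ * k)
      = ∑ k : Equiv.Perm X with k ∈ wrSub e, th e k := by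
    intro σ
    have hσ : blkP e σ ∈ wrSub e := ⟨σ, fun x => by rw [symm_blkP]⟩
    refine Finset.sum_bij (fun k _ => blkP e σ * k) ?_ ?_ ?_ ?_
    · intro k hk
      rw [Finset.mem_filter] at hk ⊢
      exact ⟨Finset.mem_univ _, (wrSub e).mul_mem hσ hk.2⟩
    · intro k _ k' _ h
      exact mul_left_cancel h
    · intro k hk
      rw [Finset.mem_filter] at hk
      refine ⟨(blkP e σ)⁻¹ * k, ?_, by rw [mul_inv_cancel_left]⟩
      rw [Finset.mem_filter]
      exact ⟨Finset.mem_univ _, (wrSub e).mul_mem ((wrSub e).inv_mem hσ) hk.2⟩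
    · intro k _
      rfl
  have h2 : ∑ σ : Equiv.Perm (Fin a), ∑ k : Equiv.Perm X with k ∈ wrSub e, th e (blkP e σ * k)
      = (a.factorial : ℂ) • ∑ k : Equiv.Perm X with k ∈ wrSub e, th e k := by
    rw [Finset.sum_congr rfl fun σ _ => h1 σ, Finset.sum_const, Finset.card_univ,
      Fintype.card_perm, Fintype.card_fin, Nat.cast_smul_eq_nsmul]
  have h3 : ∀ k ∈ (Finset.univ : Finset (Equiv.Perm X)).filter (· ∈ wrSub e),
      ∑ σ : Equiv.Perm (Fin a), th e (blkP e σ * k) = T a b := by
    intro k hk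
    obtain ⟨ρ, hρ⟩ := (Finset.mem_filter.1 hk).2
    have h4 : ∀ σ : Equiv.Perm (Fin a), th e (blkP e σ * k)
        = ∏ i : Fin a, MvPolynomial.X (i, (σ * ρ)⁻¹ i) ^ b := by
      intro σ
      apply th_wr
      intro x
      rw [Equiv.Perm.mul_apply, symm_blkP, hρ, Equiv.Perm.mul_apply]
    rw [Finset.sum_congr rfl fun σ _ => h4 σ, T]
    refine Fintype.sum_equiv ((Equiv.mulRight ρ).trans (Equiv.inv _)) _ _ fun σ => ?_
    rfl
  rw [h0, ← h2, Finset.sum_comm, Finset.sum_congr rfl h3, Finset.sum_const,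
    ← Nat.cast_smul_eq_nsmul ℂ]
  congr 2
  rw [Nat.card_eq_fintype_card, Fintype.card_subtype]

/-- THE LINK (PLAN S, block A4) -/
theorem link (p : ℕ) [hp : Fact p.Prime] (hb : 0 < b) (e : Fin a × Fin b ≃ X)
    (h : (Fintype.card X).factorial ≤ Module.finrank (ZMod p)
      (LinearMap.range (LinearMap.mulLeft (ZMod p) (E (ZMod p) e)))
        * (b.factorial ^ a * a.factorial)) :
    T a b ∈ D a a 1 ^ b := by
  obtain ⟨y, hy⟩ := exists_of_rank p hb e h
  have h1 := congrArg (MonoidAlgebra.mapRingHom (Equiv.Perm X) (algebraMap ℚ ℂ)) hy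
  rw [map_mul, E_map, ysum_map] at h1
  have h2 := thL_E_mem e (MonoidAlgebra.mapRingHom (Equiv.Perm X) (algebraMap ℚ ℂ) y)
  rw [h1] at h2
  have h3 := Submodule.smul_mem _ (a.factorial : ℂ) h2
  rw [thL_wr] at h3
  have h4 : (Nat.card (wrSub e) : ℂ) ≠ 0 := by exact_mod_cast Nat.card_pos.ne'
  have h5 := Submodule.smul_mem _ ((Nat.card (wrSub e) : ℂ)⁻¹) h3
  rwa [smul_smul, inv_mul_cancel₀ h4, one_smul] at h5

/-- the case needed for S0286 -/
theorem link67 (p : ℕ) [hp : Fact p.Prime] (e : Fin 6 × Fin 7 ≃ Fin 42)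
    (h : Nat.factorial 42 ≤ Module.finrank (ZMod p)
      (LinearMap.range (LinearMap.mulLeft (ZMod p) (E (ZMod p) e)))
        * (Nat.factorial 7 ^ 6 * Nat.factorial 6)) :
    T 6 7 ∈ D 6 6 1 ^ 7 := by
  apply link p (by norm_num) e
  rwa [Fintype.card_fin]

end perm

end Crest.Agent.R187.SN.Link
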