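import Mathlib
import Crest.Agent.R187.SN.Semi

/-!
# Row 187, PLAN S, block (F): the number of lattice words of a given content

`latCount λ` is the number of lattice words `w` (start shape `0`) with final shape `λ`.
Main result: `latCount λ * ∏ᵢ lᵢ! = N! * ∏_{i<j} (lᵢ - lⱼ)`, `lᵢ = λᵢ + r - 1 - i`, for `r = 6`.
-/

set_option autoImplicit false

namespace Crest.Agent.R187.SN

open Finset

/-! ### The determinant recursion -/

section det

variable {r : ℕ}

/-- multiplying each row in turn by the weights `c` and summing gives the trace. -/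
lemma sum_det_updateRow_weight (M : Matrix (Fin r) (Fin r) ℤ) (c : Fin r → ℤ) :
    ∑ k, (M.updateRow k (fun j => c j * M k j)).det = (∑ j, c j) * M.det := by
  simp only [Matrix.det_apply']
  rw [Finset.sum_comm, Finset.mul_sum]
  refine Finset.sum_congr rfl fun σ _ => ?_
  have h1 : ∀ k, (∏ i, (M.updateRow k (fun j => c j * M k j)) (σ i) i)
      = c (σ.symm k) * ∏ i, M (σ i) i := by
    intro k
    have h2 : ∀ i, (M.updateRow k (fun j => c j * M k j)) (σ i) i
        = (if i = σ.symm k then c (σ.symm k) else 1) * M (σ i) i := by
      intro i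
      by_cases h : i = σ.symm k
      · subst h
        simp [Matrix.updateRow_apply]
      · have h3 : σ i ≠ k := by
          intro h4
          apply h
          rw [← h4]; simp
        simp [Matrix.updateRow_apply, h, h3]
    rw [Finset.prod_congr rfl (fun i _ => h2 i), Finset.prod_mul_distrib]
    congr 1
    rw [Finset.prod_ite_eq' Finset.univ (σ.symm k) (fun _ => c (σ.symm k))]
    simp
  simp only [h1]
  rw [← Finset.mul_sum, ← Finset.sum_mul]
  have h5 : ∑ k, c (σ.symm k) = ∑ j, c j := Equiv.sum_comp σ.symm c
  rw [h5]
  ring

/-- the matrix of descending factorials -/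
noncomputable def dM (v : Fin r → ℤ) : Matrix (Fin r) (Fin r) ℤ :=
  Matrix.of fun i j => (descPochhammer ℤ (j : ℕ)).eval (v i)

lemma vandermonde_eq_dM (v : Fin r → ℤ) : (Matrix.vandermonde v).det = (dM v).det :=
  Matrix.det_eval_matrixOfPolynomials_eq_det_vandermonde v (fun j => descPochhammer ℤ (j : ℕ))
    (fun j => descPochhammer_natDegree ℤ j) (fun j => monic_descPochhammer ℤ j)

lemma dP_rec (n : ℕ) (x : ℤ) :
    x * (descPochhammer ℤ n).eval (x - 1) = (x - n) * (descPochhammer ℤ n).eval x := by
  have h1 := descPochhammer_succ_left ℤ n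
  have h2 := congrArg (fun p => Polynomial.eval x p) h1
  have h3 := descPochhammer_succ_eval (S := ℤ) n x
  simp only [Polynomial.eval_mul, Polynomial.eval_X, Polynomial.eval_comp, Polynomial.eval_sub,
    Polynomial.eval_one] at h2
  rw [← h2, h3]
  ring

lemma dM_rec (v : Fin r → ℤ) :
    ∑ k, v k * (dM (Function.update v k (v k - 1))).det
      = (∑ k, v k - ∑ k : Fin r, ((k : ℕ) : ℤ)) * (dM v).det := by
  have h1 : ∀ k, dM (Function.update v k (v k - 1))
      = (dM v).updateRow k (fun j => (descPochhammer ℤ (j : ℕ)).eval (v k - 1)) := by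
    intro k
    ext i j
    by_cases h : i = k
    · subst h
      simp [dM, Matrix.updateRow_apply]
    · simp [dM, Matrix.updateRow_apply, h]
  have h2 : ∀ k, v k * (dM (Function.update v k (v k - 1))).det
      = v k * (dM v).det - ((dM v).updateRow k (fun j => ((j : ℕ) : ℤ) * dM v k j)).det := by
    intro k
    rw [h1 k, ← Matrix.det_updateRow_smul]
    have h3 : (v k • fun j : Fin r => (descPochhammer ℤ (j : ℕ)).eval (v k - 1))
        = (v k • (dM v k)) + (fun j : Fin r => (-1 : ℤ) * (((j : ℕ) : ℤ) * dM v k j)) := by
      funext j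
      simp only [Pi.smul_apply, smul_eq_mul, Pi.add_apply]
      rw [dP_rec]
      simp only [dM, Matrix.of_apply]
      ring
    rw [h3, Matrix.det_updateRow_add, Matrix.det_updateRow_smul, Matrix.updateRow_eq_self]
    have h4 : (fun j : Fin r => (-1 : ℤ) * (((j : ℕ) : ℤ) * dM v k j))
        = (-1 : ℤ) • (fun j : Fin r => (((j : ℕ) : ℤ) * dM v k j)) := by
      funext j; simp
    rw [h4, Matrix.det_updateRow_smul]
    ring
  rw [Finset.sum_congr rfl (fun k _ => h2 k), Finset.sum_sub_distrib, ← Finset.sum_mul,
    sum_det_updateRow_weight (dM v) (fun j => ((j : ℕ) : ℤ))]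
  ring

/-- `∏_{i<j} (vᵢ - vⱼ)` -/
def vd (v : Fin r → ℤ) : ℤ := ∏ i : Fin r, ∏ j ∈ Finset.Ioi i, (v i - v j)

lemma vd_eq (v : Fin r → ℤ) :
    vd v = (∏ i : Fin r, ∏ _j ∈ Finset.Ioi i, (-1 : ℤ)) * (dM v).det := by
  rw [← vandermonde_eq_dM, Matrix.det_vandermonde, ← Finset.prod_mul_distrib]
  unfold vd
  refine Finset.prod_congr rfl fun i _ => ?_
  rw [← Finset.prod_mul_distrib]
  refine Finset.prod_congr rfl fun j _ => ?_
  ring

lemma vd_rec (v : Fin r → ℤ) :
    ∑ k, v k * vd (Function.update v k (v k - 1))
      = (∑ k, v k - ∑ k : Fin r, ((k : ℕ) : ℤ)) * vd v := by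
  simp only [vd_eq]
  rw [show (∑ k, v k - ∑ k : Fin r, ((k : ℕ) : ℤ)) *
      ((∏ i : Fin r, ∏ _j ∈ Finset.Ioi i, (-1 : ℤ)) * (dM v).det)
      = (∏ i : Fin r, ∏ _j ∈ Finset.Ioi i, (-1 : ℤ)) *
      ((∑ k, v k - ∑ k : Fin r, ((k : ℕ) : ℤ)) * (dM v).det) by ring, ← dM_rec, Finset.mul_sum]
  refine Finset.sum_congr rfl fun k _ => ?_
  ring

lemma vd_zero {v : Fin r → ℤ} {i j : Fin r} (hij : i < j) (h : v i = v j) : vd v = 0 := by
  unfold vd
  apply Finset.prod_eq_zero (Finset.mem_univ i)
  apply Finset.prod_eq_zero (Finset.mem_Ioi.2 hij)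
  rw [h, sub_self]

end det

/-! ### Counting lattice words -/

section count

variable {r : ℕ}

/-- the number of lattice words (start shape `0`) with final shape `l` -/
noncomputable def latCount (l : Fin r → ℕ) : ℕ :=
  Nat.card {w : List (Fin r) // Lat 0 w ∧ sh 0 w = l}

lemma sum_add' (κ : Fin r → ℕ) (a : Fin r) : ∑ i, add κ a i = ∑ i, κ i + 1 := by
  unfold add
  rw [Finset.sum_update_of_mem (Finset.mem_univ a)]
  rw [← Finset.sum_erase_add _ _ (Finset.mem_univ a), Finset.sdiff_singleton_eq_erase]
  ring

lemma sum_sh (κ : Fin r → ℕ) (w : List (Fin r)) : ∑ i, sh κ w i = ∑ i, κ i + w.length := by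
  induction w generalizing κ with
  | nil => simp [sh]
  | cons a t ih =>
    rw [sh, ih, sum_add', List.length_cons]
    ring

lemma finite_lat (P : List (Fin r) → Prop) (l : Fin r → ℕ) (h : ∀ w, P w → sh 0 w = l) :
    Finite {w : List (Fin r) // P w} := by
  have h1 : (List.replicate 0 0 : List ℕ) = [] := rfl
  have h2 : {w : List (Fin r) | P w} ⊆ {w | w.length = ∑ i, l i} := by
    intro w hw
    have h3 := sum_sh (0 : Fin r → ℕ) w
    rw [h w hw] at h3
    simp at h3
    exact h3.symm
  exact (Set.Finite.subset (List.finite_length_eq (Fin r) _) h2).to_subtype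

/-- decomposition by the last letter -/
def lastEquiv (l : Fin r → ℕ) (hl : Antitone l) (hne : ∑ i, l i ≠ 0) :
    {w : List (Fin r) // Lat 0 w ∧ sh 0 w = l} ≃
      Σ k : Fin r, {u : List (Fin r) // Lat 0 u ∧ add (sh 0 u) k = l} where
  toFun w := by
    have hw : w.1 ≠ [] := by
      intro h
      have h3 := sum_sh (0 : Fin r → ℕ) w.1
      rw [w.2.2, h] at h3
      simp at h3
      apply hne
      simp [h3]
    have h1 := List.dropLast_append_getLast hw
    refine ⟨w.1.getLast hw, ⟨w.1.dropLast, ?_, ?_⟩⟩
    · have h2 := w.2.1
      rw [← h1, lat_append] at h2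
      exact h2.1
    · have h2 := w.2.2
      rw [← h1, sh_append] at h2
      exact h2
  invFun p := ⟨p.2.1 ++ [p.1], by
    refine ⟨?_, ?_⟩
    · rw [lat_append]
      refine ⟨p.2.2.1, p.2.2.1.sh_anti, ?_⟩
      have := p.2.2.2
      rw [this]
      exact hl
    · rw [sh_append]
      exact p.2.2.2⟩
  left_inv w := by
    apply Subtype.ext
    exact List.dropLast_append_getLast _
  right_inv p := by
    obtain ⟨k, u, hu⟩ := p
    apply Sigma.subtype_ext
    · simp
    · simp

lemma latCount_rec (l : Fin r → ℕ) (hl : Antitone l) (hne : ∑ i, l i ≠ 0) :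
    latCount l = ∑ k, if l k = 0 then 0 else latCount (Function.update l k (l k - 1)) := by
  unfold latCount
  have hfin : ∀ k : Fin r, Finite {u : List (Fin r) // Lat 0 u ∧ add (sh 0 u) k = l} := by
    intro k
    apply finite_lat _ (Function.update l k (l k - 1))
    rintro w ⟨_, h2⟩
    rw [← h2]
    funext i
    by_cases h : i = k
    · subst h
      simp [add]
    · simp [add, h]
  rw [Nat.card_congr (lastEquiv l hl hne), Nat.card_sigma]
  refine Finset.sum_congr rfl fun k _ => ?_
  split_ifs with h
  · have : IsEmpty {u : List (Fin r) // Lat 0 u ∧ add (sh 0 u) k = l} := by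
      constructor
      rintro ⟨u, _, hu⟩
      rw [← hu, add_same] at h
      omega
    exact Nat.card_of_isEmpty
  · apply Nat.card_congr
    apply Equiv.subtypeEquivRight
    intro u
    constructor
    · rintro ⟨h1, h2⟩
      refine ⟨h1, ?_⟩
      rw [← h2]
      funext i
      by_cases h : i = k
      · subst h
        simp [add]
      · simp [add, h]
    · rintro ⟨h1, h2⟩
      refine ⟨h1, ?_⟩
      rw [h2]
      funext i
      by_cases h' : i = k
      · subst h'
        simp only [add, Function.update_self]
        omega
      · simp [add, h']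

lemma latCount_not_anti (l : Fin r → ℕ) (hl : ¬ Antitone l) : latCount l = 0 := by
  unfold latCount
  have : IsEmpty {w : List (Fin r) // Lat 0 w ∧ sh 0 w = l} := by
    constructor
    rintro ⟨w, h1, h2⟩
    exact hl (h2 ▸ h1.sh_anti)
  exact Nat.card_of_isEmpty

lemma latCount_zero : latCount (0 : Fin r → ℕ) = 1 := by
  unfold latCount
  have : Unique {w : List (Fin r) // Lat 0 w ∧ sh 0 w = 0} :=
    { default := ⟨[], by
        refine ⟨?_, rfl⟩
        exact antitone_const⟩
      uniq := by
        rintro ⟨w, h1, h2⟩
        apply Subtype.ext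
        have h3 := sum_sh (0 : Fin r → ℕ) w
        rw [h2] at h3
        simp at h3
        simpa using h3.symm }
  exact Nat.card_unique

/-- the shifted shape `lᵢ = λᵢ + r - 1 - i` -/
def sft (l : Fin r → ℕ) (i : Fin r) : ℕ := l i + (r - 1 - i)

/-- `∏_{i<j} (lᵢ - lⱼ)` for the shifted shape -/
def sftD (l : Fin r → ℕ) : ℤ := vd (fun i => (sft l i : ℤ))

lemma sft_update (l : Fin r → ℕ) (k : Fin r) (h : l k ≠ 0) :
    (fun i => (sft (Function.update l k (l k - 1)) i : ℤ))
      = Function.update (fun i => (sft l i : ℤ)) k ((sft l k : ℤ) - 1) := by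
  funext i
  by_cases hi : i = k
  · subst hi
    simp only [sft, Function.update_self]
    omega
  · simp [sft, hi]

lemma prod_fact_update (l : Fin r → ℕ) (k : Fin r) (h : l k ≠ 0) :
    ∏ i, (sft l i).factorial
      = sft l k * ∏ i, (sft (Function.update l k (l k - 1)) i).factorial := by
  rw [← Finset.mul_prod_erase Finset.univ _ (Finset.mem_univ k),
    ← Finset.mul_prod_erase Finset.univ
      (fun i => (sft (Function.update l k (l k - 1)) i).factorial) (Finset.mem_univ k)]
  have h1 : sft (Function.update l k (l k - 1)) k = sft l k - 1 := by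
    simp only [sft, Function.update_self]
    omega
  have h2 : sft l k ≠ 0 := by
    unfold sft
    omega
  have h3 : ∏ i ∈ Finset.univ.erase k, (sft (Function.update l k (l k - 1)) i).factorial
      = ∏ i ∈ Finset.univ.erase k, (sft l i).factorial := by
    refine Finset.prod_congr rfl fun i hi => ?_
    have : i ≠ k := (Finset.mem_erase.1 hi).1
    simp [sft, this]
  rw [h1, h3, ← mul_assoc, Nat.mul_factorial_pred h2]

/-- when `λ - ε_k` is not a partition, the term vanishes -/
lemma term_zero (l : Fin r → ℕ) (hl : Antitone l) (k : Fin r)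
    (h : l k = 0 ∨ ¬ Antitone (Function.update l k (l k - 1))) :
    (sft l k : ℤ) * vd (Function.update (fun i => (sft l i : ℤ)) k ((sft l k : ℤ) - 1)) = 0 := by
  by_cases hk : (k : ℕ) + 1 < r
  · -- there is a next row, with the same length
    set k' : Fin r := ⟨(k : ℕ) + 1, hk⟩ with hk'
    have hkk : k < k' := by
      change (k : ℕ) < (k : ℕ) + 1
      omega
    have h1 : l k' = l k := by
      rcases h with h | h
      · have := hl hkk.le
        omega
      · by_contra hcon
        apply h
        have h2 : l k' < l k := lt_of_le_of_ne (hl hkk.le) hcon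
        intro x y hxy
        by_cases hx : x = k
        · subst hx
          by_cases hy : y = x
          · rw [hy]
          · have h3 : x < y := lt_of_le_of_ne hxy (Ne.symm hy)
            have h4 : k' ≤ y := by
              have : (x : ℕ) < y := h3
              change (x : ℕ) + 1 ≤ (y : ℕ)
              omega
            have h5 := hl h4
            simp only [Function.update_self, Function.update_of_ne hy]
            omega
        · by_cases hy : y = k
          · subst hy
            simp only [Function.update_self, Function.update_of_ne hx]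
            have := hl hxy
            omega
          · simp only [Function.update_of_ne hy, Function.update_of_ne hx]
            exact hl hxy
    have h2 : vd (Function.update (fun i => (sft l i : ℤ)) k ((sft l k : ℤ) - 1)) = 0 := by
      apply vd_zero hkk
      rw [Function.update_self, Function.update_of_ne hkk.ne']
      simp only [sft, h1]
      have : ((k' : Fin r) : ℕ) = k + 1 := rfl
      omega
    rw [h2, mul_zero]
  · -- `k` is the last row
    have hkr : (k : ℕ) = r - 1 := by
      have := k.2
      omega
    have h0 : l k = 0 := by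
      rcases h with h | h
      · exact h
      · by_contra hcon
        apply h
        intro x y hxy
        by_cases hx : x = k
        · subst hx
          have : y = x := by
            apply Fin.ext
            have h1 : (x : ℕ) ≤ y := hxy
            have := y.2
            omega
          rw [this]
        · by_cases hy : y = k
          · subst hy
            simp only [Function.update_self, Function.update_of_ne hx]
            have := hl hxy
            omega
          · simp only [Function.update_of_ne hy, Function.update_of_ne hx]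
            exact hl hxy
    have h1 : sft l k = 0 := by
      unfold sft
      omega
    rw [h1]
    simp

theorem latCount_formula_aux (hbase : (∏ i : Fin r, ((sft (0 : Fin r → ℕ) i).factorial : ℤ))
      = sftD (0 : Fin r → ℕ)) (N : ℕ) :
    ∀ l : Fin r → ℕ, Antitone l → ∑ i, l i = N →
      (latCount l : ℤ) * ∏ i, ((sft l i).factorial : ℤ) = (N.factorial : ℤ) * sftD l := by
  induction N with
  | zero =>
    intro l hl h
    have h0 : l = 0 := by
      funext i
      have := Finset.sum_eq_zero_iff.1 h i (Finset.mem_univ i)
      simpa using this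
    subst h0
    rw [latCount_zero, hbase]
    simp
  | succ N ih =>
    intro l hl h
    rw [latCount_rec l hl (by omega)]
    push_cast
    rw [Finset.sum_mul]
    have h1 : ∀ k : Fin r, ((if l k = 0 then (0 : ℤ) else
        (latCount (Function.update l k (l k - 1)) : ℤ)) * ∏ i, ((sft l i).factorial : ℤ))
        = (N.factorial : ℤ) * ((sft l k : ℤ) *
          vd (Function.update (fun i => (sft l i : ℤ)) k ((sft l k : ℤ) - 1))) := by
      intro k
      by_cases h0 : l k = 0
      · rw [if_pos h0, term_zero l hl k (Or.inl h0)]
        simp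
      · rw [if_neg h0]
        by_cases ha : Antitone (Function.update l k (l k - 1))
        · have h2 : ∑ i, Function.update l k (l k - 1) i = N := by
            have h3 := sum_add' (Function.update l k (l k - 1)) k
            have h4 : add (Function.update l k (l k - 1)) k = l := by
              funext i
              by_cases hi : i = k
              · subst hi
                simp only [add, Function.update_self]
                omega
              · simp [add, hi]
            rw [h4, h] at h3
            omega
          have h3 := ih _ ha h2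
          have h4 : (∏ i, ((sft l i).factorial : ℤ)) = (sft l k : ℤ) *
              ∏ i, ((sft (Function.update l k (l k - 1)) i).factorial : ℤ) := by
            exact_mod_cast prod_fact_update l k h0
          rw [h4, ← sft_update l k h0]
          calc (latCount (Function.update l k (l k - 1)) : ℤ) * ((sft l k : ℤ) *
              ∏ i, ((sft (Function.update l k (l k - 1)) i).factorial : ℤ))
              = (sft l k : ℤ) * ((latCount (Function.update l k (l k - 1)) : ℤ) *
              ∏ i, ((sft (Function.update l k (l k - 1)) i).factorial : ℤ)) := by ring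
            _ = (sft l k : ℤ) * ((N.factorial : ℤ) * sftD (Function.update l k (l k - 1))) := by
              rw [h3]
            _ = _ := by
              unfold sftD
              ring
        · rw [latCount_not_anti _ ha, term_zero l hl k (Or.inr ha)]
          simp
    have h2 : ∀ k : Fin r, ((if l k = 0 then (0 : ℤ) else
        (latCount (Function.update l k (l k - 1)) : ℤ)) * ∏ i, ((sft l i).factorial : ℤ)) =
        ((if l k = 0 then (0 : ℤ) else
        (latCount (Function.update l k (l k - 1)) : ℤ)) * ∏ i, ((sft l i).factorial : ℤ)) :=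
      fun _ => rfl
    rw [Finset.sum_congr rfl (fun k _ => h1 k), ← Finset.mul_sum,
      vd_rec (fun i => (sft l i : ℤ))]
    have h5 : (∑ k, (sft l k : ℤ) - ∑ k : Fin r, ((k : ℕ) : ℤ)) = N + 1 := by
      have h6 : (∑ k : Fin r, (sft l k : ℤ)) = ∑ k, (l k : ℤ) + ∑ k : Fin r, (((r - 1 - (k : ℕ) : ℕ)) : ℤ) := by
        rw [← Finset.sum_add_distrib]
        refine Finset.sum_congr rfl fun k _ => ?_
        unfold sft
        push_cast
        rfl
      have h7 : ∑ k : Fin r, (((r - 1 - (k : ℕ) : ℕ)) : ℤ) = ∑ k : Fin r, ((k : ℕ) : ℤ) := by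
        rw [← Equiv.sum_comp Fin.revPerm]
        refine Finset.sum_congr rfl fun k _ => ?_
        have : ((Fin.revPerm k : Fin r) : ℕ) = r - (k + 1) := by simp [Fin.val_rev]
        rw [this]
        have := k.2
        congr 1
        omega
      rw [h6, h7]
      have h8 : (∑ k, (l k : ℤ)) = N + 1 := by exact_mod_cast h
      rw [h8]
      ring
    rw [h5, Nat.factorial_succ]
    unfold sftD
    push_cast
    ring

end count

section six

/-- **the dimension formula for six rows** -/
theorem latCount_formula (l : Fin 6 → ℕ) (hl : Antitone l) :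
    (latCount l : ℤ) * ∏ i, ((sft l i).factorial : ℤ)
      = ((∑ i, l i).factorial : ℤ) * sftD l := by
  apply latCount_formula_aux _ _ l hl rfl
  decide

end six

end Crest.Agent.R187.SN
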