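import Mathlib
import Crest.Agent.R187.SN.Count

/-!
# Row 187, PLAN S, block (F2): kernel evaluation of `∑ f^λ m_λ` over a table

A table is a list of pairs `(key, m)`, `key` = the shape in base `64` (first row = highest digit).
`chk L = true` says: keys strictly increasing, every key is a partition of `42` into at most six
parts.  `tsum L` is `∑ m * f^λ`, computed by the product formula.
-/

set_option autoImplicit false

namespace Crest.Agent.R187.SN

open Finset

/-- the shape with base-64 code `k` -/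
def shp (k : ℕ) : Fin 6 → ℕ := fun i => k / 64 ^ (5 - (i : ℕ)) % 64

/-- packed factorials -/
def FT : ℕ := 0x293378a11ee64822167f7417fdd3a50ec0ee4f7400000000000000000000000000e06a0e525c0c6da95469f59de944dfa20ff6cc0000000000000000000000000004e0ea0cebbd7cd1981890784d6b3c8385e98a00000000000000000000000000001bc0ef38704cbab3bc477a23da8f91251bf2000000000000000000000000000000a179cceb478fe12d019fdde7e05a924c4580000000000000000000000000000003c1581d491b28f523c23abdf35b689c908000000000000000000000000000000016e39f2c684405d62f4a8a9e2cd7d2f740000000000000000000000000000000008eeae81b84c7f27e080fde64ff052540000000000000000000000000000000000392ac33e351cc7659cd325c1ff9ba8800000000000000000000000000000000001774015499125eee9c3c5e4275fe380000000000000000000000000000000000009e0008f68df506477ada0f38fff4000000000000000000000000000000000000044530acb7ba83a111287cf3b3e4000000000000000000000000000000000000001e5dcbe8a8bc8b95cf58cde1710000000000000000000000000000000000000000de1bc4d19efcac82445da75b000000000000000000000000000000000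00000000688589cc0e9505e2f2fee5580000000000000000000000000000000000000000032ad5a155c6748ac18b9a580000000000000000000000000000000000000000001956ad0aae33a4560c5cd2c0000000000000000000000000000000000000000000d13f6370f96865df5dd54000000000000000000000000000000000000000000006f99461a1e9e1432dcb60000000000000000000000000000000000000000000003d925ba47ad2cd59dae0000000000000000000000000000000000000000000000232f0fcbb3e62c33588000000000000000000000000000000000000000000000014d9849ea37eeac918000000000000000000000000000000000000000000000000cd4a0619fb0907bc000000000000000000000000000000000000000000000000083629343d3dcd1c0000000000000000000000000000000000000000000000000057970cd7e293368000000000000000000000000000000000000000000000000003ceea4c2b3e0d80000000000000000000000000000000000000000000000000002c5077d36b8c4000000000000000000000000000000000000000000000000000021c3677c82b4000000000000000000000000000000000000000000000000000001b02b93068900000000000000000000000000000000000000000000000000000016beecca7300000000000000000000000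000000000000000000000000000000001437eeecd800000000000000000000000000000000000000000000000000000001307777580000000000000000000000000000000000000000000000000000000013077775800000000000000000000000000000000000000000000000000000000144c3b2800000000000000000000000000000000000000000000000000000000017328cc00000000000000000000000000000000000000000000000000000000001c8cfc0000000000000000000000000000000000000000000000000000000000026115000000000000000000000000000000000000000000000000000000000000375f0000000000000000000000000000000000000000000000000000000000000589800000000000000000000000000000000000000000000000000000000000009d8000000000000000000000000000000000000000000000000000000000000013b000000000000000000000000000000000000000000000000000000000000002d0000000000000000000000000000000000000000000000000000000000000007800000000000000000000000000000000000000000000000000000000000000180000000000000000000000000000000000000000000000000000000000000006000000000000000000000000000000000000000000000000000000000000000200000000000000000000000000000000000000000000000000000000000000010000000000000000000000000000000000000000000000000000000000000001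

/-- `k!` for `k < 48` -/
def fct (k : ℕ) : ℕ := (FT / 2 ^ (256 * k)) % 2 ^ 256

lemma fct_eq : ∀ k < 48, fct k = k.factorial := by
  decide +kernel

/-- digits -/
def dg0 (k : ℕ) : ℕ := k / 1073741824 % 64
def dg1 (k : ℕ) : ℕ := k / 16777216 % 64
def dg2 (k : ℕ) : ℕ := k / 262144 % 64
def dg3 (k : ℕ) : ℕ := k / 4096 % 64
def dg4 (k : ℕ) : ℕ := k / 64 % 64
def dg5 (k : ℕ) : ℕ := k % 64

/-- product of differences -/
def nm (a b c d e f : ℕ) : ℕ :=
  (a-b)*(a-c)*(a-d)*(a-e)*(a-f)*(b-c)*(b-d)*(b-e)*(b-f)*(c-d)*(c-e)*(c-f)*(d-e)*(d-f)*(e-f)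

/-- product of factorials -/
def dn (a b c d e f : ℕ) : ℕ := fct a * fct b * fct c * fct d * fct e * fct f

/-- `f^λ` from the digits -/
def fv (a b c d e f : ℕ) : ℕ := fct 42 * nm a b c d e f / dn a b c d e f

def fval (k : ℕ) : ℕ :=
  fv (dg0 k + 5) (dg1 k + 4) (dg2 k + 3) (dg3 k + 2) (dg4 k + 1) (dg5 k)

def okk (k : ℕ) : Bool :=
  Nat.ble (dg1 k) (dg0 k) && Nat.ble (dg2 k) (dg1 k) && Nat.ble (dg3 k) (dg2 k) &&
  Nat.ble (dg4 k) (dg3 k) && Nat.ble (dg5 k) (dg4 k) &&
  Nat.beq (dg0 k + dg1 k + dg2 k + dg3 k + dg4 k + dg5 k) 42 && Nat.blt k 68719476736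

/-- strictly increasing keys (all `> p`), all fine -/
def chkFrom (p : ℕ) (L : List (ℕ × ℕ)) : Bool :=
  List.rec (motive := fun _ => ℕ → Bool) (fun _ => true)
    (fun e _ ih p => Nat.blt p e.1 && okk e.1 && ih e.1) L p

def chk (L : List (ℕ × ℕ)) : Bool := chkFrom 0 L

def tsum (L : List (ℕ × ℕ)) : ℕ :=
  List.rec (motive := fun _ => ℕ) 0 (fun e _ ih => e.2 * fval e.1 + ih) L

lemma chkFrom_nil (p : ℕ) : chkFrom p [] = true := rfl
lemma chkFrom_cons (p : ℕ) (e : ℕ × ℕ) (L : List (ℕ × ℕ)) :
    chkFrom p (e :: L) = (Nat.blt p e.1 && okk e.1 && chkFrom e.1 L) := rfl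
lemma tsum_nil : tsum [] = 0 := rfl
lemma tsum_cons (e : ℕ × ℕ) (L : List (ℕ × ℕ)) : tsum (e :: L) = e.2 * fval e.1 + tsum L := rfl

lemma tsum_eq (L : List (ℕ × ℕ)) : tsum L = (L.map fun e => e.2 * fval e.1).sum := by
  induction L with
  | nil => rfl
  | cons e L ih => rw [tsum_cons, ih, List.map_cons, List.sum_cons]

lemma blt_iff (a b : ℕ) : Nat.blt a b = true ↔ a < b := by
  unfold Nat.blt
  rw [Nat.ble_eq]
  exact Iff.rfl

lemma shp_vals (k : ℕ) : shp k = ![dg0 k, dg1 k, dg2 k, dg3 k, dg4 k, dg5 k] := by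
  funext i
  fin_cases i <;> simp [shp, dg0, dg1, dg2, dg3, dg4, dg5]

structure OK (k : ℕ) : Prop where
  anti : Antitone (shp k)
  sum : ∑ i, shp k i = 42
  lt : k < 68719476736

lemma okk_sound {k : ℕ} (h : okk k = true) : OK k := by
  unfold okk at h
  simp only [Bool.and_eq_true, Nat.ble_eq, Nat.beq_eq, blt_iff] at h
  obtain ⟨⟨⟨⟨⟨⟨h1, h2⟩, h3⟩, h4⟩, h5⟩, h6⟩, h7⟩ := h
  refine ⟨?_, ?_, h7⟩
  · rw [shp_vals]
    intro i j hij
    fin_cases i <;> fin_cases j <;> simp at hij ⊢ <;> omega
  · rw [shp_vals]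
    simp only [Fin.sum_univ_succ, Fin.sum_univ_zero]
    simp
    omega

lemma shp_inj {k k' : ℕ} (h : OK k) (h' : OK k') (he : shp k = shp k') : k = k' := by
  have h0 := congrFun he 0
  have h1 := congrFun he 1
  have h2 := congrFun he 2
  have h3 := congrFun he 3
  have h4 := congrFun he 4
  have h5 := congrFun he 5
  rw [shp_vals, shp_vals] at h0 h1 h2 h3 h4 h5
  simp at h0 h1 h2 h3 h4 h5
  unfold dg0 at h0
  unfold dg1 at h1
  unfold dg2 at h2
  unfold dg3 at h3
  unfold dg4 at h4
  unfold dg5 at h5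
  have h6 := h.lt
  have h7 := h'.lt
  omega

lemma vd_six (v : Fin 6 → ℤ) : vd v =
    (v 0 - v 1) * (v 0 - v 2) * (v 0 - v 3) * (v 0 - v 4) * (v 0 - v 5) *
    (v 1 - v 2) * (v 1 - v 3) * (v 1 - v 4) * (v 1 - v 5) *
    (v 2 - v 3) * (v 2 - v 4) * (v 2 - v 5) *
    (v 3 - v 4) * (v 3 - v 5) * (v 4 - v 5) := by
  have h : ∀ i : Fin 6, ∏ j ∈ Finset.Ioi i, (v i - v j)
      = ∏ j : Fin 6, if i < j then (v i - v j) else 1 := by
    intro i
    rw [← Finset.prod_filter]
    refine Finset.prod_congr ?_ fun _ _ => rfl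
    ext j
    simp
  unfold vd
  rw [Finset.prod_congr rfl (fun i _ => h i)]
  rw [Fin.prod_univ_six]
  simp only [Fin.prod_univ_six, show (0 : Fin 6) < 1 from by decide, show (0 : Fin 6) < 2 from by decide,
    show (0 : Fin 6) < 3 from by decide, show (0 : Fin 6) < 4 from by decide,
    show (0 : Fin 6) < 5 from by decide, show (1 : Fin 6) < 2 from by decide,
    show (1 : Fin 6) < 3 from by decide, show (1 : Fin 6) < 4 from by decide,
    show (1 : Fin 6) < 5 from by decide, show (2 : Fin 6) < 3 from by decide,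
    show (2 : Fin 6) < 4 from by decide, show (2 : Fin 6) < 5 from by decide,
    show (3 : Fin 6) < 4 from by decide, show (3 : Fin 6) < 5 from by decide,
    show (4 : Fin 6) < 5 from by decide, show ¬ ((1 : Fin 6) < 0) from by decide,
    show ¬ ((2 : Fin 6) < 0) from by decide, show ¬ ((3 : Fin 6) < 0) from by decide,
    show ¬ ((4 : Fin 6) < 0) from by decide, show ¬ ((5 : Fin 6) < 0) from by decide,
    show ¬ ((2 : Fin 6) < 1) from by decide, show ¬ ((3 : Fin 6) < 1) from by decide,
    show ¬ ((4 : Fin 6) < 1) from by decide, show ¬ ((5 : Fin 6) < 1) from by decide,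
    show ¬ ((3 : Fin 6) < 2) from by decide, show ¬ ((4 : Fin 6) < 2) from by decide,
    show ¬ ((5 : Fin 6) < 2) from by decide, show ¬ ((4 : Fin 6) < 3) from by decide,
    show ¬ ((5 : Fin 6) < 3) from by decide, show ¬ ((5 : Fin 6) < 4) from by decide,
    lt_irrefl, if_true, if_false, one_mul, mul_one]
  ring

/-- the kernel formula computes the number of lattice words -/
theorem fval_eq {k : ℕ} (h : OK k) : fval k = latCount (shp k) := by
  have hf := latCount_formula (shp k) h.anti
  rw [h.sum] at hf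
  have e0 : sft (shp k) 0 = dg0 k + 5 := by rw [shp_vals]; rfl
  have e1 : sft (shp k) 1 = dg1 k + 4 := by rw [shp_vals]; rfl
  have e2 : sft (shp k) 2 = dg2 k + 3 := by rw [shp_vals]; rfl
  have e3 : sft (shp k) 3 = dg3 k + 2 := by rw [shp_vals]; rfl
  have e4 : sft (shp k) 4 = dg4 k + 1 := by rw [shp_vals]; rfl
  have e5 : sft (shp k) 5 = dg5 k := by rw [shp_vals]; rfl
  have hs := h.sum
  have ha := h.anti
  rw [shp_vals] at hs ha
  simp only [Fin.sum_univ_six] at hs
  simp at hs
  have a01 : dg1 k ≤ dg0 k := ha (show (0 : Fin 6) ≤ 1 by decide)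
  have a12 : dg2 k ≤ dg1 k := ha (show (1 : Fin 6) ≤ 2 by decide)
  have a23 : dg3 k ≤ dg2 k := ha (show (2 : Fin 6) ≤ 3 by decide)
  have a34 : dg4 k ≤ dg3 k := ha (show (3 : Fin 6) ≤ 4 by decide)
  have a45 : dg5 k ≤ dg4 k := ha (show (4 : Fin 6) ≤ 5 by decide)
  rw [Fin.prod_univ_six, e0, e1, e2, e3, e4, e5, sftD, vd_six] at hf
  simp only [e0, e1, e2, e3, e4, e5] at hf
  unfold fval
  clear e0 e1 e2 e3 e4 e5 ha
  generalize latCount (shp k) = F at *
  generalize dg0 k = a at *
  generalize dg1 k = b at *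
  generalize dg2 k = c at *
  generalize dg3 k = d at *
  generalize dg4 k = e at *
  generalize dg5 k = f at *
  unfold fv dn
  rw [fct_eq 42 (by norm_num), fct_eq (a + 5) (by omega), fct_eq (b + 4) (by omega),
    fct_eq (c + 3) (by omega), fct_eq (d + 2) (by omega), fct_eq (e + 1) (by omega),
    fct_eq f (by omega)]
  have hnm : ((nm (a + 5) (b + 4) (c + 3) (d + 2) (e + 1) f : ℕ) : ℤ) =
      (((a + 5 : ℕ) : ℤ) - ((b + 4 : ℕ) : ℤ)) * (((a + 5 : ℕ) : ℤ) - ((c + 3 : ℕ) : ℤ)) *
      (((a + 5 : ℕ) : ℤ) - ((d + 2 : ℕ) : ℤ)) * (((a + 5 : ℕ) : ℤ) - ((e + 1 : ℕ) : ℤ)) *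
      (((a + 5 : ℕ) : ℤ) - ((f : ℕ) : ℤ)) *
      (((b + 4 : ℕ) : ℤ) - ((c + 3 : ℕ) : ℤ)) *
      (((b + 4 : ℕ) : ℤ) - ((d + 2 : ℕ) : ℤ)) * (((b + 4 : ℕ) : ℤ) - ((e + 1 : ℕ) : ℤ)) *
      (((b + 4 : ℕ) : ℤ) - ((f : ℕ) : ℤ)) *
      (((c + 3 : ℕ) : ℤ) - ((d + 2 : ℕ) : ℤ)) * (((c + 3 : ℕ) : ℤ) - ((e + 1 : ℕ) : ℤ)) *
      (((c + 3 : ℕ) : ℤ) - ((f : ℕ) : ℤ)) *
      (((d + 2 : ℕ) : ℤ) - ((e + 1 : ℕ) : ℤ)) *
      (((d + 2 : ℕ) : ℤ) - ((f : ℕ) : ℤ)) * (((e + 1 : ℕ) : ℤ) - ((f : ℕ) : ℤ)) := by
    unfold nm
    simp only [Nat.cast_mul]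
    rw [Nat.cast_sub (show b + 4 ≤ a + 5 by omega),
      Nat.cast_sub (show c + 3 ≤ a + 5 by omega), Nat.cast_sub (show d + 2 ≤ a + 5 by omega),
      Nat.cast_sub (show e + 1 ≤ a + 5 by omega), Nat.cast_sub (show f ≤ a + 5 by omega),
      Nat.cast_sub (show c + 3 ≤ b + 4 by omega), Nat.cast_sub (show d + 2 ≤ b + 4 by omega),
      Nat.cast_sub (show e + 1 ≤ b + 4 by omega), Nat.cast_sub (show f ≤ b + 4 by omega),
      Nat.cast_sub (show d + 2 ≤ c + 3 by omega), Nat.cast_sub (show e + 1 ≤ c + 3 by omega),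
      Nat.cast_sub (show f ≤ c + 3 by omega), Nat.cast_sub (show e + 1 ≤ d + 2 by omega),
      Nat.cast_sub (show f ≤ d + 2 by omega), Nat.cast_sub (show f ≤ e + 1 by omega)]
  rw [← hnm] at hf
  have hf2 : F * ((a + 5).factorial * (b + 4).factorial * (c + 3).factorial * (d + 2).factorial *
      (e + 1).factorial * f.factorial) =
      (42 : ℕ).factorial * nm (a + 5) (b + 4) (c + 3) (d + 2) (e + 1) f := by
    exact_mod_cast hf
  apply Nat.div_eq_of_eq_mul_left
  · positivity
  · exact hf2.symm

/-! ### soundness of the table checker -/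

lemma chkFrom_sound (L : List (ℕ × ℕ)) : ∀ p, chkFrom p L = true →
    (∀ e ∈ L, OK e.1 ∧ p < e.1) ∧ L.Pairwise (fun e e' => e.1 < e'.1) := by
  induction L with
  | nil => intro p _; simp
  | cons e L ih =>
    intro p h
    rw [chkFrom_cons] at h
    simp only [Bool.and_eq_true, blt_iff] at h
    obtain ⟨⟨h1, h2⟩, h3⟩ := h
    obtain ⟨h4, h5⟩ := ih _ h3
    refine ⟨?_, ?_⟩
    · intro e' he'
      rcases List.mem_cons.1 he' with h6 | h6
      · subst h6
        exact ⟨okk_sound h2, h1⟩
      · exact ⟨(h4 e' h6).1, lt_trans h1 (h4 e' h6).2⟩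
    · rw [List.pairwise_cons]
      exact ⟨fun e' he' => (h4 e' he').2, h5⟩

/-- the shapes of a table -/
def tLam (L : List (ℕ × ℕ)) : Finset (Fin 6 → ℕ) := (L.map fun e => shp e.1).toFinset

/-- the multiplicity function of a table -/
def tR (L : List (ℕ × ℕ)) (l : Fin 6 → ℕ) : ℕ := (L.map fun e => if shp e.1 = l then e.2 else 0).sum

lemma tR_eq (L : List (ℕ × ℕ)) (hL : ∀ e ∈ L, OK e.1) (hp : L.Pairwise (fun e e' => e.1 < e'.1)) :
    ∀ e ∈ L, tR L (shp e.1) = e.2 := by
  induction L with
  | nil => simp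
  | cons e0 L ih =>
    rw [List.pairwise_cons] at hp
    intro e he
    unfold tR
    rw [List.map_cons, List.sum_cons]
    have ih' := ih (fun e' he' => hL e' (List.mem_cons_of_mem _ he')) hp.2
    rcases List.mem_cons.1 he with h6 | h6
    · subst h6
      rw [if_pos rfl]
      have h7 : (L.map fun e' => if shp e'.1 = shp e.1 then e'.2 else 0).sum = 0 := by
        apply List.sum_eq_zero
        intro x hx
        rw [List.mem_map] at hx
        obtain ⟨e', he', rfl⟩ := hx
        rw [if_neg]
        intro h8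
        have h9 := shp_inj (hL e' (List.mem_cons_of_mem _ he')) (hL e he) h8
        have h10 := hp.1 e' he'
        omega
      rw [h7, add_zero]
    · rw [if_neg]
      · rw [zero_add]
        exact ih' e h6
      · intro h8
        have h9 := shp_inj (hL e0 List.mem_cons_self) (hL e he) h8
        have h10 := hp.1 e h6
        omega

lemma tLam_nodup (L : List (ℕ × ℕ)) (hL : ∀ e ∈ L, OK e.1)
    (hp : L.Pairwise (fun e e' => e.1 < e'.1)) : (L.map fun e => shp e.1).Nodup := by
  induction L with
  | nil => simp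
  | cons e0 L ih =>
    rw [List.pairwise_cons] at hp
    rw [List.map_cons, List.nodup_cons]
    refine ⟨?_, ih (fun e' he' => hL e' (List.mem_cons_of_mem _ he')) hp.2⟩
    intro h
    rw [List.mem_map] at h
    obtain ⟨e, he, h8⟩ := h
    have h9 := shp_inj (hL e (List.mem_cons_of_mem _ he)) (hL e0 List.mem_cons_self) h8
    have h10 := hp.1 e he
    omega

/-- **the sum over the table is the sum over the shapes** -/
theorem sum_table (L : List (ℕ × ℕ)) (hc : chk L = true) :
    ∑ l ∈ tLam L, tR L l * latCount l = tsum L := by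
  obtain ⟨h1, h2⟩ := chkFrom_sound L 0 hc
  have h1' : ∀ e ∈ L, OK e.1 := fun e he => (h1 e he).1
  unfold tLam
  rw [List.sum_toFinset _ (tLam_nodup L h1' h2), List.map_map, tsum_eq]
  congr 1
  apply List.map_congr_left
  intro e he
  simp only [Function.comp_apply]
  rw [tR_eq L h1' h2 e he, fval_eq (h1' e he)]

/-- choice of the vectors, from the entries of the table to all shapes -/
theorem choose_table {V : Type*} [Inhabited V] (L : List (ℕ × ℕ)) (hc : chk L = true)
    (P : (Fin 6 → ℕ) → (n : ℕ) → (Fin n → V) → Prop)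
    (H : ∀ e ∈ L, ∃ z : Fin e.2 → V, P (shp e.1) e.2 z) :
    ∃ z : (l : Fin 6 → ℕ) → Fin (tR L l) → V, ∀ l ∈ tLam L, P l (tR L l) (z l) := by
  obtain ⟨h1, h2⟩ := chkFrom_sound L 0 hc
  have h1' : ∀ e ∈ L, OK e.1 := fun e he => (h1 e he).1
  have h3 : ∀ l : Fin 6 → ℕ, ∃ z : Fin (tR L l) → V, l ∈ tLam L → P l (tR L l) z := by
    intro l
    by_cases hl : l ∈ tLam L
    · unfold tLam at hl
      rw [List.mem_toFinset, List.mem_map] at hl
      obtain ⟨e, he, rfl⟩ := hl
      have h4 := tR_eq L h1' h2 e he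
      obtain ⟨z, hz⟩ := H e he
      rw [h4]
      exact ⟨z, fun _ => hz⟩
    · exact ⟨fun _ => default, fun h => absurd h hl⟩
  choose z hz using h3
  exact ⟨z, fun l hl => hz l hl⟩

end Crest.Agent.R187.SN
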