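import Mathlib
import Crest.Agent.R187.SN.Count2
import Crest.Agent.R187.SN.Dim
import Crest.Agent.R187.SN.Link

/-!
# Row 187, PLAN S, block (F3): from a table of ranks to `T 6 7 ∈ D 6 6 1 ^ 7`
-/

set_option autoImplicit false

namespace Crest.Agent.R187.SN

open Finset

theorem card_LW_eq {r : ℕ} {n : ℕ} {lam : Fin r → ℕ} (h : ∑ i, lam i = n) :
    (LW n lam).card = latCount lam := by
  unfold latCount
  rw [← Fintype.card_coe, ← Nat.card_eq_fintype_card]
  apply Nat.card_congr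
  apply Equiv.subtypeEquivRight
  intro w
  rw [mem_LW]
  constructor
  · exact fun h => h.2
  · rintro ⟨h1, h2⟩
    refine ⟨?_, h1, h2⟩
    have h3 := sum_sh (0 : Fin r → ℕ) w
    rw [h2, h] at h3
    simpa using h3.symm

/-- **the numeric end of PLAN S**: a table of `(shape key, multiplicity)` with the right total, and
for every entry that many linearly independent vectors in the image of `E` on that shape, give
`T 6 7 ∈ D 6 6 1 ^ 7`. -/
theorem P67_of_table (p : ℕ) [Fact p.Prime] {B : ℕ} (hK : HK (ZMod p) B)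
    (hB : Bd B (0 : Fin 6 → ℕ) (41 + 1)) (e : Fin 6 × Fin 7 ≃ Fin 42) (L : List (ℕ × ℕ))
    (hc : chk L = true)
    (hs : tsum L * (Nat.factorial 7 ^ 6 * Nat.factorial 6) = Nat.factorial 42)
    (H : ∀ t ∈ L, ∃ z : Fin t.2 → V (ZMod p) (0 : Fin 6 → ℕ) (41 + 1),
      (∀ j, z j ∈ LinearMap.range (rhoA hK hB (Link.E (ZMod p) e))) ∧
      (∀ j w, sh 0 w ≠ shp t.1 → (z j : List (Fin 6) → ZMod p) w = 0) ∧
      LinearIndependent (ZMod p) z) :
    Crest.Agent.R187.T 6 7 ∈ Crest.Agent.R187.D 6 6 1 ^ 7 := by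
  apply Link.link67 p e
  obtain ⟨z, hz⟩ := choose_table (V := V (ZMod p) (0 : Fin 6 → ℕ) (41 + 1)) L hc
    (fun l n z => (∀ j, z j ∈ LinearMap.range (rhoA hK hB (Link.E (ZMod p) e))) ∧
      (∀ j w, sh 0 w ≠ l → (z j : List (Fin 6) → ZMod p) w = 0) ∧
      LinearIndependent (ZMod p) z) H
  have h1 := dim_ge hK hB (Link.E (ZMod p) e) (tLam L) (tR L) z (fun l hl => (hz l hl).1)
    (fun l hl => (hz l hl).2.1) (fun l hl => (hz l hl).2.2)
  have h3 : ∀ l ∈ tLam L, (LW (41 + 1) l).card = latCount l := by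
    intro l hl
    unfold tLam at hl
    rw [List.mem_toFinset, List.mem_map] at hl
    obtain ⟨t, ht, rfl⟩ := hl
    exact card_LW_eq ((chkFrom_sound L 0 hc).1 t ht).1.sum
  have h2 : ∑ l ∈ tLam L, tR L l * (LW (41 + 1) l).card = tsum L := by
    rw [← sum_table L hc]
    exact Finset.sum_congr rfl fun l hl => by rw [h3 l hl]
  rw [h2] at h1
  rw [← hs]
  exact Nat.mul_le_mul_right _ h1

end Crest.Agent.R187.SN
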