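import Mathlib
import Crest.Agent.R187.SN.Count3
import Crest.Agent.R187.SN.CountData
import Crest.Agent.R187.SN.Assemble

/-!
# Row 187, PLAN S: `TargetF` and the table form of `TargetE`
-/

set_option autoImplicit false

namespace Crest.Agent.R187.SN

open Finset Module

/-- `TargetF` for every table with the right total -/
theorem targetF_of_table (L : List (ℕ × ℕ)) (hc : chk L = true)
    (hs : tsum L * (Nat.factorial 7 ^ 6 * Nat.factorial 6) = Nat.factorial 42) :
    Assemble.TargetF (tLam L) (tR L) := by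
  unfold Assemble.TargetF
  have h3 : ∀ l ∈ tLam L, (LW 42 l).card = latCount l := by
    intro l hl
    unfold tLam at hl
    rw [List.mem_toFinset, List.mem_map] at hl
    obtain ⟨t, ht, rfl⟩ := hl
    exact card_LW_eq ((chkFrom_sound L 0 hc).1 t ht).1.sum
  have h2 : ∑ l ∈ tLam L, tR L l * (LW 42 l).card = tsum L := by
    rw [← sum_table L hc]
    exact Finset.sum_congr rfl fun l hl => by rw [h3 l hl]
  rw [h2, hs]

/-- **TargetF** for the table `tab67` -/
theorem targetF67 : Assemble.TargetF (tLam tab67) (tR tab67) :=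
  targetF_of_table tab67 tab67_chk tab67_sum

/-- `TargetE` from the entries of a table -/
theorem targetE_of_table (K : Type*) [Field K] (L : List (ℕ × ℕ)) (hc : chk L = true)
    (H : ∀ t ∈ L, t.2 ≤ finrank K (Spec.D K 6 7 (shp t.1))) :
    Assemble.TargetE K (tLam L) (tR L) := by
  intro l hl
  unfold tLam at hl
  rw [List.mem_toFinset, List.mem_map] at hl
  obtain ⟨t, ht, rfl⟩ := hl
  obtain ⟨h1, h2⟩ := chkFrom_sound L 0 hc
  refine ⟨(h1 t ht).1.anti, (h1 t ht).1.sum, ?_⟩
  rw [tR_eq L (fun e he => (h1 e he).1) h2 t ht]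
  exact H t ht

/-- the remaining work in one statement -/
theorem P67_of_C_E (p : ℕ) [Fact p.Prime] (hp : 48 < p) (hC : Assemble.TargetC (ZMod p))
    (L : List (ℕ × ℕ)) (hc : chk L = true)
    (hs : tsum L * (Nat.factorial 7 ^ 6 * Nat.factorial 6) = Nat.factorial 42)
    (H : ∀ t ∈ L, t.2 ≤ finrank (ZMod p) (Spec.D (ZMod p) 6 7 (shp t.1))) :
    Crest.Agent.R187.T 6 7 ∈ Crest.Agent.R187.D 6 6 1 ^ 7 :=
  Assemble.assemble p hp (tLam L) (tR L) hC (targetE_of_table (ZMod p) L hc H)
    (targetF_of_table L hc hs)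

end Crest.Agent.R187.SN
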