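import Crest.Agent.R187.SN.Count3
import Crest.Agent.R187.SN.CountData
import Crest.Agent.R187.SN.CountF
import Crest.Agent.R187.SN.Assemble

/-!
# Row 187, PLAN S: the certificate in chunks

`AllH K L` = the rank bounds for the entries of a table `L`, as an iterated conjunction, so that a
chunk of the certificate is `⟨h1, h2, …, trivial⟩`.
-/

set_option autoImplicit false

namespace Crest.Agent.R187.SN

open Module

/-- one rank bound -/
def HH (p : ℕ) [Fact p.Prime] (t : ℕ × ℕ) : Prop :=
  t.2 ≤ finrank (ZMod p) (Spec.D (ZMod p) 6 7 (shp t.1))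

/-- all rank bounds of a table -/
def AllH (p : ℕ) [Fact p.Prime] : List (ℕ × ℕ) → Prop
  | [] => True
  | t :: L => HH p t ∧ AllH p L

theorem allH_mem {p : ℕ} [Fact p.Prime] {L : List (ℕ × ℕ)} (h : AllH p L) : ∀ t ∈ L, HH p t := by
  induction L with
  | nil => intro t ht; simp at ht
  | cons a L ih =>
    intro t ht
    rw [List.mem_cons] at ht
    rcases ht with rfl | ht
    · exact h.1
    · exact ih h.2 t ht

theorem allH_append {p : ℕ} [Fact p.Prime] {L1 L2 : List (ℕ × ℕ)} (h1 : AllH p L1)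
    (h2 : AllH p L2) : AllH p (L1 ++ L2) := by
  induction L1 with
  | nil => exact h2
  | cons a L ih => exact ⟨h1.1, ih h1.2⟩

theorem allH_append_left {p : ℕ} [Fact p.Prime] {L1 L2 : List (ℕ × ℕ)} (h : AllH p (L1 ++ L2)) :
    AllH p L1 := by
  induction L1 with
  | nil => trivial
  | cons a L ih => exact ⟨h.1, ih h.2⟩

/-- **the whole row from (C) and the chunks of (E)** -/
theorem P67_of_chunks (p : ℕ) [Fact p.Prime] (hp : 48 < p) (hC : Assemble.TargetC (ZMod p))
    (h : AllH p tab67) :
    Crest.Agent.R187.T 6 7 ∈ Crest.Agent.R187.D 6 6 1 ^ 7 :=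
  P67_of_C_E p hp hC tab67 tab67_chk tab67_sum (allH_mem h)

end Crest.Agent.R187.SN
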