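import Crest.Agent.R187.SN.Spec

/-!
# Row 187, PLAN S, block E2: the linear check identity replacing the scalars `F`

`eig` : the functions `psi` are joint eigenfunctions of the operators `T_x`, `T_∞`.
`star` : triangular system which determines `Mop` at the top level from the lower levels.
-/

set_option autoImplicit false

namespace Crest.Agent.R187.SN.Gen

open Crest.Agent.R187.SN Crest.Agent.R187.SN.Spec Polynomial

variable {K : Type*} [Field K]

/-! ### Lagrange interpolation at the contents -/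

/-- value of a test polynomial on a `T` -/
noncomputable def gv (g : K[X]) : Option ℤ → K
  | none => - g.coeff 5
  | some x => g.eval (x : K)

lemma ct_lt_of_antitone {ρ : Sh} (h : Antitone ρ) {i j : Fin 6} (hij : i < j) :
    ct ρ j < ct ρ i := by
  have h1 := h hij.le
  unfold ct
  have h2 : (i : ℕ) < (j : ℕ) := hij
  omega

lemma ct_bound {ρ : Sh} {B : ℕ} (h : ∀ i, ρ i + 5 ≤ B) (i j : Fin 6) :
    (ct ρ i - ct ρ j).natAbs ≤ B := by
  have h1 := h i
  have h2 := h j
  have hi := i.2
  have hj := j.2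
  unfold ct
  omega

lemma cast_ne_zero_of {B : ℕ} (hK : ∀ m : ℕ, 0 < m → m ≤ B → (m : K) ≠ 0) {z : ℤ}
    (h0 : z ≠ 0) (hz : z.natAbs ≤ B) : (z : K) ≠ 0 := by
  have h1 : 0 < z.natAbs := Int.natAbs_pos.mpr h0
  have h2 := hK z.natAbs h1 hz
  rcases Int.natAbs_eq z with h3 | h3
  · rw [h3, Int.cast_natCast]; exact h2
  · rw [h3, Int.cast_neg, Int.cast_natCast]
    exact neg_ne_zero.mpr h2

lemma ct_cast_injOn {ρ : Sh} {B : ℕ} (hK : ∀ m : ℕ, 0 < m → m ≤ B → (m : K) ≠ 0)
    (hρ : Antitone ρ) (h : ∀ i, ρ i + 5 ≤ B) :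
    Set.InjOn (fun k : Fin 6 => ((ct ρ k : ℤ) : K)) (Finset.univ : Finset (Fin 6)) := by
  intro i _ j _ hij
  by_contra hne
  have h1 : ct ρ i - ct ρ j ≠ 0 := by
    rcases lt_or_gt_of_ne hne with h2 | h2
    · have := ct_lt_of_antitone hρ h2; omega
    · have := ct_lt_of_antitone hρ h2; omega
  have h2 := cast_ne_zero_of hK h1 (ct_bound h i j)
  apply h2
  push_cast
  simp only at hij
  rw [hij, sub_self]

/-- the Lagrange expansion of a polynomial of degree `≤ 5` at the contents -/
lemma lag {ρ : Sh} {B : ℕ} (hK : ∀ m : ℕ, 0 < m → m ≤ B → (m : K) ≠ 0)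
    (hρ : Antitone ρ) (h : ∀ i, ρ i + 5 ≤ B) (g : K[X]) (hg : g.natDegree ≤ 5) :
    g = ∑ k : Fin 6, C (g.eval ((ct ρ k : ℤ) : K)) *
      Lagrange.basis Finset.univ (fun k : Fin 6 => ((ct ρ k : ℤ) : K)) k := by
  have h1 := Lagrange.eq_interpolate (s := (Finset.univ : Finset (Fin 6)))
    (v := fun k : Fin 6 => ((ct ρ k : ℤ) : K)) (f := g) (ct_cast_injOn hK hρ h)
    (by
      have : (Finset.univ : Finset (Fin 6)).card = 6 := by simp
      rw [this]
      exact lt_of_le_of_lt (degree_le_natDegree) (by exact_mod_cast Nat.lt_succ_of_le hg))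
  rw [Lagrange.interpolate_apply] at h1
  exact h1

lemma basis_eq (v : Fin 6 → K) (k : Fin 6) :
    Lagrange.basis Finset.univ v k =
      C (∏ i ∈ Finset.univ.erase k, (v k - v i)⁻¹) * ∏ i ∈ Finset.univ.erase k, (X - C (v i)) := by
  unfold Lagrange.basis Lagrange.basisDivisor
  rw [Finset.prod_mul_distrib, map_prod]

lemma card_erase (k : Fin 6) : (Finset.univ.erase k : Finset (Fin 6)).card = 5 := by
  rw [Finset.card_erase_of_mem (Finset.mem_univ k)]; simp

lemma step_sum {ρ : Sh} {B : ℕ} (hK : ∀ m : ℕ, 0 < m → m ≤ B → (m : K) ≠ 0)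
    (hρ : Antitone ρ) (h : ∀ i, ρ i + 5 ≤ B) (g : K[X]) (hg : g.natDegree ≤ 5)
    (t : Option ℤ) :
    ∑ k : Fin 6, stepCo K ρ k t * g.eval ((ct ρ k : ℤ) : K) = gv g t := by
  have h1 := lag hK hρ h g hg
  cases t with
  | none =>
    have h2 := congrArg (fun q : K[X] => - q.coeff 5) h1
    simp only [finsetSum_coeff, coeff_C_mul] at h2
    rw [gv, h2, ← Finset.sum_neg_distrib]
    apply Finset.sum_congr rfl
    intro k _
    rw [basis_eq, coeff_C_mul]
    have h3 : (∏ i ∈ Finset.univ.erase k, (X - C ((ct ρ i : ℤ) : K))).coeff 5 = 1 := by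
      have h4 : (∏ i ∈ Finset.univ.erase k, (X - C ((ct ρ i : ℤ) : K))).Monic :=
        monic_prod_of_monic _ _ (fun i _ => monic_X_sub_C _)
      have h5 : (∏ i ∈ Finset.univ.erase k, (X - C ((ct ρ i : ℤ) : K))).natDegree = 5 := by
        rw [natDegree_prod_of_monic _ _ (fun i _ => monic_X_sub_C _)]
        simp only [natDegree_X_sub_C, Finset.sum_const, card_erase, smul_eq_mul, mul_one]
      have h6 := h4.coeff_natDegree
      rwa [h5] at h6
    rw [h3, mul_one]
    have h4 : stepCo K ρ k none = - ∏ i ∈ Finset.univ.erase k,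
        (((ct ρ k : ℤ) : K) - ((ct ρ i : ℤ) : K))⁻¹ := by
      unfold stepCo
      have h5 : ∀ i ∈ Finset.univ.erase k, (((ct ρ i - ct ρ k : ℤ) : K))⁻¹
          = (-1) * (((ct ρ k : ℤ) : K) - ((ct ρ i : ℤ) : K))⁻¹ := by
        intro i _
        push_cast
        rw [← neg_sub, inv_neg]; ring
      rw [Finset.prod_congr rfl h5, Finset.prod_mul_distrib, Finset.prod_const, card_erase]
      norm_num
    rw [h4]; ring
  | some x =>
    have h2 := congrArg (fun q : K[X] => q.eval (x : K)) h1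
    simp only [eval_finsetSum, eval_mul, eval_C] at h2
    rw [gv, h2]
    apply Finset.sum_congr rfl
    intro k _
    rw [basis_eq, eval_mul, eval_C, eval_prod, ← Finset.prod_mul_distrib, mul_comm]
    congr 1
    unfold stepCo
    apply Finset.prod_congr rfl
    intro i _
    rw [eval_sub, eval_X, eval_C]
    push_cast
    rw [← neg_sub ((ct ρ k : ℤ) : K) ((ct ρ i : ℤ) : K), inv_neg]
    ring

/-! ### support of `Fp` -/

lemma le_add (ρ : Sh) (k : Fin 6) : ρ ≤ add ρ k := by
  intro i
  by_cases h : i = k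
  · subst h; rw [add_same]; exact Nat.le_succ _
  · rw [add_ne _ h]

lemma sum_add (ρ : Sh) (k : Fin 6) : ∑ i, add ρ k i = ∑ i, ρ i + 1 := by
  rw [← Finset.add_sum_erase _ _ (Finset.mem_univ k), ← Finset.add_sum_erase _ ρ (Finset.mem_univ k),
    add_same]
  have : ∑ i ∈ Finset.univ.erase k, add ρ k i = ∑ i ∈ Finset.univ.erase k, ρ i := by
    apply Finset.sum_congr rfl
    intro i hi
    rw [add_ne _ (Finset.ne_of_mem_erase hi)]
  rw [this]; ring

lemma Fp_supp : ∀ (ts : List (Option ℤ)) (ρ μ : Sh), Fp K ts ρ μ ≠ 0 →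
    ρ ≤ μ ∧ ∑ i, μ i = ∑ i, ρ i + ts.length := by
  intro ts
  induction ts with
  | nil =>
    intro ρ μ h
    rw [Fp] at h
    by_cases h1 : ρ = μ
    · subst h1; simp
    · simp [h1] at h
  | cons t ts ih =>
    intro ρ μ h
    rw [Fp] at h
    obtain ⟨k, _, hk⟩ := Finset.exists_ne_zero_of_sum_ne_zero h
    split_ifs at hk with h1
    · have h2 := ih _ _ (right_ne_zero_of_mul hk)
      refine ⟨(le_add ρ k).trans h2.1, ?_⟩
      rw [h2.2, sum_add, List.length_cons]; ring
    · exact absurd rfl hk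

/-- box containing all shapes `μ ≥ κ` with `|μ| = |κ| + n` -/
def bx (κ : Sh) (n : ℕ) : Finset Sh := Fintype.piFinset (fun i => Finset.range (κ i + n + 1))

lemma mem_bx {κ μ : Sh} {n : ℕ} (h : κ ≤ μ) (hs : ∑ i, μ i = ∑ i, κ i + n) : μ ∈ bx κ n := by
  rw [bx, Fintype.mem_piFinset]
  intro i
  rw [Finset.mem_range]
  have h1 : ∑ j ∈ Finset.univ.erase i, κ j ≤ ∑ j ∈ Finset.univ.erase i, μ j :=
    Finset.sum_le_sum (fun j _ => h j)
  rw [← Finset.add_sum_erase _ _ (Finset.mem_univ i),
    ← Finset.add_sum_erase _ κ (Finset.mem_univ i)] at hs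
  omega

/-! ### the eigen-identity -/

/-- joint eigenfunctions -/
theorem eig {B : ℕ} (hK : ∀ m : ℕ, 0 < m → m ≤ B → (m : K) ≠ 0) (g : K[X])
    (hg : g.natDegree ≤ 5) (f : Sh → K) (κ : Sh)
    (hf1 : ∀ ρ : Sh, κ ≤ ρ → Antitone ρ → ∀ k, f (add ρ k) = g.eval ((ct ρ k : ℤ) : K) * f ρ)
    (hf2 : ∀ ρ : Sh, κ ≤ ρ → Antitone ρ → f ρ ≠ 0 → ∀ k, ¬ Antitone (add ρ k) →
      g.eval ((ct ρ k : ℤ) : K) = 0) (S : Finset Sh) :
    ∀ (ts : List (Option ℤ)) (ρ : Sh), κ ≤ ρ → Antitone ρ →
      (∀ i, ρ i + ts.length + 5 ≤ B) →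
      (∀ μ, ρ ≤ μ → ∑ i, μ i = ∑ i, ρ i + ts.length → μ ∈ S) →
      ∑ μ ∈ S, Fp K ts ρ μ * f μ = (ts.map (gv g)).prod * f ρ := by
  intro ts
  induction ts with
  | nil =>
    intro ρ h1 h2 h3 h4
    rw [Finset.sum_eq_single ρ]
    · simp [Fp]
    · intro μ _ hμ
      rw [Fp, if_neg (Ne.symm hμ), zero_mul]
    · intro hρ
      exact absurd (h4 ρ le_rfl (by simp)) hρ
  | cons t ts ih =>
    intro ρ h1 h2 h3 h4
    have h5 : ∀ μ ∈ S, Fp K (t :: ts) ρ μ * f μ
        = ∑ k : Fin 6, if Antitone (add ρ k) then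
            stepCo K ρ k t * (Fp K ts (add ρ k) μ * f μ) else 0 := by
      intro μ _
      rw [Fp, Finset.sum_mul]
      apply Finset.sum_congr rfl
      intro k _
      split_ifs with h
      · ring
      · simp
    rw [Finset.sum_congr rfl h5, Finset.sum_comm]
    have h6 : ∀ k : Fin 6, (∑ μ ∈ S, if Antitone (add ρ k) then
            stepCo K ρ k t * (Fp K ts (add ρ k) μ * f μ) else 0)
          = (ts.map (gv g)).prod * f ρ * (stepCo K ρ k t * g.eval ((ct ρ k : ℤ) : K)) := by
      intro k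
      by_cases h : Antitone (add ρ k)
      · simp only [if_pos h]
        rw [← Finset.mul_sum, ih (add ρ k) (h1.trans (le_add ρ k)) h, hf1 ρ h1 h2 k]
        · ring
        · intro i
          have h7 := h3 i
          rw [List.length_cons] at h7
          by_cases hik : i = k
          · subst hik; rw [add_same]; omega
          · rw [add_ne _ hik]; omega
        · intro μ hμ hs
          apply h4 μ ((le_add ρ k).trans hμ)
          rw [hs, sum_add, List.length_cons]; ring
      · simp only [if_neg h, Finset.sum_const_zero]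
        by_cases h0 : f ρ = 0
        · rw [h0]; ring
        · rw [hf2 ρ h1 h2 h0 k h]; ring
    rw [Finset.sum_congr rfl (fun k _ => h6 k), ← Finset.mul_sum,
      step_sum hK h2 (fun i => by have := h3 i; omega) g hg t]
    rw [List.map_cons, List.prod_cons]; ring

/-! ### the test polynomials -/

/-- `∏_{i ≥ 1} (X - (lam_i - i))` -/
noncomputable def gl (K : Type*) [Field K] (lam : Sh) : K[X] :=
  ∏ i ∈ Finset.univ.erase (0 : Fin 6), (X - C ((ct lam i : ℤ) : K))

lemma gl_monic (lam : Sh) : (gl K lam).Monic := monic_prod_of_monic _ _ (fun _ _ => monic_X_sub_C _)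

lemma gl_natDegree (lam : Sh) : (gl K lam).natDegree = 5 := by
  rw [gl, natDegree_prod_of_monic _ _ (fun i _ => monic_X_sub_C _)]
  simp only [natDegree_X_sub_C, Finset.sum_const, card_erase, smul_eq_mul, mul_one]

lemma gl_coeff (lam : Sh) : (gl K lam).coeff 5 = 1 := by
  have h := (gl_monic (K := K) lam).coeff_natDegree
  rwa [gl_natDegree] at h

/-- value of the test polynomial at an integer -/
def ge (K : Type*) [Field K] (lam : Sh) (z : ℤ) : K :=
  ∏ i ∈ Finset.univ.erase (0 : Fin 6), ((z - ct lam i : ℤ) : K)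

lemma gl_eval (lam : Sh) (z : ℤ) : (gl K lam).eval (z : K) = ge K lam z := by
  rw [gl, eval_prod, ge]
  apply Finset.prod_congr rfl
  intro i _
  rw [eval_sub, eval_X, eval_C]; push_cast; rfl

lemma ge_eq_zero {lam : Sh} {i : Fin 6} (hi : i ≠ 0) : ge K lam (ct lam i) = 0 := by
  rw [ge]
  apply Finset.prod_eq_zero (i := i) (by simp [hi])
  simp

/-- the eigenfunction -/
def psi (K : Type*) [Field K] (lam κ μ : Sh) : K :=
  ∏ i, ∏ s ∈ Finset.range (μ i - κ i), ge K lam (ct κ i + s)

lemma psi_self (lam κ : Sh) : psi K lam κ κ = 1 := by simp [psi]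

lemma psi_add {lam κ ρ : Sh} (h : κ ≤ ρ) (k : Fin 6) :
    psi K lam κ (add ρ k) = ge K lam (ct ρ k) * psi K lam κ ρ := by
  unfold psi
  rw [← Finset.mul_prod_erase _ _ (Finset.mem_univ k),
    ← Finset.mul_prod_erase Finset.univ
      (fun i => ∏ s ∈ Finset.range (ρ i - κ i), ge K lam (ct κ i + s)) (Finset.mem_univ k)]
  have h1 : ∏ i ∈ Finset.univ.erase k, ∏ s ∈ Finset.range (add ρ k i - κ i), ge K lam (ct κ i + s)
      = ∏ i ∈ Finset.univ.erase k, ∏ s ∈ Finset.range (ρ i - κ i), ge K lam (ct κ i + s) := by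
    apply Finset.prod_congr rfl
    intro i hi
    rw [add_ne _ (Finset.ne_of_mem_erase hi)]
  rw [h1, add_same]
  have h2 : ρ k + 1 - κ k = (ρ k - κ k) + 1 := by
    have h5 : κ k ≤ ρ k := h k
    omega
  rw [h2, Finset.prod_range_succ]
  have h3 : ct κ k + ((ρ k - κ k : ℕ) : ℤ) = ct ρ k := by
    have h5 : κ k ≤ ρ k := h k
    unfold ct; omega
  rw [h3]; ring

lemma psi_ne_zero_le {lam κ μ : Sh} (hl : κ ≤ lam) (h : psi K lam κ μ ≠ 0) {i : Fin 6}
    (hi : i ≠ 0) : μ i ≤ lam i := by
  by_contra hlt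
  push Not at hlt
  apply h
  unfold psi
  apply Finset.prod_eq_zero (Finset.mem_univ i)
  apply Finset.prod_eq_zero (i := lam i - κ i)
  · rw [Finset.mem_range]; have h5 : κ i ≤ lam i := hl i
    omega
  · have h3 : ct κ i + ((lam i - κ i : ℕ) : ℤ) = ct lam i := by
      have h5 : κ i ≤ lam i := hl i
      unfold ct; omega
    rw [h3]; exact ge_eq_zero hi

lemma not_antitone_add {ρ : Sh} (h : Antitone ρ) {k : Fin 6} (hk : ¬ Antitone (add ρ k)) :
    ∃ i < k, ρ i = ρ k := by
  by_contra hne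
  push Not at hne
  apply hk
  intro i j hij
  by_cases hj : j = k
  · subst hj
    by_cases hi : i = j
    · subst hi; exact le_rfl
    · rw [add_same, add_ne _ hi]
      have h1 : i < j := lt_of_le_of_ne hij hi
      have h2 := h hij
      have h3 := hne i h1
      omega
  · rw [add_ne _ hj]
    exact (h hij).trans (le_add ρ k i)

section star

variable {B : ℕ} (hK : ∀ m : ℕ, 0 < m → m ≤ B → (m : K) ≠ 0)

lemma psi_hf2 {a : ℕ} {lam κ : Sh} (hlam : HS κ lam a) {ρ : Sh} (h1 : κ ≤ ρ)
    (h2 : Antitone ρ) (h0 : psi K lam κ ρ ≠ 0) (k : Fin 6) (hk : ¬ Antitone (add ρ k)) :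
    ge K lam (ct ρ k) = 0 := by
  obtain ⟨i, hik, he⟩ := not_antitone_add h2 hk
  have hk0 : k ≠ 0 := by
    intro h; subst h; exact absurd hik (Fin.not_lt_zero i)
  have h3 := psi_ne_zero_le hlam.1 h0 hk0
  have h4 := hlam.2.1 i k hik
  have h5 : κ i ≤ ρ i := h1 i
  have h6 : ρ k = lam k := by omega
  have h7 : ct ρ k = ct lam k := by unfold ct; rw [h6]
  rw [h7]; exact ge_eq_zero hk0

include hK in
/-- the eigen-identity for the test polynomial of `lam` -/
theorem eig_psi {a : ℕ} {lam κ : Sh} (hκ : Antitone κ) (hlam : HS κ lam a)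
    (ts : List (Option ℤ)) (hB : ∀ i, κ i + ts.length + 5 ≤ B) (S : Finset Sh)
    (hS : ∀ μ, κ ≤ μ → ∑ i, μ i = ∑ i, κ i + ts.length → μ ∈ S) :
    ∑ μ ∈ S, Fp K ts κ μ * psi K lam κ μ = (ts.map (gv (gl K lam))).prod := by
  have h := eig hK (gl K lam) (by rw [gl_natDegree]) (psi K lam κ) κ
    (fun ρ h1 _ k => by rw [psi_add h1, gl_eval])
    (fun ρ h1 h2 h0 k hk => by rw [gl_eval]; exact psi_hf2 hlam h1 h2 h0 k hk)
    S ts κ le_rfl hκ hB hS
  rw [psi_self, mul_one] at h
  exact h

lemma conts_length {κ' lam' : Sh} {m : ℕ} (h : HS κ' lam' m) : (conts κ' lam').length = m := by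
  unfold conts
  rw [List.length_flatMap]
  simp only [List.length_map, List.length_range]
  have h1 : (List.map (fun i => lam' i - κ' i) (List.finRange 6)).sum
      = ∑ i, (lam' i - κ' i) := by
    rw [← List.ofFn_eq_map, List.sum_ofFn]
  rw [h1]
  have h2 : ∑ i, (lam' i - κ' i) + ∑ i, κ' i = ∑ i, lam' i := by
    rw [← Finset.sum_add_distrib]
    apply Finset.sum_congr rfl
    intro i _
    have := h.1 i; omega
  have h3 := h.2.2
  omega

/-- product of the test polynomial over the boxes of `lam' / κ'` -/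
def pc (K : Type*) [Field K] (lam κ' lam' : Sh) : K :=
  ((conts κ' lam').map (ge K lam)).prod

include hK in
theorem star_F {a : ℕ} {lam κ κ' lam' : Sh} (hκ : Antitone κ) (hlam : HS κ lam (a + 1))
    (hB : ∀ i, κ i + a + 6 ≤ B) (h' : HS κ' lam' a) (S : Finset Sh)
    (hS : ∀ μ, κ ≤ μ → ∑ i, μ i = ∑ i, κ i + (a + 1) → μ ∈ S) :
    ∑ μ ∈ S, Fc K κ κ' μ lam' * psi K lam κ μ = - pc K lam κ' lam' := by
  have hl : (none :: (conts κ' lam').map some : List (Option ℤ)).length = a + 1 := by
    simp [conts_length h']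
  have h := eig_psi hK hκ hlam (none :: (conts κ' lam').map some)
    (fun i => by rw [hl]; have := hB i; omega) S (by rw [hl]; exact hS)
  unfold Fc
  rw [h, List.map_cons, List.prod_cons, gv, gl_coeff, List.map_map, pc]
  have : (gv (gl K lam) ∘ some) = ge K lam := by
    funext x; rw [Function.comp_apply, gv, gl_eval]
  rw [this]; ring

lemma Fc_supp {a : ℕ} {κ κ' μ lam' : Sh} (h' : HS κ' lam' a) (h : Fc K κ κ' μ lam' ≠ 0) :
    κ ≤ μ ∧ ∑ i, μ i = ∑ i, κ i + (a + 1) := by
  have h1 := Fp_supp _ _ _ h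
  simpa [conts_length h'] using h1

lemma HS_of {a : ℕ} {lam κ μ : Sh} (hlam : HS κ lam a) (h1 : κ ≤ μ)
    (h2 : ∑ i, μ i = ∑ i, κ i + a) (h3 : ∀ i, i ≠ 0 → μ i ≤ lam i) : HS κ μ a := by
  refine ⟨h1, ?_, h2⟩
  intro i j hij
  have hj : j ≠ 0 := by
    intro h; subst h; exact absurd hij (Fin.not_lt_zero i)
  exact (h3 j hj).trans (hlam.2.1 i j hij)

include hK in
lemma psi_ne_zero {a : ℕ} {κ μ : Sh} (hκ : Antitone κ) (hμ : HS κ μ a)
    (hB : ∀ i, κ i + a + 5 ≤ B) : psi K μ κ μ ≠ 0 := by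
  have hμB : ∀ i, μ i ≤ κ i + a := by
    intro i
    have h1 := mem_bx hμ.1 hμ.2.2
    rw [bx, Fintype.mem_piFinset] at h1
    have := h1 i
    rw [Finset.mem_range] at this
    omega
  have hκ0 : ∀ i, κ i ≤ κ 0 := fun i => hκ (Fin.zero_le i)
  unfold psi ge
  rw [Finset.prod_ne_zero_iff]
  intro i _
  rw [Finset.prod_ne_zero_iff]
  intro s hs
  rw [Finset.mem_range] at hs
  rw [Finset.prod_ne_zero_iff]
  intro j _
  have hi6 := i.2
  have hj6 := j.2
  have h1 := hμ.1 i
  apply cast_ne_zero_of hK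
  · unfold ct
    rcases lt_trichotomy i j with h | h | h
    · have h2 := hμ.2.1 i j h
      have h3 : (i : ℕ) < (j : ℕ) := h
      omega
    · subst h; omega
    · have h2 := hμ.2.1 j i h
      have h3 : (j : ℕ) < (i : ℕ) := h
      have h4 := hμ.1 j
      omega
  · unfold ct
    have h2 := hμB i
    have h3 := hμB j
    have h4 := hB 0
    have h5 := hκ0 i
    have h6 := hκ0 j
    omega

include hK in
/-- vanishing of `F` outside the interlacing region -/
theorem Fc_vanish {a : ℕ} {κ κ' lam' : Sh} (hκ : Antitone κ) (hB : ∀ i, κ i + a + 6 ≤ B)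
    (h' : HS κ' lam' a) (hle : κ' ≤ κ) (i : Fin 6) (hi : i ≠ 0) :
    ∀ (n : ℕ) (μ : Sh), ∑ j ∈ Finset.univ.erase (0 : Fin 6), μ j = n → HS κ μ (a + 1) →
      μ i < lam' i → Fc K κ κ' μ lam' = 0 := by
  intro n
  induction n using Nat.strong_induction_on with
  | _ n ih =>
    intro μ hn hμ hlt
    have h1 := star_F hK hκ hμ hB h' (bx κ (a + 1)) (fun ν h2 h3 => mem_bx h2 h3)
    have h2 : pc K μ κ' lam' = 0 := by
      unfold pc
      apply List.prod_eq_zero
      rw [List.mem_map]
      refine ⟨ct μ i, ?_, ge_eq_zero hi⟩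
      unfold conts
      rw [List.mem_flatMap]
      refine ⟨i, List.mem_finRange i, ?_⟩
      rw [List.mem_map]
      have h3 : κ' i ≤ κ i := hle i
      have h4 := hμ.1 i
      refine ⟨μ i - κ' i, ?_, ?_⟩
      · rw [List.mem_range]; omega
      · unfold ct; omega
    rw [h2, neg_zero, Finset.sum_eq_single μ] at h1
    · exact (mul_eq_zero.mp h1).resolve_right (psi_ne_zero hK hκ hμ (fun i => by
        have := hB i; omega))
    · intro ν _ hne
      by_contra hnz
      have hF := left_ne_zero_of_mul hnz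
      have hp := right_ne_zero_of_mul hnz
      have h3 := Fc_supp h' hF
      have h4 : ∀ j, j ≠ 0 → ν j ≤ μ j := fun j hj => psi_ne_zero_le hμ.1 hp hj
      have h5 : ∑ j ∈ Finset.univ.erase (0 : Fin 6), ν j < ∑ j ∈ Finset.univ.erase (0 : Fin 6), μ j := by
        apply Finset.sum_lt_sum (fun j hj => h4 j (Finset.ne_of_mem_erase hj))
        by_contra hcon
        push Not at hcon
        have h6 : ∀ j ∈ Finset.univ.erase (0 : Fin 6), ν j = μ j := fun j hj =>
          le_antisymm (h4 j (Finset.ne_of_mem_erase hj)) (hcon j hj)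
        have h7 : ∑ j, ν j = ∑ j, μ j := by rw [h3.2, hμ.2.2]
        have h8 : ν 0 + ∑ j ∈ Finset.univ.erase (0 : Fin 6), ν j = ∑ j, ν j :=
          Finset.add_sum_erase Finset.univ ν (Finset.mem_univ (0 : Fin 6))
        have h9 : μ 0 + ∑ j ∈ Finset.univ.erase (0 : Fin 6), μ j = ∑ j, μ j :=
          Finset.add_sum_erase Finset.univ μ (Finset.mem_univ (0 : Fin 6))
        have h10 : ∑ j ∈ Finset.univ.erase (0 : Fin 6), ν j
            = ∑ j ∈ Finset.univ.erase (0 : Fin 6), μ j := Finset.sum_congr rfl h6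
        apply hne
        funext j
        by_cases hj : j = 0
        · subst hj; omega
        · exact h6 j (by simp [hj])
      rw [hn] at h5
      exact hF (ih _ h5 ν rfl (HS_of hμ h3.1 h3.2 h4) (lt_of_le_of_lt (h4 i hi) hlt))
    · intro hμS
      exact absurd (mem_bx hμ.1 hμ.2.2) hμS

lemma Mop_nil (b a : ℕ) (κ lam : Sh) (x : List Sh → K) : Mop K b (a + 1) κ lam x [] = 0 := rfl

lemma Mop_cons (b a : ℕ) (κ lam : Sh) (x : List Sh → K) (lam' : Sh) (l' : List Sh) :
    Mop K b (a + 1) κ lam x (lam' :: l') = if HS lam' lam b then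
      ∑ κ' ∈ below lam', if HS κ' lam' a then
        Fc K κ κ' lam lam' * Mop K b a κ' lam' (fun m => x (κ' :: m)) l' else 0 else 0 := rfl

lemma Mop_zero (b : ℕ) : ∀ (a : ℕ) (κ lam : Sh), Mop K b a κ lam (fun _ => 0) = fun _ => 0 := by
  intro a
  induction a with
  | zero => intro κ lam; rfl
  | succ a ih =>
    intro κ lam
    funext l
    cases l with
    | nil => rfl
    | cons lam' l' =>
      rw [Mop_cons]
      split_ifs
      · apply Finset.sum_eq_zero
        intro κ' _
        split_ifs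
        · rw [ih]; simp
        · rfl
      · rfl

include hK in
/-- THE LINEAR CHECK IDENTITY -/
theorem star {a b : ℕ} {lam κ lam' : Sh} (hκ : Antitone κ) (hlam : HS κ lam (a + 1))
    (hlam' : HS lam' lam b) (hB : ∀ i, κ i + a + 6 ≤ B) (x : List Sh → K)
    (hx : ∀ κ' l', x (κ' :: l') ≠ 0 → κ' ≤ κ) (l' : List Sh) (S : Finset Sh)
    (hS : ∀ μ, κ ≤ μ → ∑ i, μ i = ∑ i, κ i + (a + 1) → μ ∈ S) :
    ∑ μ ∈ S, (if (∀ i, κ i ≤ μ i) ∧ ∑ i, μ i = ∑ i, κ i + (a + 1) then
        psi K lam κ μ * Mop K b (a + 1) κ μ x (lam' :: l') else 0)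
      = - ∑ κ' ∈ below lam', if HS κ' lam' a then
          pc K lam κ' lam' * Mop K b a κ' lam' (fun m => x (κ' :: m)) l' else 0 := by
  have h1 : ∀ μ ∈ S, (if (∀ i, κ i ≤ μ i) ∧ ∑ i, μ i = ∑ i, κ i + (a + 1) then
        psi K lam κ μ * Mop K b (a + 1) κ μ x (lam' :: l') else 0)
      = ∑ κ' ∈ below lam', if HS κ' lam' a then
          (Fc K κ κ' μ lam' * psi K lam κ μ) *
            Mop K b a κ' lam' (fun m => x (κ' :: m)) l' else 0 := by
    intro μ _
    split_ifs with hc
    · rw [Mop_cons]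
      split_ifs with h2
      · rw [Finset.mul_sum]
        apply Finset.sum_congr rfl
        intro κ' _
        split_ifs
        · ring
        · simp
      · rw [mul_zero]
        symm
        apply Finset.sum_eq_zero
        intro κ' _
        split_ifs with h3
        · by_cases hy : κ' ≤ κ
          · by_cases hp : psi K lam κ μ = 0
            · rw [hp]; ring
            · have h4 : ∀ j, j ≠ 0 → μ j ≤ lam j := fun j hj => psi_ne_zero_le hlam.1 hp hj
              have h5 : HS κ μ (a + 1) := HS_of hlam hc.1 hc.2 h4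
              have h6 : ∃ i, i ≠ 0 ∧ μ i < lam' i := by
                by_contra hcon
                push Not at hcon
                apply h2
                refine ⟨?_, ?_, ?_⟩
                · intro i
                  by_cases hi : i = 0
                  · subst hi
                    have h7 : ∑ j ∈ Finset.univ.erase (0 : Fin 6), μ j
                        ≤ ∑ j ∈ Finset.univ.erase (0 : Fin 6), lam j :=
                      Finset.sum_le_sum (fun j hj => h4 j (Finset.ne_of_mem_erase hj))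
                    have h8 := hc.2
                    have h9 := hlam.2.2
                    rw [← Finset.add_sum_erase _ _ (Finset.mem_univ (0 : Fin 6))] at h8 h9
                    have h10 := hlam'.1 0
                    omega
                  · exact hcon i hi
                · intro i j hij
                  have hj : j ≠ 0 := by
                    intro h; subst h; exact absurd hij (Fin.not_lt_zero i)
                  exact (h4 j hj).trans (hlam'.2.1 i j hij)
                · rw [hc.2, ← hlam.2.2, hlam'.2.2]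
              obtain ⟨i, hi0, hi⟩ := h6
              rw [Fc_vanish hK hκ hB h3 hy i hi0 _ μ rfl h5 hi]; ring
          · have h4 : (fun m => x (κ' :: m)) = fun _ => (0 : K) := by
              funext m
              by_contra h5
              exact hy (hx κ' m h5)
            rw [h4, Mop_zero]; ring
        · rfl
    · symm
      apply Finset.sum_eq_zero
      intro κ' _
      split_ifs with h3
      · by_cases hF : Fc K κ κ' μ lam' = 0
        · rw [hF]; ring
        · exact absurd (Fc_supp h3 hF) hc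
      · rfl
  rw [Finset.sum_congr rfl h1, Finset.sum_comm, ← Finset.sum_neg_distrib]
  apply Finset.sum_congr rfl
  intro κ' _
  split_ifs with h3
  · rw [← Finset.sum_mul, star_F hK hκ hlam hB h3 S hS]; ring
  · simp

end star

end Crest.Agent.R187.SN.Gen
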