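import Mathlib
import Crest.Agent.R187.SN.Gen

/-!
# Row 187, PLAN S, block E5 (top level): abstract part

* `Fc_quad`: quadrature form of the scalars `Fc`.
* `Mop_sum`: linearity of `Mop`.
* `rank_le`: independent functionals on a family of vectors bound the dimension of the span.
-/

set_option autoImplicit false

namespace Crest.Agent.R187.SN.Top

open Crest.Agent.R187.SN Crest.Agent.R187.SN.Spec Crest.Agent.R187.SN.Gen

variable {K : Type*} [Field K]

/-! ### quadrature -/

theorem Fc_quad {B : ℕ} (hK : ∀ m : ℕ, 0 < m → m ≤ B → (m : K) ≠ 0) {a : ℕ}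
    {κ lam κ' lam' : Sh} (hκ : Antitone κ) (hlam : HS κ lam (a + 1))
    (hB : ∀ i, κ i + a + 6 ≤ B) (h' : HS κ' lam' a) (Q : List (K × Sh))
    (hQ : ∀ q ∈ Q, HS κ q.2 (a + 1))
    (hcond : ∀ μ : Sh, κ ≤ μ → ∑ i, μ i = ∑ i, κ i + (a + 1) →
      (Q.map (fun q => q.1 * psi K q.2 κ μ)).sum = if μ = lam then -1 else 0) :
    Fc K κ κ' lam lam' = (Q.map (fun q => q.1 * pc K q.2 κ' lam')).sum := by
  have hS : ∀ μ : Sh, κ ≤ μ → ∑ i, μ i = ∑ i, κ i + (a + 1) → μ ∈ bx κ (a + 1) :=
    fun μ h1 h2 => mem_bx h1 h2
  have h1 : ∀ q ∈ Q, q.1 * (∑ μ ∈ bx κ (a + 1), Fc K κ κ' μ lam' * psi K q.2 κ μ)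
      = - (q.1 * pc K q.2 κ' lam') := by
    intro q hq
    rw [star_F hK hκ (hQ q hq) hB h' _ hS]
    ring
  have h2 : (Q.map (fun q => q.1 * (∑ μ ∈ bx κ (a + 1), Fc K κ κ' μ lam' * psi K q.2 κ μ))).sum
      = ∑ μ ∈ bx κ (a + 1), Fc K κ κ' μ lam' * (Q.map (fun q => q.1 * psi K q.2 κ μ)).sum := by
    clear hQ hcond h1
    induction Q with
    | nil => simp
    | cons q Q ih =>
      rw [List.map_cons, List.sum_cons, ih, Finset.mul_sum, ← Finset.sum_add_distrib]
      refine Finset.sum_congr rfl fun μ _ => ?_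
      rw [List.map_cons, List.sum_cons]
      ring
  have h3 : ∑ μ ∈ bx κ (a + 1), Fc K κ κ' μ lam' * (Q.map (fun q => q.1 * psi K q.2 κ μ)).sum
      = - Fc K κ κ' lam lam' := by
    rw [Finset.sum_eq_single lam]
    · rw [hcond lam hlam.1 hlam.2.2, if_pos rfl]
      ring
    · intro μ _ hne
      by_cases hF : Fc K κ κ' μ lam' = 0
      · rw [hF, zero_mul]
      · obtain ⟨h4, h5⟩ := Fc_supp h' hF
        rw [hcond μ h4 h5, if_neg hne, mul_zero]
    · intro h
      exact absurd (hS lam hlam.1 hlam.2.2) h
  have h4 : (Q.map (fun q => q.1 * (∑ μ ∈ bx κ (a + 1), Fc K κ κ' μ lam' * psi K q.2 κ μ))).sum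
      = - (Q.map (fun q => q.1 * pc K q.2 κ' lam')).sum := by
    clear h2 h3 hcond
    induction Q with
    | nil => simp
    | cons q Q ih =>
      rw [List.map_cons, List.sum_cons, List.map_cons, List.sum_cons,
        h1 q List.mem_cons_self, ih (fun q' hq' => hQ q' (List.mem_cons_of_mem _ hq'))
          (fun q' hq' => h1 q' (List.mem_cons_of_mem _ hq'))]
      ring
  rw [h3] at h2
  rw [h2] at h4
  have := congrArg Neg.neg h4
  simpa using this

/-! ### linearity of `Mop` -/

lemma Mop_add (b : ℕ) : ∀ (a : ℕ) (κ lam : Sh) (x y : List Sh → K),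
    Mop K b a κ lam (fun l => x l + y l) = fun l => Mop K b a κ lam x l + Mop K b a κ lam y l := by
  intro a
  induction a with
  | zero => intro κ lam x y; rfl
  | succ a ih =>
    intro κ lam x y
    funext l
    cases l with
    | nil => simp [Mop_nil]
    | cons lam' l' =>
      rw [Mop_cons, Mop_cons, Mop_cons]
      split_ifs
      · rw [← Finset.sum_add_distrib]
        refine Finset.sum_congr rfl fun κ' _ => ?_
        split_ifs
        · rw [ih]
          ring
        · simp
      · simp

lemma Mop_smul (b : ℕ) : ∀ (a : ℕ) (κ lam : Sh) (c : K) (x : List Sh → K),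
    Mop K b a κ lam (fun l => c * x l) = fun l => c * Mop K b a κ lam x l := by
  intro a
  induction a with
  | zero => intro κ lam c x; rfl
  | succ a ih =>
    intro κ lam c x
    funext l
    cases l with
    | nil => simp [Mop_nil]
    | cons lam' l' =>
      rw [Mop_cons, Mop_cons]
      split_ifs
      · rw [Finset.mul_sum]
        refine Finset.sum_congr rfl fun κ' _ => ?_
        split_ifs
        · rw [ih]
          ring
        · simp
      · simp

lemma Mop_sum {ι : Type*} (s : Finset ι) (b a : ℕ) (κ lam : Sh) (c : ι → K)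
    (x : ι → List Sh → K) :
    Mop K b a κ lam (fun l => ∑ i ∈ s, c i * x i l)
      = fun l => ∑ i ∈ s, c i * Mop K b a κ lam (x i) l := by
  classical
  induction s using Finset.induction_on with
  | empty => simpa using Mop_zero (K := K) b a κ lam
  | insert i s hi ih =>
    have h1 : (fun l => ∑ j ∈ insert i s, c j * x j l)
        = fun l => (fun l => c i * x i l) l + (fun l => ∑ j ∈ s, c j * x j l) l := by
      funext l
      rw [Finset.sum_insert hi]
    rw [h1, Mop_add, ih, Mop_smul]
    funext l
    rw [Finset.sum_insert hi]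

/-! ### rank -/

/-- if the rows `i ↦ (φ i (y j))_j` are linearly independent, the span of the `y j` has dimension
at least the number of functionals -/
theorem rank_le {V : Type*} [AddCommGroup V] [Module K V] [Module.Finite K V] {m : ℕ}
    {ι : Type*} (y : ι → V) (φ : Fin m → (V →ₗ[K] K))
    (h : LinearIndependent K (fun i : Fin m => fun j : ι => φ i (y j))) :
    m ≤ Module.finrank K V := by
  let Φ : V →ₗ[K] (Fin m → K) := LinearMap.pi φ
  have hsurj : LinearMap.range Φ = ⊤ := by
    by_contra hne
    obtain ⟨f, hf0, hf⟩ := Submodule.exists_le_ker_of_lt_top _ (lt_top_iff_ne_top.2 hne)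
    apply hf0
    have h1 : ∀ x : Fin m → K, f x = ∑ i, x i * f (Pi.single i 1) := by
      intro x
      conv_lhs => rw [← Finset.univ_sum_single x]
      rw [map_sum]
      refine Finset.sum_congr rfl fun i _ => ?_
      have : (Pi.single i (x i) : Fin m → K) = x i • Pi.single i 1 := by
        rw [← Pi.single_smul]
        simp
      rw [this, map_smul, smul_eq_mul]
    have h2 : ∑ i, (f (Pi.single i 1)) • (fun j : ι => φ i (y j)) = 0 := by
      funext j
      rw [Finset.sum_apply]
      have h3 : f (Φ (y j)) = 0 := hf ⟨y j, rfl⟩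
      rw [h1] at h3
      simp only [Pi.smul_apply, smul_eq_mul, Pi.zero_apply]
      rw [← h3]
      refine Finset.sum_congr rfl fun i _ => ?_
      rw [mul_comm]
      rfl
    have h3 := Fintype.linearIndependent_iff.1 h _ h2
    apply LinearMap.ext
    intro x
    rw [h1]
    simp [h3]
  have h4 : Module.finrank K (LinearMap.range Φ) = m := by
    rw [hsurj, finrank_top, Module.finrank_fin_fun]
  have h5 := LinearMap.finrank_range_le Φ
  omega

end Crest.Agent.R187.SN.Top
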