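import Mathlib
import Crest.Agent.R187.SN.Count2
import Crest.Agent.R187.SN.Kern
import Crest.Agent.R187.SN.TopSem

/-!
# Row 187, PLAN S, block E5 (top level): quadrature data, kernel functions and their soundness
-/

set_option autoImplicit false

namespace Crest.Agent.R187.SN.Top

open Crest.Agent.R187.SN Crest.Agent.R187.SN.Spec Crest.Agent.R187.SN.Gen
open Crest.Agent.R187.SN.Kern

instance fact127 : Fact (Nat.Prime 127) := ⟨by norm_num⟩

/-! ### horizontal strips -/

/-- kernel check of `HS (shp k) (shp k') m` -/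
def hsChk (k k' m : ℕ) : Bool :=
  Nat.ble (dg0 k) (dg0 k') && Nat.ble (dg1 k) (dg1 k') && Nat.ble (dg2 k) (dg2 k') &&
  Nat.ble (dg3 k) (dg3 k') && Nat.ble (dg4 k) (dg4 k') && Nat.ble (dg5 k) (dg5 k') &&
  Nat.ble (dg1 k') (dg0 k) && Nat.ble (dg2 k') (dg1 k) && Nat.ble (dg3 k') (dg2 k) &&
  Nat.ble (dg4 k') (dg3 k) && Nat.ble (dg5 k') (dg4 k) &&
  Nat.beq (dg0 k' + dg1 k' + dg2 k' + dg3 k' + dg4 k' + dg5 k')
    (dg0 k + dg1 k + dg2 k + dg3 k + dg4 k + dg5 k + m)

lemma sum_shp (k : ℕ) : ∑ i, shp k i = dg0 k + dg1 k + dg2 k + dg3 k + dg4 k + dg5 k := by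
  rw [shp_vals]
  simp only [Fin.sum_univ_succ, Fin.sum_univ_zero]
  simp
  omega

lemma hsChk_sound {k k' m : ℕ} (h : hsChk k k' m = true) : HS (shp k) (shp k') m := by
  unfold hsChk at h
  simp only [Bool.and_eq_true, Nat.ble_eq, Nat.beq_eq] at h
  obtain ⟨⟨⟨⟨⟨⟨⟨⟨⟨⟨⟨h0, h1⟩, h2⟩, h3⟩, h4⟩, h5⟩, h6⟩, h7⟩, h8⟩, h9⟩, h10⟩, h11⟩ := h
  refine ⟨?_, ?_, ?_⟩
  · rw [shp_vals, shp_vals]
    intro i
    fin_cases i <;> simp <;> assumption
  · rw [shp_vals, shp_vals]
    intro i j hij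
    fin_cases i <;> fin_cases j <;> simp at hij ⊢ <;> omega
  · rw [sum_shp, sum_shp]
    exact h11

/-- kernel check of antitonicity -/
def antiChk (k : ℕ) : Bool :=
  Nat.ble (dg1 k) (dg0 k) && Nat.ble (dg2 k) (dg1 k) && Nat.ble (dg3 k) (dg2 k) &&
  Nat.ble (dg4 k) (dg3 k) && Nat.ble (dg5 k) (dg4 k)

lemma antiChk_sound {k : ℕ} (h : antiChk k = true) : Antitone (shp k) := by
  unfold antiChk at h
  simp only [Bool.and_eq_true, Nat.ble_eq] at h
  obtain ⟨⟨⟨⟨h1, h2⟩, h3⟩, h4⟩, h5⟩ := h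
  rw [shp_vals]
  intro i j hij
  fin_cases i <;> fin_cases j <;> simp at hij ⊢ <;> omega

/-- injectivity of the coding -/
lemma shp_inj' {k k' : ℕ} (h : k < 68719476736) (h' : k' < 68719476736)
    (he : shp k = shp k') : k = k' := by
  have h0 := congrFun he 0
  have h1 := congrFun he 1
  have h2 := congrFun he 2
  have h3 := congrFun he 3
  have h4 := congrFun he 4
  have h5 := congrFun he 5
  rw [shp_vals, shp_vals] at h0 h1 h2 h3 h4 h5
  simp at h0 h1 h2 h3 h4 h5
  unfold dg0 at h0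
  unfold dg1 at h1
  unfold dg2 at h2
  unfold dg3 at h3
  unfold dg4 at h4
  unfold dg5 at h5
  omega

/-! ### tables of the test polynomials -/

/-- value of the test polynomial at content `z - 5`; `rⱼ = lamⱼ - j + 5` -/
def gval (r1 r2 r3 r4 r5 z : ℕ) : ℕ :=
  Nat.mod (Nat.mul (Nat.mul (Nat.mul (Nat.mul (Nat.sub (Nat.add z 127) r1)
    (Nat.sub (Nat.add z 127) r2)) (Nat.sub (Nat.add z 127) r3)) (Nat.sub (Nat.add z 127) r4))
    (Nat.sub (Nat.add z 127) r5)) 127

/-- table of the 47 values, 8-bit slots -/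
def mkT (k : ℕ) : ℕ :=
  Nat.rec (motive := fun _ => ℕ) 0 (fun z ih => Nat.add ih (Nat.shiftLeft
    (gval (dg1 k + 4) (dg2 k + 3) (dg3 k + 2) (dg4 k + 1) (dg5 k) z) (Nat.mul 8 z))) 47

/-- table lookup, `d = 8 * z` -/
def tl (T d : ℕ) : ℕ := Nat.land (Nat.shiftRight T d) 255

lemma tl_eq (T z : ℕ) : tl T (8 * z) = slot 8 T z := by
  unfold tl slot
  show T >>> (8 * z) &&& 255 = (T >>> (8 * z)) % 2 ^ 8
  exact Nat.and_two_pow_sub_one_eq_mod _ 8

lemma gval_lt (r1 r2 r3 r4 r5 z : ℕ) : gval r1 r2 r3 r4 r5 z < 127 :=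
  Nat.mod_lt _ (by norm_num)

lemma mkT_eq (k : ℕ) : mkT k = ∑ z ∈ Finset.range 47, Nat.shiftLeft
    (gval (dg1 k + 4) (dg2 k + 3) (dg3 k + 2) (dg4 k + 1) (dg5 k) z) (Nat.mul 8 z) := by
  have : ∀ n, (Nat.rec (motive := fun _ => ℕ) 0 (fun z ih => Nat.add ih (Nat.shiftLeft
    (gval (dg1 k + 4) (dg2 k + 3) (dg3 k + 2) (dg4 k + 1) (dg5 k) z) (Nat.mul 8 z))) n : ℕ)
    = ∑ z ∈ Finset.range n, Nat.shiftLeft
    (gval (dg1 k + 4) (dg2 k + 3) (dg3 k + 2) (dg4 k + 1) (dg5 k) z) (Nat.mul 8 z) := by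
    intro n
    induction n with
    | zero => rfl
    | succ n ih =>
      rw [Finset.sum_range_succ, ← ih]
      rfl
  exact this 47

lemma slot_small {x n : ℕ} (hx : x < 256) : slot 8 x n = if n = 0 then x else 0 := by
  split_ifs with h
  · subst h
    rw [slot_def, pow_zero, Nat.div_one]
    exact Nat.mod_eq_of_lt hx
  · apply slot_zero_of_lt
    calc x < 2 ^ (8 * 1) := by simpa using hx
      _ ≤ 2 ^ (8 * n) := Nat.pow_le_pow_right (by norm_num) (by omega)

lemma slot_mkT (k z : ℕ) (hz : z < 47) :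
    slot 8 (mkT k) z = gval (dg1 k + 4) (dg2 k + 3) (dg3 k + 2) (dg4 k + 1) (dg5 k) z := by
  rw [mkT_eq]
  have h1 : ∀ j n, slot 8 (Nat.shiftLeft
      (gval (dg1 k + 4) (dg2 k + 3) (dg3 k + 2) (dg4 k + 1) (dg5 k) j) (Nat.mul 8 j)) n
      = if n = j then gval (dg1 k + 4) (dg2 k + 3) (dg3 k + 2) (dg4 k + 1) (dg5 k) j else 0 := by
    intro j n
    rw [slot_shl (by norm_num)]
    have := gval_lt (dg1 k + 4) (dg2 k + 3) (dg3 k + 2) (dg4 k + 1) (dg5 k) j
    by_cases h : j ≤ n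
    · rw [if_pos h, slot_small (by omega)]
      by_cases h2 : n = j
      · subst h2; simp
      · rw [if_neg h2, if_neg (by omega)]
    · rw [if_neg h, if_neg (by omega)]
  rw [slot_sum (by norm_num)]
  · rw [Finset.sum_congr rfl (fun j _ => h1 j z)]
    rw [Finset.sum_ite_eq, if_pos (Finset.mem_range.2 hz)]
  · intro n
    rw [Finset.sum_congr rfl (fun j _ => h1 j n), Finset.sum_ite_eq]
    split_ifs
    · exact lt_of_lt_of_le (gval_lt _ _ _ _ _ _) (by norm_num)
    · norm_num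

lemma dg_lt (k : ℕ) : dg0 k < 64 ∧ dg1 k < 64 ∧ dg2 k < 64 ∧ dg3 k < 64 ∧ dg4 k < 64 ∧ dg5 k < 64 := by
  unfold dg0 dg1 dg2 dg3 dg4 dg5
  refine ⟨?_, ?_, ?_, ?_, ?_, ?_⟩ <;> exact Nat.mod_lt _ (by norm_num)

lemma gval_cast (k z : ℕ) :
    ((gval (dg1 k + 4) (dg2 k + 3) (dg3 k + 2) (dg4 k + 1) (dg5 k) z : ℕ) : ZMod 127)
      = ge (ZMod 127) (shp k) ((z : ℤ) - 5) := by
  obtain ⟨_, h1, h2, h3, h4, h5⟩ := dg_lt k
  have hsub : ∀ r : ℕ, r ≤ 127 → ((Nat.sub (Nat.add z 127) r : ℕ) : ZMod 127)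
      = (z : ZMod 127) - (r : ZMod 127) := by
    intro r hr
    have h : (Nat.sub (Nat.add z 127) r : ℕ) = z + 127 - r := rfl
    rw [h, Nat.cast_sub (by omega), Nat.cast_add]
    have h127 : ((127 : ℕ) : ZMod 127) = 0 := ZMod.natCast_self 127
    rw [h127, add_zero]
  unfold gval
  have hmod : ∀ x : ℕ, ((Nat.mod x 127 : ℕ) : ZMod 127) = (x : ZMod 127) := by
    intro x
    exact ZMod.natCast_mod x 127
  rw [hmod]
  have hmul : ∀ x y : ℕ, ((Nat.mul x y : ℕ) : ZMod 127) = (x : ZMod 127) * (y : ZMod 127) :=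
    fun x y => Nat.cast_mul x y
  rw [hmul, hmul, hmul, hmul, hsub _ (by omega), hsub _ (by omega), hsub _ (by omega),
    hsub _ (by omega), hsub _ (by omega)]
  unfold ge
  have he : (Finset.univ.erase (0 : Fin 6)) = {1, 2, 3, 4, 5} := by decide
  rw [he]
  rw [Finset.prod_insert (by decide), Finset.prod_insert (by decide),
    Finset.prod_insert (by decide), Finset.prod_insert (by decide), Finset.prod_singleton]
  have e1 : ct (shp k) 1 = (dg1 k : ℤ) - 1 := by unfold ct; rw [shp_vals]; simp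
  have e2 : ct (shp k) 2 = (dg2 k : ℤ) - 2 := by unfold ct; rw [shp_vals]; simp
  have e3 : ct (shp k) 3 = (dg3 k : ℤ) - 3 := by unfold ct; rw [shp_vals]; simp
  have e4 : ct (shp k) 4 = (dg4 k : ℤ) - 4 := by unfold ct; rw [shp_vals]; simp
  have e5 : ct (shp k) 5 = (dg5 k : ℤ) - 5 := by unfold ct; rw [shp_vals]; simp
  rw [e1, e2, e3, e4, e5]
  push_cast
  ring

/-! ### the pruned search over all `μ` -/

def andB (a b : Bool) : Bool := Bool.rec (motive := fun _ => Bool) false b a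

lemma andB_eq {a b : Bool} : andB a b = true ↔ a = true ∧ b = true := by
  cases a <;> cases b <;> simp [andB]

def stepQ (d : ℕ) (q : List (ℕ × ℕ)) : List (ℕ × ℕ) :=
  List.rec (motive := fun _ => List (ℕ × ℕ)) []
    (fun e _ ih => (Nat.mod (Nat.mul e.1 (tl e.2 d)) 127, e.2) :: ih) q

def zeroQ (q : List (ℕ × ℕ)) : Bool :=
  List.rec (motive := fun _ => Bool) true (fun e _ ih => andB (Nat.beq e.1 0) ih) q

def sumQ (q : List (ℕ × ℕ)) : ℕ :=
  List.rec (motive := fun _ => ℕ) 0 (fun e _ ih => Nat.add e.1 ih) q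

def stepsQ (m : ℕ) : ℕ → List (ℕ × ℕ) → List (ℕ × ℕ) :=
  Nat.rec (motive := fun _ => ℕ → List (ℕ × ℕ) → List (ℕ × ℕ)) (fun _ q => q)
    (fun _ ih d q => ih (Nat.add d 8) (stepQ d q)) m

def baseD (d0 m : ℕ) (q : List (ℕ × ℕ)) (eq : Bool) : Bool :=
  Nat.beq (Nat.mod (sumQ (stepsQ m d0 q)) 127) (Bool.rec (motive := fun _ => ℕ) 0 126 eq)

def loopD (next : ℕ → List (ℕ × ℕ) → Bool → Bool) (g : ℕ) (eq : Bool) (fuel : ℕ) :
    ℕ → ℕ → List (ℕ × ℕ) → Bool :=
  Nat.rec (motive := fun _ => ℕ → ℕ → List (ℕ × ℕ) → Bool)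
    (fun n _ q => next 0 q (andB eq (Nat.beq n g)))
    (fun r ih n d q => Bool.rec (motive := fun _ => Bool)
      (andB (next (Nat.succ r) q (andB eq (Nat.beq n g)))
        (ih (Nat.succ n) (Nat.add d 8) (stepQ d q)))
      (Bool.rec (motive := fun _ => Bool) true false (andB eq (Nat.ble n g))) (zeroQ q)) fuel

def dfs (d0 : ℕ) (rows : List (ℕ × ℕ)) : ℕ → List (ℕ × ℕ) → Bool → Bool :=
  List.rec (motive := fun _ => ℕ → List (ℕ × ℕ) → Bool → Bool)
    (fun m q eq => baseD d0 m q eq)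
    (fun row _ ih m q eq => loopD ih row.2 eq m 0 row.1 q) rows

/-- `∑ u_s f(T_s)` -/
def val (q : List (ℕ × ℕ)) (f : ℕ → ZMod 127) : ZMod 127 :=
  (q.map (fun e => (e.1 : ZMod 127) * f e.2)).sum

/-- product of table values -/
def bp (T d n : ℕ) : ZMod 127 := ∏ t ∈ Finset.range n, ((tl T (d + 8 * t) : ℕ) : ZMod 127)

lemma bp_zero (T d : ℕ) : bp T d 0 = 1 := by simp [bp]

lemma bp_succ (T d n : ℕ) : bp T d (n + 1) = ((tl T d : ℕ) : ZMod 127) * bp T (d + 8) n := by
  unfold bp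
  rw [Finset.prod_range_succ', mul_comm, mul_zero, add_zero]
  congr 1
  refine Finset.prod_congr rfl fun t _ => ?_
  congr 2
  ring

lemma val_stepQ (d : ℕ) (q : List (ℕ × ℕ)) (f : ℕ → ZMod 127) :
    val (stepQ d q) f = val q (fun T => ((tl T d : ℕ) : ZMod 127) * f T) := by
  induction q with
  | nil => rfl
  | cons e q ih =>
    have h1 : stepQ d (e :: q) = (Nat.mod (Nat.mul e.1 (tl e.2 d)) 127, e.2) :: stepQ d q := rfl
    rw [h1]
    unfold val at ih ⊢
    rw [List.map_cons, List.sum_cons, List.map_cons, List.sum_cons, ih]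
    congr 1
    have h2 : ((Nat.mod (Nat.mul e.1 (tl e.2 d)) 127 : ℕ) : ZMod 127)
        = (e.1 : ZMod 127) * ((tl e.2 d : ℕ) : ZMod 127) := by
      rw [← Nat.cast_mul]
      exact ZMod.natCast_mod _ 127
    rw [h2]
    ring

lemma zeroQ_sound {q : List (ℕ × ℕ)} (h : zeroQ q = true) (f : ℕ → ZMod 127) : val q f = 0 := by
  induction q with
  | nil => rfl
  | cons e q ih =>
    have h1 : zeroQ (e :: q) = andB (Nat.beq e.1 0) (zeroQ q) := rfl
    rw [h1, andB_eq, Nat.beq_eq] at h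
    unfold val at ih ⊢
    rw [List.map_cons, List.sum_cons, ih h.2, h.1]
    simp

lemma sumQ_cast (q : List (ℕ × ℕ)) : ((sumQ q : ℕ) : ZMod 127) = val q (fun _ => 1) := by
  induction q with
  | nil => simp [sumQ, val]
  | cons e q ih =>
    have h1 : sumQ (e :: q) = e.1 + sumQ q := rfl
    rw [h1]
    unfold val at ih ⊢
    rw [List.map_cons, List.sum_cons, Nat.cast_add, ih, mul_one]

lemma val_stepsQ (m : ℕ) : ∀ (d : ℕ) (q : List (ℕ × ℕ)) (f : ℕ → ZMod 127),
    val (stepsQ m d q) f = val q (fun T => bp T d m * f T) := by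
  induction m with
  | zero =>
    intro d q f
    have h1 : stepsQ 0 d q = q := rfl
    rw [h1]
    simp [bp_zero]
  | succ m ih =>
    intro d q f
    have h1 : stepsQ (m + 1) d q = stepsQ m (d + 8) (stepQ d q) := rfl
    rw [h1, ih, val_stepQ]
    congr 1
    funext T
    rw [bp_succ]
    ring

/-- specification of the search -/
def SpecF (d0 : ℕ) : List (ℕ × ℕ) → ℕ → ((ℕ → ZMod 127) → ZMod 127) → Bool → Prop
  | [], m, g, eq => g (fun T => bp T d0 m) = if eq = true then -1 else 0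
  | row :: rows, m, g, eq => ∀ n ≤ m, SpecF d0 rows (m - n)
      (fun f => g (fun T => bp T row.1 n * f T)) (eq && decide (n = row.2))

lemma specF_zero (d0 : ℕ) : ∀ (rows : List (ℕ × ℕ)) (m : ℕ),
    SpecF d0 rows m (fun _ => 0) false := by
  intro rows
  induction rows with
  | nil => intro m; simp [SpecF]
  | cons row rows ih =>
    intro m n _
    simpa using ih (m - n)

lemma loopD_sound {d0 : ℕ} {rows : List (ℕ × ℕ)}
    {next : ℕ → List (ℕ × ℕ) → Bool → Bool} (g : ℕ) (eq : Bool)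
    (hnext : ∀ m q e, next m q e = true → SpecF d0 rows m (val q) e) (fuel : ℕ) :
    ∀ (n d : ℕ) (q : List (ℕ × ℕ)), loopD next g eq fuel n d q = true →
      ∀ n' ≤ fuel, SpecF d0 rows (fuel - n') (fun f => val q (fun T => bp T d n' * f T))
        (eq && decide (n + n' = g)) := by
  induction fuel with
  | zero =>
    intro n d q h n' hn'
    have hn0 : n' = 0 := by omega
    subst hn0
    have h1 : loopD next g eq 0 n d q = next 0 q (andB eq (Nat.beq n g)) := rfl
    rw [h1] at h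
    have h2 := hnext _ _ _ h
    have h3 : (fun f : ℕ → ZMod 127 => val q (fun T => bp T d 0 * f T)) = val q := by
      funext f
      simp [bp_zero]
    rw [h3]
    have h4 : (eq && decide (n + 0 = g)) = andB eq (Nat.beq n g) := by
      rw [Bool.eq_iff_iff, andB_eq, Nat.beq_eq]
      simp
    rw [h4]
    exact h2
  | succ r ih =>
    intro n d q h n' hn'
    have h1 : loopD next g eq (r + 1) n d q = Bool.rec (motive := fun _ => Bool)
      (andB (next (Nat.succ r) q (andB eq (Nat.beq n g)))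
        (loopD next g eq r (Nat.succ n) (Nat.add d 8) (stepQ d q)))
      (Bool.rec (motive := fun _ => Bool) true false (andB eq (Nat.ble n g))) (zeroQ q) := rfl
    rw [h1] at h
    cases hz : zeroQ q with
    | true =>
      rw [hz] at h
      have h2 : andB eq (Nat.ble n g) = false := by
        cases h3 : andB eq (Nat.ble n g) with
        | false => rfl
        | true =>
          rw [h3] at h
          exact absurd (show false = true from h) Bool.false_ne_true
      have h3 : (eq && decide (n + n' = g)) = false := by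
        rw [Bool.eq_false_iff]
        intro h4
        rw [Bool.and_eq_true, decide_eq_true_iff] at h4
        have h5 : andB eq (Nat.ble n g) = true := by
          rw [andB_eq, Nat.ble_eq]
          exact ⟨h4.1, by omega⟩
        rw [h5] at h2
        exact absurd h2 (by decide)
      rw [h3]
      have h4 : (fun f : ℕ → ZMod 127 => val q (fun T => bp T d n' * f T)) = fun _ => 0 := by
        funext f
        exact zeroQ_sound hz _
      rw [h4]
      exact specF_zero d0 rows _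
    | false =>
      rw [hz] at h
      have h' : andB (next (Nat.succ r) q (andB eq (Nat.beq n g)))
        (loopD next g eq r (Nat.succ n) (Nat.add d 8) (stepQ d q)) = true := h
      rw [andB_eq] at h'
      rcases Nat.eq_zero_or_pos n' with h0 | h0
      · subst h0
        have h2 := hnext _ _ _ h'.1
        have h3 : (fun f : ℕ → ZMod 127 => val q (fun T => bp T d 0 * f T)) = val q := by
          funext f
          simp [bp_zero]
        rw [h3]
        have h4 : (eq && decide (n + 0 = g)) = andB eq (Nat.beq n g) := by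
          rw [Bool.eq_iff_iff, andB_eq, Nat.beq_eq]
          simp
        rw [h4]
        exact h2
      · obtain ⟨n'', rfl⟩ : ∃ n'', n' = n'' + 1 := ⟨n' - 1, by omega⟩
        have h2 := ih (Nat.succ n) (Nat.add d 8) (stepQ d q) h'.2 n'' (by omega)
        have h3 : (fun f : ℕ → ZMod 127 => val (stepQ d q)
            (fun T => bp T (Nat.add d 8) n'' * f T))
            = fun f => val q (fun T => bp T d (n'' + 1) * f T) := by
          funext f
          rw [val_stepQ]
          congr 1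
          funext T
          rw [bp_succ]
          show _ * (bp T (d + 8) n'' * f T) = _
          ring
        rw [h3] at h2
        have h4 : r + 1 - (n'' + 1) = r - n'' := by omega
        have h5 : (n + (n'' + 1) = g) = (Nat.succ n + n'' = g) := by
          have : n + (n'' + 1) = Nat.succ n + n'' := by omega
          rw [this]
        rw [h4]
        have h6 : decide (n + (n'' + 1) = g) = decide (Nat.succ n + n'' = g) := by
          congr 1
        rw [h6]
        exact h2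

lemma dfs_sound (d0 : ℕ) : ∀ (rows : List (ℕ × ℕ)) (m : ℕ) (q : List (ℕ × ℕ)) (eq : Bool),
    dfs d0 rows m q eq = true → SpecF d0 rows m (val q) eq := by
  intro rows
  induction rows with
  | nil =>
    intro m q eq h
    have h1 : dfs d0 [] m q eq = Nat.beq (Nat.mod (sumQ (stepsQ m d0 q)) 127)
      (Bool.rec (motive := fun _ => ℕ) 0 126 eq) := rfl
    rw [h1, Nat.beq_eq] at h
    have h2 : ((Nat.mod (sumQ (stepsQ m d0 q)) 127 : ℕ) : ZMod 127)
        = val q (fun T => bp T d0 m) := by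
      have h3 : ((Nat.mod (sumQ (stepsQ m d0 q)) 127 : ℕ) : ZMod 127)
          = ((sumQ (stepsQ m d0 q) : ℕ) : ZMod 127) := ZMod.natCast_mod _ 127
      rw [h3, sumQ_cast, val_stepsQ]
      simp
    unfold SpecF
    rw [← h2, h]
    cases eq with
    | true =>
      show ((126 : ℕ) : ZMod 127) = _
      decide
    | false =>
      show ((0 : ℕ) : ZMod 127) = _
      simp
  | cons row rows ih =>
    intro m q eq h
    have h1 : dfs d0 (row :: rows) m q eq = loopD (dfs d0 rows) row.2 eq m 0 row.1 q := rfl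
    rw [h1] at h
    intro n hn
    have h2 := loopD_sound row.2 eq ih m 0 row.1 q h n hn
    simpa using h2

/-! ### from the search to the quadrature of `Fc` -/

lemma tl_mkT (kl z : ℕ) (hz : z < 47) :
    ((tl (mkT kl) (8 * z) : ℕ) : ZMod 127) = ge (ZMod 127) (shp kl) ((z : ℤ) - 5) := by
  rw [tl_eq, slot_mkT kl z hz, gval_cast]

lemma bp_mkT (kl z n : ℕ) (h : z + n ≤ 47) :
    bp (mkT kl) (8 * z) n = ∏ t ∈ Finset.range n, ge (ZMod 127) (shp kl) ((z : ℤ) - 5 + t) := by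
  unfold bp
  refine Finset.prod_congr rfl fun t ht => ?_
  have ht' := Finset.mem_range.1 ht
  have h1 : 8 * z + 8 * t = 8 * (z + t) := by ring
  rw [h1, tl_mkT kl (z + t) (by omega)]
  congr 1
  push_cast
  ring

attribute [local irreducible] mkT

/-- attach the tables -/
def buildQ (Q : List (ℕ × ℕ)) : List (ℕ × ℕ) :=
  List.rec (motive := fun _ => List (ℕ × ℕ)) [] (fun e _ ih => (e.1, mkT e.2) :: ih) Q

lemma val_buildQ (Q : List (ℕ × ℕ)) (f : ℕ → ZMod 127) :
    val (buildQ Q) f = (Q.map (fun e => (e.1 : ZMod 127) * f (mkT e.2))).sum := by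
  induction Q with
  | nil => rfl
  | cons e Q ih =>
    have h1 : buildQ (e :: Q) = (e.1, mkT e.2) :: buildQ Q := rfl
    rw [h1]
    unfold val at ih ⊢
    rw [List.map_cons, List.sum_cons, List.map_cons, List.sum_cons, ih]

/-- all targets of the record are horizontal strips -/
def allHS (kk a : ℕ) (Q : List (ℕ × ℕ)) : Bool :=
  List.rec (motive := fun _ => Bool) true (fun e _ ih => andB (hsChk kk e.2 a) ih) Q

lemma allHS_sound {kk a : ℕ} {Q : List (ℕ × ℕ)} (h : allHS kk a Q = true) :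
    ∀ e ∈ Q, HS (shp kk) (shp e.2) a := by
  induction Q with
  | nil => intro e he; simp at he
  | cons e0 Q ih =>
    have h1 : allHS kk a (e0 :: Q) = andB (hsChk kk e0.2 a) (allHS kk a Q) := rfl
    rw [h1, andB_eq] at h
    intro e he
    rcases List.mem_cons.1 he with rfl | h2
    · exact hsChk_sound h.1
    · exact ih h.2 e h2

/-- rows of the search -/
def rowsOf (kk kl : ℕ) : List (ℕ × ℕ) :=
  [(Nat.mul 8 (Nat.add (dg1 kk) 4), Nat.sub (dg1 kl) (dg1 kk)),
   (Nat.mul 8 (Nat.add (dg2 kk) 3), Nat.sub (dg2 kl) (dg2 kk)),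
   (Nat.mul 8 (Nat.add (dg3 kk) 2), Nat.sub (dg3 kl) (dg3 kk)),
   (Nat.mul 8 (Nat.add (dg4 kk) 1), Nat.sub (dg4 kl) (dg4 kk)),
   (Nat.mul 8 (dg5 kk), Nat.sub (dg5 kl) (dg5 kk))]

/-- **kernel check of a quadrature record** for the strip `kk → kl` with `a` boxes -/
def quadChk (kk kl a : ℕ) (Q : List (ℕ × ℕ)) : Bool :=
  andB (antiChk kk) (andB (hsChk kk kl a) (andB (allHS kk a Q) (andB (Nat.ble (dg0 kk + a) 42)
    (dfs (Nat.mul 8 (Nat.add (dg0 kk) 5)) (rowsOf kk kl) a (buildQ Q) true))))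

lemma psi_six (kl kk : ℕ) (μ : Sh) (hb : ∀ i, μ i ≤ 42) (hle : shp kk ≤ μ) :
    psi (ZMod 127) (shp kl) (shp kk) μ =
      bp (mkT kl) (8 * (dg1 kk + 4)) (μ 1 - dg1 kk) *
      (bp (mkT kl) (8 * (dg2 kk + 3)) (μ 2 - dg2 kk) *
      (bp (mkT kl) (8 * (dg3 kk + 2)) (μ 3 - dg3 kk) *
      (bp (mkT kl) (8 * (dg4 kk + 1)) (μ 4 - dg4 kk) *
      (bp (mkT kl) (8 * (dg5 kk)) (μ 5 - dg5 kk) *
      bp (mkT kl) (8 * (dg0 kk + 5)) (μ 0 - dg0 kk))))) := by
  have g0 : shp kk 0 = dg0 kk := by rw [shp_vals]; rfl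
  have g1 : shp kk 1 = dg1 kk := by rw [shp_vals]; rfl
  have g2 : shp kk 2 = dg2 kk := by rw [shp_vals]; rfl
  have g3 : shp kk 3 = dg3 kk := by rw [shp_vals]; rfl
  have g4 : shp kk 4 = dg4 kk := by rw [shp_vals]; rfl
  have g5 : shp kk 5 = dg5 kk := by rw [shp_vals]; rfl
  have l0 : dg0 kk ≤ μ 0 := g0 ▸ hle 0
  have l1 : dg1 kk ≤ μ 1 := g1 ▸ hle 1
  have l2 : dg2 kk ≤ μ 2 := g2 ▸ hle 2
  have l3 : dg3 kk ≤ μ 3 := g3 ▸ hle 3
  have l4 : dg4 kk ≤ μ 4 := g4 ▸ hle 4
  have l5 : dg5 kk ≤ μ 5 := g5 ▸ hle 5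
  have b0 := hb 0
  have b1 := hb 1
  have b2 := hb 2
  have b3 := hb 3
  have b4 := hb 4
  have b5 := hb 5
  rw [bp_mkT _ _ _ (by omega), bp_mkT _ _ _ (by omega), bp_mkT _ _ _ (by omega),
    bp_mkT _ _ _ (by omega), bp_mkT _ _ _ (by omega), bp_mkT _ _ _ (by omega)]
  unfold psi
  rw [Fin.prod_univ_six, g0, g1, g2, g3, g4, g5]
  have c0 : ct (shp kk) 0 = ((dg0 kk + 5 : ℕ) : ℤ) - 5 := by unfold ct; rw [g0]; simp
  have c1 : ct (shp kk) 1 = ((dg1 kk + 4 : ℕ) : ℤ) - 5 := by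
    unfold ct; rw [g1]; push_cast; norm_num; ring
  have c2 : ct (shp kk) 2 = ((dg2 kk + 3 : ℕ) : ℤ) - 5 := by
    unfold ct; rw [g2]; push_cast; norm_num; ring
  have c3 : ct (shp kk) 3 = ((dg3 kk + 2 : ℕ) : ℤ) - 5 := by
    unfold ct; rw [g3]; push_cast; norm_num; ring
  have c4 : ct (shp kk) 4 = ((dg4 kk + 1 : ℕ) : ℤ) - 5 := by
    unfold ct; rw [g4]; push_cast; norm_num; ring
  have c5 : ct (shp kk) 5 = ((dg5 kk : ℕ) : ℤ) - 5 := by
    unfold ct; rw [g5]; norm_num
  rw [c0, c1, c2, c3, c4, c5]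
  ring

lemma hK127 : ∀ m : ℕ, 0 < m → m ≤ 126 → (m : ZMod 127) ≠ 0 := by
  intro m h1 h2 h
  rw [ZMod.natCast_eq_zero_iff] at h
  exact absurd (Nat.le_of_dvd h1 h) (by omega)

/-- **soundness of quadrature records** -/
theorem quad_sound {kk kl a : ℕ} {Q : List (ℕ × ℕ)} (h : quadChk kk kl (a + 1) Q = true)
    (κ' lam' : Sh) (h' : HS κ' lam' a) :
    Fc (ZMod 127) (shp kk) κ' (shp kl) lam'
      = (Q.map (fun q => (q.1 : ZMod 127) * pc (ZMod 127) (shp q.2) κ' lam')).sum := by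
  unfold quadChk at h
  rw [andB_eq, andB_eq, andB_eq, andB_eq, Nat.ble_eq] at h
  obtain ⟨h1, h2, h3, h4, h5⟩ := h
  have hκ := antiChk_sound h1
  have hlam := hsChk_sound h2
  have hQ := allHS_sound h3
  have h6 := dfs_sound _ _ _ _ _ h5
  have g0 : shp kk 0 = dg0 kk := by rw [shp_vals]; rfl
  have hkb : ∀ i, shp kk i ≤ dg0 kk := fun i => g0 ▸ hκ (Fin.zero_le i)
  have key := Fc_quad (K := ZMod 127) (B := 126) hK127 hκ hlam
    (fun i => by have := hkb i; omega) h' (Q.map (fun q => ((q.1 : ZMod 127), shp q.2)))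
    (by
      intro q hq
      rw [List.mem_map] at hq
      obtain ⟨e, he, rfl⟩ := hq
      exact hQ e he)
    (by
      intro μ hμ1 hμ2
      have hμb : ∀ i, μ i ≤ 42 := by
        intro i
        have h7 := mem_bx hμ1 hμ2
        rw [bx, Fintype.mem_piFinset] at h7
        have h8 := h7 i
        rw [Finset.mem_range] at h8
        have := hkb i
        omega
      rw [List.map_map]
      have h7 : (Q.map ((fun q : ZMod 127 × Sh => q.1 * psi (ZMod 127) q.2 (shp kk) μ) ∘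
          (fun q : ℕ × ℕ => ((q.1 : ZMod 127), shp q.2)))).sum
          = val (buildQ Q) (fun T =>
            bp T (8 * (dg1 kk + 4)) (μ 1 - dg1 kk) * (bp T (8 * (dg2 kk + 3)) (μ 2 - dg2 kk) *
            (bp T (8 * (dg3 kk + 2)) (μ 3 - dg3 kk) * (bp T (8 * (dg4 kk + 1)) (μ 4 - dg4 kk) *
            (bp T (8 * (dg5 kk)) (μ 5 - dg5 kk) *
              bp T (8 * (dg0 kk + 5)) (μ 0 - dg0 kk)))))) := by
        rw [val_buildQ]
        congr 1
        apply List.map_congr_left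
        intro e _
        simp only [Function.comp_apply]
        rw [psi_six e.2 kk μ hμb hμ1]
      rw [h7]
      -- unfold the specification
      have g1 : shp kk 1 = dg1 kk := by rw [shp_vals]; rfl
      have g2 : shp kk 2 = dg2 kk := by rw [shp_vals]; rfl
      have g3 : shp kk 3 = dg3 kk := by rw [shp_vals]; rfl
      have g4 : shp kk 4 = dg4 kk := by rw [shp_vals]; rfl
      have g5 : shp kk 5 = dg5 kk := by rw [shp_vals]; rfl
      have l0 : dg0 kk ≤ μ 0 := g0 ▸ hμ1 0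
      have l1 : dg1 kk ≤ μ 1 := g1 ▸ hμ1 1
      have l2 : dg2 kk ≤ μ 2 := g2 ▸ hμ1 2
      have l3 : dg3 kk ≤ μ 3 := g3 ▸ hμ1 3
      have l4 : dg4 kk ≤ μ 4 := g4 ▸ hμ1 4
      have l5 : dg5 kk ≤ μ 5 := g5 ▸ hμ1 5
      have hsum := hμ2
      rw [sum_shp, Fin.sum_univ_six] at hsum
      have k0 : shp kl 0 = dg0 kl := by rw [shp_vals]; rfl
      have k1 : shp kl 1 = dg1 kl := by rw [shp_vals]; rfl
      have k2 : shp kl 2 = dg2 kl := by rw [shp_vals]; rfl
      have k3 : shp kl 3 = dg3 kl := by rw [shp_vals]; rfl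
      have k4 : shp kl 4 = dg4 kl := by rw [shp_vals]; rfl
      have k5 : shp kl 5 = dg5 kl := by rw [shp_vals]; rfl
      have hs := h6 (μ 1 - dg1 kk) (by omega) (μ 2 - dg2 kk) (by omega) (μ 3 - dg3 kk) (by omega)
        (μ 4 - dg4 kk) (by omega) (μ 5 - dg5 kk) (by omega)
      unfold SpecF at hs
      have e0 : a + 1 - (μ 1 - dg1 kk) - (μ 2 - dg2 kk) - (μ 3 - dg3 kk) - (μ 4 - dg4 kk)
          - (μ 5 - dg5 kk) = μ 0 - dg0 kk := by omega
      rw [e0] at hs
      refine Eq.trans hs ?_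
      have hl := hlam.2.2
      rw [sum_shp, sum_shp] at hl
      have m0 : dg0 kk ≤ dg0 kl := by rw [← g0, ← k0]; exact hlam.1 0
      have m1 : dg1 kk ≤ dg1 kl := by rw [← g1, ← k1]; exact hlam.1 1
      have m2 : dg2 kk ≤ dg2 kl := by rw [← g2, ← k2]; exact hlam.1 2
      have m3 : dg3 kk ≤ dg3 kl := by rw [← g3, ← k3]; exact hlam.1 3
      have m4 : dg4 kk ≤ dg4 kl := by rw [← g4, ← k4]; exact hlam.1 4
      have m5 : dg5 kk ≤ dg5 kl := by rw [← g5, ← k5]; exact hlam.1 5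
      have hiff : (true && decide (μ 1 - dg1 kk = Nat.sub (dg1 kl) (dg1 kk))
          && decide (μ 2 - dg2 kk = Nat.sub (dg2 kl) (dg2 kk))
          && decide (μ 3 - dg3 kk = Nat.sub (dg3 kl) (dg3 kk))
          && decide (μ 4 - dg4 kk = Nat.sub (dg4 kl) (dg4 kk))
          && decide (μ 5 - dg5 kk = Nat.sub (dg5 kl) (dg5 kk))) = true ↔ μ = shp kl := by
        simp only [Bool.and_eq_true, decide_eq_true_iff, true_and]
        constructor
        · rintro ⟨⟨⟨⟨n1, n2⟩, n3⟩, n4⟩, n5⟩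
          have n1' : μ 1 - dg1 kk = dg1 kl - dg1 kk := n1
          have n2' : μ 2 - dg2 kk = dg2 kl - dg2 kk := n2
          have n3' : μ 3 - dg3 kk = dg3 kl - dg3 kk := n3
          have n4' : μ 4 - dg4 kk = dg4 kl - dg4 kk := n4
          have n5' : μ 5 - dg5 kk = dg5 kl - dg5 kk := n5
          funext i
          fin_cases i
          · show μ 0 = shp kl 0
            rw [k0]; omega
          · show μ 1 = shp kl 1
            rw [k1]; omega
          · show μ 2 = shp kl 2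
            rw [k2]; omega
          · show μ 3 = shp kl 3
            rw [k3]; omega
          · show μ 4 = shp kl 4
            rw [k4]; omega
          · show μ 5 = shp kl 5
            rw [k5]; omega
        · intro h
          rw [h, k1, k2, k3, k4, k5]
          exact ⟨⟨⟨⟨rfl, rfl⟩, rfl⟩, rfl⟩, rfl⟩
      by_cases hm : μ = shp kl
      · rw [if_pos hm, if_pos (hiff.2 hm)]
      · rw [if_neg hm, if_neg (fun h => hm (hiff.1 h))])
  rw [key, List.map_map]
  rfl

end Crest.Agent.R187.SN.Top
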