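import Mathlib
import Crest.Agent.R187.SN.TopQ

/-!
# Row 187, PLAN S, block E5: contents words and the kernel scalar `F`

`csN k k'` = the packed list of `8 * (content + 5)` (base 512) of the boxes of `shp k' / shp k`;
`fq5 Q cs` = `∑ w_s ∏_{t<5} T_s[c_t]  mod 127`.
-/

set_option autoImplicit false

namespace Crest.Agent.R187.SN.Top

open Crest.Agent.R187.SN Crest.Agent.R187.SN.Spec Crest.Agent.R187.SN.Gen
open Crest.Agent.R187.SN.Kern

attribute [local irreducible] mkT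

/-- `[d, d+8, …]`, `n` entries, appended to `rest` -/
def seg (n : ℕ) (rest : List ℕ) : ℕ → List ℕ :=
  Nat.rec (motive := fun _ => ℕ → List ℕ) (fun _ => rest) (fun _ ih d => d :: ih (Nat.add d 8)) n

/-- list of `8 * (content + 5)` of the boxes of `k' / k`, row by row -/
def csL (k k' : ℕ) : List ℕ :=
  seg (Nat.sub (dg0 k') (dg0 k)) (seg (Nat.sub (dg1 k') (dg1 k)) (seg (Nat.sub (dg2 k') (dg2 k))
    (seg (Nat.sub (dg3 k') (dg3 k)) (seg (Nat.sub (dg4 k') (dg4 k))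
    (seg (Nat.sub (dg5 k') (dg5 k)) [] (Nat.mul 8 (dg5 k))) (Nat.mul 8 (Nat.add (dg4 k) 1)))
    (Nat.mul 8 (Nat.add (dg3 k) 2))) (Nat.mul 8 (Nat.add (dg2 k) 3)))
    (Nat.mul 8 (Nat.add (dg1 k) 4))) (Nat.mul 8 (Nat.add (dg0 k) 5))

/-- base-512 packing -/
def pack (L : List ℕ) : ℕ :=
  List.rec (motive := fun _ => ℕ) 0 (fun d _ ih => Nat.add d (Nat.mul 512 ih)) L

/-- contents word -/
def csN (k k' : ℕ) : ℕ := pack (csL k k')

lemma seg_zero (rest : List ℕ) (d : ℕ) : seg 0 rest d = rest := rfl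
lemma seg_succ (n : ℕ) (rest : List ℕ) (d : ℕ) : seg (n + 1) rest d = d :: seg n rest (d + 8) := rfl

lemma seg_map (kl z n : ℕ) (rest : List ℕ) (h : z + n ≤ 47) :
    (seg n rest (8 * z)).map (fun d => ((tl (mkT kl) d : ℕ) : ZMod 127))
      = ((List.range n).map (fun c : ℕ => ge (ZMod 127) (shp kl) ((z : ℤ) - 5 + (c : ℤ))))
        ++ rest.map (fun d => ((tl (mkT kl) d : ℕ) : ZMod 127)) := by
  induction n generalizing z with
  | zero => simp [seg_zero]
  | succ n ih =>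
    have h1 : 8 * z + 8 = 8 * (z + 1) := by ring
    rw [seg_succ, h1, List.map_cons, ih (z + 1) (by omega), tl_mkT kl z (by omega),
      List.range_succ_eq_map, List.map_cons, List.cons_append, List.map_map]
    congr 2
    · simp
    · apply List.map_congr_left
      intro c _
      simp only [Function.comp_apply]
      congr 1
      push_cast
      ring

lemma conts_six (κ lam : Sh) : conts κ lam =
    (List.range (lam 0 - κ 0)).map (fun c : ℕ => ct κ 0 + (c : ℤ)) ++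
    ((List.range (lam 1 - κ 1)).map (fun c : ℕ => ct κ 1 + (c : ℤ)) ++
    ((List.range (lam 2 - κ 2)).map (fun c : ℕ => ct κ 2 + (c : ℤ)) ++
    ((List.range (lam 3 - κ 3)).map (fun c : ℕ => ct κ 3 + (c : ℤ)) ++
    ((List.range (lam 4 - κ 4)).map (fun c : ℕ => ct κ 4 + (c : ℤ)) ++
    (List.range (lam 5 - κ 5)).map (fun c : ℕ => ct κ 5 + (c : ℤ)))))) := by
  have h : (List.finRange 6 : List (Fin 6)) = [0, 1, 2, 3, 4, 5] := by decide
  have h2 : ∀ i : Fin 6, (List.range (lam i - κ i)).map (fun c : ℕ => ((κ i + c : ℕ) : ℤ) - (i : ℕ))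
      = (List.range (lam i - κ i)).map (fun c : ℕ => ct κ i + (c : ℤ)) := by
    intro i
    apply List.map_congr_left
    intro c _
    unfold ct
    push_cast
    ring
  unfold conts
  rw [h]
  simp only [List.flatMap_cons, List.flatMap_nil, List.append_nil, h2]

lemma csL_map (kl k k' : ℕ) (hb : ∀ i, shp k' i ≤ 42) (hle : shp k ≤ shp k') :
    (csL k k').map (fun d => ((tl (mkT kl) d : ℕ) : ZMod 127))
      = (conts (shp k) (shp k')).map (ge (ZMod 127) (shp kl)) := by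
  have g0 : shp k 0 = dg0 k := by rw [shp_vals]; rfl
  have g1 : shp k 1 = dg1 k := by rw [shp_vals]; rfl
  have g2 : shp k 2 = dg2 k := by rw [shp_vals]; rfl
  have g3 : shp k 3 = dg3 k := by rw [shp_vals]; rfl
  have g4 : shp k 4 = dg4 k := by rw [shp_vals]; rfl
  have g5 : shp k 5 = dg5 k := by rw [shp_vals]; rfl
  have k0 : shp k' 0 = dg0 k' := by rw [shp_vals]; rfl
  have k1 : shp k' 1 = dg1 k' := by rw [shp_vals]; rfl
  have k2 : shp k' 2 = dg2 k' := by rw [shp_vals]; rfl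
  have k3 : shp k' 3 = dg3 k' := by rw [shp_vals]; rfl
  have k4 : shp k' 4 = dg4 k' := by rw [shp_vals]; rfl
  have k5 : shp k' 5 = dg5 k' := by rw [shp_vals]; rfl
  have l0 : shp k 0 ≤ shp k' 0 := hle 0
  have l1 : shp k 1 ≤ shp k' 1 := hle 1
  have l2 : shp k 2 ≤ shp k' 2 := hle 2
  have l3 : shp k 3 ≤ shp k' 3 := hle 3
  have l4 : shp k 4 ≤ shp k' 4 := hle 4
  have l5 : shp k 5 ≤ shp k' 5 := hle 5
  have b0 := hb 0
  have b1 := hb 1
  have b2 := hb 2
  have b3 := hb 3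
  have b4 := hb 4
  have b5 := hb 5
  rw [g0, k0] at l0
  rw [g1, k1] at l1
  rw [g2, k2] at l2
  rw [g3, k3] at l3
  rw [g4, k4] at l4
  rw [g5, k5] at l5
  rw [k0] at b0
  rw [k1] at b1
  rw [k2] at b2
  rw [k3] at b3
  rw [k4] at b4
  rw [k5] at b5
  have c0 : ct (shp k) 0 = ((dg0 k + 5 : ℕ) : ℤ) - 5 := by unfold ct; rw [g0]; simp
  have c1 : ct (shp k) 1 = ((dg1 k + 4 : ℕ) : ℤ) - 5 := by
    unfold ct; rw [g1]; push_cast; norm_num; ring
  have c2 : ct (shp k) 2 = ((dg2 k + 3 : ℕ) : ℤ) - 5 := by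
    unfold ct; rw [g2]; push_cast; norm_num; ring
  have c3 : ct (shp k) 3 = ((dg3 k + 2 : ℕ) : ℤ) - 5 := by
    unfold ct; rw [g3]; push_cast; norm_num; ring
  have c4 : ct (shp k) 4 = ((dg4 k + 1 : ℕ) : ℤ) - 5 := by
    unfold ct; rw [g4]; push_cast; norm_num; ring
  have c5 : ct (shp k) 5 = ((dg5 k : ℕ) : ℤ) - 5 := by
    unfold ct; rw [g5]; norm_num
  rw [conts_six]
  simp only [List.map_append, List.map_map]
  unfold csL
  show (seg (dg0 k' - dg0 k) (seg (dg1 k' - dg1 k) (seg (dg2 k' - dg2 k)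
    (seg (dg3 k' - dg3 k) (seg (dg4 k' - dg4 k)
    (seg (dg5 k' - dg5 k) [] (8 * (dg5 k))) (8 * (dg4 k + 1)))
    (8 * (dg3 k + 2))) (8 * (dg2 k + 3)))
    (8 * (dg1 k + 4))) (8 * (dg0 k + 5))).map _ = _
  rw [seg_map _ _ _ _ (by omega), seg_map _ _ _ _ (by omega), seg_map _ _ _ _ (by omega),
    seg_map _ _ _ _ (by omega), seg_map _ _ _ _ (by omega), seg_map _ _ _ _ (by omega)]
  rw [g0, g1, g2, g3, g4, g5, k0, k1, k2, k3, k4, k5, c0, c1, c2, c3, c4, c5]
  simp only [List.map_nil, List.append_nil]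
  rfl

/-- product of five table values -/
def gp5 (T cs : ℕ) : ℕ :=
  Nat.mul (Nat.mul (Nat.mul (Nat.mul (tl T (Nat.mod cs 512)) (tl T (Nat.mod (Nat.div cs 512) 512)))
    (tl T (Nat.mod (Nat.div cs 262144) 512))) (tl T (Nat.mod (Nat.div cs 134217728) 512)))
    (tl T (Nat.mod (Nat.div cs 68719476736) 512))

/-- the scalar `F`, five contents; `Q` = list of `(w_s, T_s)` -/
def fq5 (Q : List (ℕ × ℕ)) (cs : ℕ) : ℕ :=
  Nat.mod (List.rec (motive := fun _ => ℕ) 0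
    (fun e _ ih => Nat.add (Nat.mul e.1 (gp5 e.2 cs)) ih) Q) 127

lemma fq5_lt (Q : List (ℕ × ℕ)) (cs : ℕ) : fq5 Q cs < 127 := Nat.mod_lt _ (by norm_num)

lemma fq5_cast (Q : List (ℕ × ℕ)) (cs : ℕ) :
    ((fq5 Q cs : ℕ) : ZMod 127) = val Q (fun T => ((gp5 T cs : ℕ) : ZMod 127)) := by
  unfold fq5
  have h1 : ∀ x : ℕ, ((Nat.mod x 127 : ℕ) : ZMod 127) = (x : ZMod 127) := fun x =>
    ZMod.natCast_mod x 127
  rw [h1]
  induction Q with
  | nil => simp [val]
  | cons e Q ih =>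
    unfold val at ih ⊢
    rw [List.map_cons, List.sum_cons, ← ih]
    show ((Nat.add (Nat.mul e.1 (gp5 e.2 cs)) _ : ℕ) : ZMod 127) = _
    rw [← Nat.cast_mul, ← Nat.cast_add]
    rfl

lemma pack_five {d0 d1 d2 d3 d4 : ℕ} (h0 : d0 < 512) (h1 : d1 < 512) (h2 : d2 < 512)
    (h3 : d3 < 512) (h4 : d4 < 512) (T : ℕ) :
    gp5 T (pack [d0, d1, d2, d3, d4]) = tl T d0 * tl T d1 * tl T d2 * tl T d3 * tl T d4 := by
  have hp : pack [d0, d1, d2, d3, d4] = d0 + 512 * (d1 + 512 * (d2 + 512 * (d3 + 512 * (d4 +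
    512 * 0)))) := rfl
  have e0 : Nat.mod (pack [d0, d1, d2, d3, d4]) 512 = d0 := by
    show pack [d0, d1, d2, d3, d4] % 512 = d0
    rw [hp]; omega
  have e1 : Nat.mod (Nat.div (pack [d0, d1, d2, d3, d4]) 512) 512 = d1 := by
    show pack [d0, d1, d2, d3, d4] / 512 % 512 = d1
    rw [hp]; omega
  have e2 : Nat.mod (Nat.div (pack [d0, d1, d2, d3, d4]) 262144) 512 = d2 := by
    show pack [d0, d1, d2, d3, d4] / 262144 % 512 = d2
    rw [hp]; omega
  have e3 : Nat.mod (Nat.div (pack [d0, d1, d2, d3, d4]) 134217728) 512 = d3 := by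
    show pack [d0, d1, d2, d3, d4] / 134217728 % 512 = d3
    rw [hp]; omega
  have e4 : Nat.mod (Nat.div (pack [d0, d1, d2, d3, d4]) 68719476736) 512 = d4 := by
    show pack [d0, d1, d2, d3, d4] / 68719476736 % 512 = d4
    rw [hp]; omega
  unfold gp5
  rw [e0, e1, e2, e3, e4]
  rfl

lemma seg_lt (n : ℕ) (rest : List ℕ) (hr : ∀ d ∈ rest, d < 512) : ∀ z, z + n ≤ 47 →
    ∀ d ∈ seg n rest (8 * z), d < 512 := by
  induction n with
  | zero => intro z _; exact hr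
  | succ n ih =>
    intro z hz d hd
    have h1 : 8 * z + 8 = 8 * (z + 1) := by ring
    rw [seg_succ, h1] at hd
    rcases List.mem_cons.1 hd with rfl | h2
    · omega
    · exact ih (z + 1) (by omega) d h2

lemma csL_lt (k k' : ℕ) (hb : ∀ i, shp k' i ≤ 42) (hle : shp k ≤ shp k') :
    ∀ d ∈ csL k k', d < 512 := by
  have g0 : shp k 0 = dg0 k := by rw [shp_vals]; rfl
  have g1 : shp k 1 = dg1 k := by rw [shp_vals]; rfl
  have g2 : shp k 2 = dg2 k := by rw [shp_vals]; rfl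
  have g3 : shp k 3 = dg3 k := by rw [shp_vals]; rfl
  have g4 : shp k 4 = dg4 k := by rw [shp_vals]; rfl
  have g5 : shp k 5 = dg5 k := by rw [shp_vals]; rfl
  have k0 : shp k' 0 = dg0 k' := by rw [shp_vals]; rfl
  have k1 : shp k' 1 = dg1 k' := by rw [shp_vals]; rfl
  have k2 : shp k' 2 = dg2 k' := by rw [shp_vals]; rfl
  have k3 : shp k' 3 = dg3 k' := by rw [shp_vals]; rfl
  have k4 : shp k' 4 = dg4 k' := by rw [shp_vals]; rfl
  have k5 : shp k' 5 = dg5 k' := by rw [shp_vals]; rfl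
  have l0 : shp k 0 ≤ shp k' 0 := hle 0
  have l1 : shp k 1 ≤ shp k' 1 := hle 1
  have l2 : shp k 2 ≤ shp k' 2 := hle 2
  have l3 : shp k 3 ≤ shp k' 3 := hle 3
  have l4 : shp k 4 ≤ shp k' 4 := hle 4
  have l5 : shp k 5 ≤ shp k' 5 := hle 5
  have b0 := hb 0
  have b1 := hb 1
  have b2 := hb 2
  have b3 := hb 3
  have b4 := hb 4
  have b5 := hb 5
  rw [g0, k0] at l0
  rw [g1, k1] at l1
  rw [g2, k2] at l2
  rw [g3, k3] at l3
  rw [g4, k4] at l4
  rw [g5, k5] at l5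
  rw [k0] at b0
  rw [k1] at b1
  rw [k2] at b2
  rw [k3] at b3
  rw [k4] at b4
  rw [k5] at b5
  show ∀ d ∈ seg (dg0 k' - dg0 k) (seg (dg1 k' - dg1 k) (seg (dg2 k' - dg2 k)
    (seg (dg3 k' - dg3 k) (seg (dg4 k' - dg4 k)
    (seg (dg5 k' - dg5 k) [] (8 * (dg5 k))) (8 * (dg4 k + 1)))
    (8 * (dg3 k + 2))) (8 * (dg2 k + 3)))
    (8 * (dg1 k + 4))) (8 * (dg0 k + 5)), d < 512
  refine seg_lt _ _ (seg_lt _ _ (seg_lt _ _ (seg_lt _ _ (seg_lt _ _ (seg_lt _ _ ?_ _ ?_) _ ?_)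
    _ ?_) _ ?_) _ ?_) _ ?_
  · intro d hd; simp at hd
  all_goals omega

lemma csL_length (k k' : ℕ) (hb : ∀ i, shp k' i ≤ 42) {m : ℕ} (h : HS (shp k) (shp k') m) :
    (csL k k').length = m := by
  have h1 := congrArg List.length (csL_map 0 k k' hb h.1)
  rw [List.length_map, List.length_map, conts_length h] at h1
  exact h1

/-- **the kernel scalar equals `Fc`** -/
theorem fq5_sound {kk kl : ℕ} {Q : List (ℕ × ℕ)} (h : quadChk kk kl 6 Q = true) (k k' : ℕ)
    (hb : ∀ i, shp k' i ≤ 42) (h' : HS (shp k) (shp k') 5) :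
    ((fq5 (buildQ Q) (csN k k') : ℕ) : ZMod 127)
      = Fc (ZMod 127) (shp kk) (shp k) (shp kl) (shp k') := by
  rw [quad_sound h (shp k) (shp k') h', fq5_cast, val_buildQ]
  congr 1
  apply List.map_congr_left
  intro e _
  congr 1
  have h1 := csL_map e.2 k k' hb h'.1
  have h2 := csL_lt k k' hb h'.1
  have h3 := csL_length k k' hb h'
  unfold pc
  rw [← h1]
  unfold csN
  match hL : csL k k', h3 with
  | [d0, d1, d2, d3, d4], _ =>
    rw [hL] at h2
    rw [pack_five (h2 d0 (by simp)) (h2 d1 (by simp)) (h2 d2 (by simp)) (h2 d3 (by simp))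
      (h2 d4 (by simp))]
    simp only [List.map_cons, List.map_nil, List.prod_cons, List.prod_nil]
    push_cast
    ring

end Crest.Agent.R187.SN.Top
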