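import Crest.Agent.R187.SN.Jucys

/-!
# Row 187, PLAN S, block (C): cycles and block swaps in a monoid with the Coxeter relations
-/

set_option autoImplicit false

namespace Crest.Agent.R187.SN.Br

open Crest.Agent.R187.SN

section mon

variable {H : Type*} [Monoid H]

/-- `cy f i m = f i * f (i+1) * ... * f (i+m-1)` : moves the letter at position `i+m` to `i` -/
def cy (f : ℕ → H) (i : ℕ) : ℕ → H
  | 0 => 1
  | m + 1 => cy f i m * f (i + m)

/-- `bs f i m q` moves the `q` letters at positions `i+m, …` in front of the `m` letters at `i, …` -/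
def bs (f : ℕ → H) : ℕ → ℕ → ℕ → H
  | _, _, 0 => 1
  | i, m, q + 1 => bs f (i + 1) m q * cy f i m

lemma cy_zero (f : ℕ → H) (i : ℕ) : cy f i 0 = 1 := rfl

lemma cy_succ (f : ℕ → H) (i m : ℕ) : cy f i (m + 1) = cy f i m * f (i + m) := rfl

lemma cy_succ' (f : ℕ → H) (i m : ℕ) : cy f i (m + 1) = f i * cy f (i + 1) m := by
  induction m with
  | zero => simp [cy]
  | succ m ih =>
    rw [cy_succ, ih, cy_succ, mul_assoc]
    congr 3
    omega

lemma bs_zero (f : ℕ → H) (i m : ℕ) : bs f i m 0 = 1 := rfl

lemma bs_succ (f : ℕ → H) (i m q : ℕ) : bs f i m (q + 1) = bs f (i + 1) m q * cy f i m := rfl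

lemma cy_shift (f : ℕ → H) (j i m : ℕ) : cy (fun k => f (j + k)) i m = cy f (j + i) m := by
  induction m with
  | zero => rfl
  | succ m ih => rw [cy_succ, cy_succ, ih, Nat.add_assoc]

lemma bs_shift (f : ℕ → H) (j i m q : ℕ) : bs (fun k => f (j + k)) i m q = bs f (j + i) m q := by
  induction q generalizing i with
  | zero => rfl
  | succ q ih => rw [bs_succ, bs_succ, ih, cy_shift, Nat.add_assoc]

lemma cy_map {H' : Type*} [Monoid H'] (φ : H →* H') (f : ℕ → H) (i m : ℕ) :
    φ (cy f i m) = cy (fun k => φ (f k)) i m := by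
  induction m with
  | zero => simp [cy]
  | succ m ih => rw [cy_succ, cy_succ, map_mul, ih]

lemma bs_map {H' : Type*} [Monoid H'] (φ : H →* H') (f : ℕ → H) (i m q : ℕ) :
    φ (bs f i m q) = bs (fun k => φ (f k)) i m q := by
  induction q generalizing i with
  | zero => simp [bs]
  | succ q ih => rw [bs_succ, bs_succ, map_mul, ih, cy_map]

lemma cy_congr {f g : ℕ → H} {i m : ℕ} (h : ∀ k, i ≤ k → k < i + m → f k = g k) :
    cy f i m = cy g i m := by
  induction m with
  | zero => rfl
  | succ m ih =>
    rw [cy_succ, cy_succ, ih (fun k h1 h2 => h k h1 (by omega)), h (i + m) (by omega) (by omega)]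

lemma bs_congr {f g : ℕ → H} {i m q : ℕ} (h : ∀ k, i ≤ k → k + 1 < i + m + q → f k = g k) :
    bs f i m q = bs g i m q := by
  induction q generalizing i with
  | zero => rfl
  | succ q ih =>
    rw [bs_succ, bs_succ, ih (fun k h1 h2 => h k (by omega) (by omega)),
      cy_congr (fun k h1 h2 => h k h1 (by omega))]

variable {n : ℕ} {f : ℕ → H}

/-- far commutation (both orders) -/
lemma rel_comm (h : Cox.Rel n f) {i j : ℕ} (hi : i < n) (hj : j < n) (hij : i + 1 < j ∨ j + 1 < i) :
    f i * f j = f j * f i := by
  rcases hij with h1 | h1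
  · exact h.comm i j h1 hj
  · exact (h.comm j i h1 hi).symm

lemma comm_cy (h : Cox.Rel n f) {j i m : ℕ} (hj : j < n) (hm : i + m ≤ n)
    (hij : j + 1 < i ∨ i + m < j) : f j * cy f i m = cy f i m * f j := by
  induction m with
  | zero => simp [cy]
  | succ m ih =>
    rw [cy_succ, ← mul_assoc, ih (by omega) (by omega), mul_assoc,
      rel_comm h hj (by omega) (by omega), mul_assoc]

lemma comm_bs (h : Cox.Rel n f) {j i m q : ℕ} (hj : j < n) (hm : i + m + q ≤ n + 1)
    (hij : j + 1 < i ∨ i + m + q ≤ j) : f j * bs f i m q = bs f i m q * f j := by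
  induction q generalizing i with
  | zero => simp [bs]
  | succ q ih =>
    rw [bs_succ, ← mul_assoc, ih (by omega) (by omega), mul_assoc,
      comm_cy h hj (by omega) (by omega), mul_assoc]

/-- two letters past a block -/
lemma two_cy (h : Cox.Rel n f) {i m : ℕ} (hm : i + m + 1 ≤ n) :
    f i * (cy f (i + 1) m * cy f i m) = (cy f (i + 1) m * cy f i m) * f (i + m) := by
  induction m with
  | zero => simp [cy]
  | succ m ih =>
    have e1 : f (i + 1 + m) * cy f i m = cy f i m * f (i + 1 + m) :=
      comm_cy h (by omega) (by omega) (by omega)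
    have e2 : cy f (i + 1) (m + 1) * cy f i (m + 1) =
        (cy f (i + 1) m * cy f i m) * (f (i + 1 + m) * f (i + m)) := by
      rw [cy_succ, cy_succ, mul_assoc, ← mul_assoc (f (i + 1 + m)), e1]
      simp only [mul_assoc]
    have e3 : i + 1 + m = i + m + 1 := by omega
    have e4 := h.braid (i + m) (by omega)
    rw [e2, ← mul_assoc, ih (by omega), e3, mul_assoc, ← mul_assoc (f (i + m)), e4]
    simp only [mul_assoc]
    rfl

/-- the block swap conjugates the moved letters -/
lemma bs_conj_right (h : Cox.Rel n f) {i m q k : ℕ} (hk : k + 1 < q) (hm : i + m + q ≤ n + 1) :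
    f (i + k) * bs f i m q = bs f i m q * f (i + m + k) := by
  induction q generalizing i k with
  | zero => omega
  | succ q ih =>
    rcases k with _ | k
    · obtain ⟨q, rfl⟩ : ∃ q', q = q' + 1 := ⟨q - 1, by omega⟩
      rw [bs_succ, bs_succ, Nat.add_zero, Nat.add_zero, ← mul_assoc, ← mul_assoc,
        comm_bs h (by omega) (by omega) (by omega), mul_assoc, mul_assoc, two_cy h (by omega)]
      simp only [mul_assoc, Nat.add_zero]
    · have e1 := ih (i := i + 1) (k := k) (by omega) (by omega)
      have e2 : i + (k + 1) = i + 1 + k := by omega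
      have e3 : i + m + (k + 1) = i + 1 + m + k := by omega
      rw [bs_succ, e2, e3, ← mul_assoc, e1, mul_assoc, comm_cy h (by omega) (by omega) (by omega),
        mul_assoc]

/-- a cycle conjugates the other letters -/
lemma cy_conj (h : Cox.Rel n f) {i m k : ℕ} (hk : k + 1 < m) (hm : i + m ≤ n) :
    f (i + 1 + k) * cy f i m = cy f i m * f (i + k) := by
  induction m with
  | zero => omega
  | succ m ih =>
    by_cases hkm : k + 1 < m
    · rw [cy_succ, ← mul_assoc, ih hkm (by omega), mul_assoc, mul_assoc,
        rel_comm h (by omega) (by omega) (Or.inl (by omega))]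
    · obtain rfl : m = k + 1 := by omega
      have e1 : i + 1 + k = i + k + 1 := by omega
      have e3 : i + (k + 1) = i + k + 1 := by omega
      rw [cy_succ, cy_succ, e1, e3, ← mul_assoc, ← mul_assoc,
        comm_cy h (by omega) (by omega) (by omega)]
      have e4 := h.braid (i + k) (by omega)
      rw [mul_assoc, mul_assoc, mul_assoc, mul_assoc, ← mul_assoc (f (i + k + 1)), ← e4]
      simp only [mul_assoc]

/-- the block swap conjugates the letters of the block -/
lemma bs_conj_left (h : Cox.Rel n f) {i m q k : ℕ} (hk : k + 1 < m) (hm : i + m + q ≤ n + 1) :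
    f (i + q + k) * bs f i m q = bs f i m q * f (i + k) := by
  induction q generalizing i with
  | zero => simp [bs]
  | succ q ih =>
    have e1 := ih (i := i + 1) (by omega)
    have e2 : i + (q + 1) + k = i + 1 + q + k := by omega
    rw [bs_succ, e2, ← mul_assoc, e1, mul_assoc, cy_conj h hk (by omega), mul_assoc]

end mon

end Crest.Agent.R187.SN.Br
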