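import Mathlib
import Crest.Agent.R187.SN.Density

/-!
# Row 187, PLAN S: recursion for the number of lattice words (`f^λ`)
-/

set_option autoImplicit false

namespace Crest.Agent.R187.SN

open scoped Classical

variable {r : ℕ}

/-- remove a box in row `a` -/
def sub (κ : Fin r → ℕ) (a : Fin r) : Fin r → ℕ := Function.update κ a (κ a - 1)

lemma add_sub {κ : Fin r → ℕ} {a : Fin r} (h : 0 < κ a) : add (sub κ a) a = κ := by
  funext b
  by_cases hb : b = a
  · subst hb
    rw [add_same]
    simp only [sub, Function.update_self]
    omega
  · rw [add_ne _ hb]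
    simp [sub, hb]

lemma sub_add (κ : Fin r → ℕ) (a : Fin r) : sub (add κ a) a = κ := by
  funext b
  by_cases hb : b = a
  · subst hb
    simp only [sub, Function.update_self]
    rw [add_same]
    omega
  · simp only [sub, ne_eq, hb, not_false_eq_true, Function.update_of_ne]
    rw [add_ne _ hb]

lemma card_LW_zero (lam : Fin r → ℕ) : (LW 0 lam).card = if lam = 0 then 1 else 0 := by
  split_ifs with h
  · rw [Finset.card_eq_one]
    refine ⟨[], ?_⟩
    ext w
    rw [mem_LW, Finset.mem_singleton, List.length_eq_zero_iff]
    constructor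
    · exact fun h => h.1
    · rintro rfl
      refine ⟨rfl, ?_, ?_⟩
      · exact fun _ _ _ => le_rfl
      · rw [h]; rfl
  · rw [Finset.card_eq_zero, Finset.eq_empty_iff_forall_notMem]
    intro w hw
    rw [mem_LW, List.length_eq_zero_iff] at hw
    obtain ⟨rfl, _, h2⟩ := hw
    exact h h2.symm

lemma card_LW_eq_zero {n : ℕ} {lam : Fin r → ℕ} (h : ¬ Antitone lam) : (LW n lam).card = 0 := by
  rw [Finset.card_eq_zero, Finset.eq_empty_iff_forall_notMem]
  intro w hw
  rw [mem_LW] at hw
  apply h
  rw [← hw.2.2]
  exact hw.2.1.sh_anti

/-- recursion for the number of lattice words -/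
theorem card_LW_succ {n : ℕ} {lam : Fin r → ℕ} (hlam : Antitone lam) :
    (LW (n + 1) lam).card = ∑ a : Fin r, if 0 < lam a then (LW n (sub lam a)).card else 0 := by
  have h1 : LW (n + 1) lam = Finset.univ.biUnion fun a : Fin r =>
      if 0 < lam a then (LW n (sub lam a)).image (fun u => u ++ [a]) else ∅ := by
    ext w
    rw [mem_LW, Finset.mem_biUnion]
    constructor
    · rintro ⟨hl, hlat, hsh⟩
      have hne : w ≠ [] := by
        rintro rfl
        simp at hl
      obtain ⟨u, a, rfl⟩ : ∃ u a, w = u ++ [a] := by
        refine ⟨w.dropLast, w.getLast hne, ?_⟩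
        rw [List.dropLast_append_getLast]
      rw [sh_append] at hsh
      rw [lat_append] at hlat
      have hsh' : add (sh 0 u) a = lam := hsh
      refine ⟨a, Finset.mem_univ _, ?_⟩
      have hpos : 0 < lam a := by
        rw [← hsh', add_same]
        omega
      rw [if_pos hpos, Finset.mem_image]
      refine ⟨u, mem_LW.2 ⟨by simpa using hl, hlat.1, ?_⟩, rfl⟩
      rw [← hsh', sub_add]
    · rintro ⟨a, _, ha⟩
      split_ifs at ha with hpos
      · rw [Finset.mem_image] at ha
        obtain ⟨u, hu, rfl⟩ := ha
        rw [mem_LW] at hu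
        have h2 : add (sh 0 u) a = lam := by rw [hu.2.2, add_sub hpos]
        refine ⟨by simp [hu.1], ?_, ?_⟩
        · rw [lat_append]
          refine ⟨hu.2.1, hu.2.1.sh_anti, ?_⟩
          change Antitone (add (sh 0 u) a)
          rw [h2]
          exact hlam
        · rw [sh_append]
          exact h2
      · simp at ha
  rw [h1, Finset.card_biUnion]
  · apply Finset.sum_congr rfl
    intro a _
    split_ifs with h
    · apply Finset.card_image_of_injective
      intro u v huv
      exact List.append_cancel_right huv
    · simp
  · intro a _ b _ hab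
    change Disjoint (if 0 < lam a then Finset.image (fun u => u ++ [a]) (LW n (sub lam a)) else ∅)
      (if 0 < lam b then Finset.image (fun u => u ++ [b]) (LW n (sub lam b)) else ∅)
    rw [Finset.disjoint_left]
    intro w hwa hwb
    split_ifs at hwa with h1
    · split_ifs at hwb with h2
      · rw [Finset.mem_image] at hwa hwb
        obtain ⟨u, _, rfl⟩ := hwa
        obtain ⟨v, _, hv⟩ := hwb
        apply hab
        have := (List.append_inj' hv rfl).2
        simpa using this.symm
      · simp at hwb
    · simp at hwa

end Crest.Agent.R187.SN
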