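import Mathlib
import Crest.Agent.R187.SN.Strip

/-!
# Row 187, PLAN S, block (B): the coefficients of "strip past strip"

`Cw K c κ b v`: the word `v` (letters added to `κ`) is what the letters of the strip `c / b`
become when they are moved past the strip `b / κ`.
-/

set_option autoImplicit false

namespace Crest.Agent.R187.SN.Strip

open Crest.Agent.R187.SN Finset

variable {r : ℕ} {K : Type*} [Field K]

/-- the coefficient of "strip past strip", as a function of the word `v` -/
def Cw (K : Type*) [Field K] (c : Fin r → ℕ) :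
    (Fin r → ℕ) → (Fin r → ℕ) → List (Fin r) → K
  | _, b, [] => if b = c then 1 else 0
  | κ, b, j :: v => ∑ k, if b k < c k then
      Bc K (add b k) κ k j * Cw K c (add κ j) (add b k) v else 0

lemma Cw_nil (c κ b : Fin r → ℕ) : Cw K c κ b [] = if b = c then 1 else 0 := rfl

lemma Cw_cons (c κ b : Fin r → ℕ) (j : Fin r) (v : List (Fin r)) :
    Cw K c κ b (j :: v) = ∑ k, if b k < c k then
      Bc K (add b k) κ k j * Cw K c (add κ j) (add b k) v else 0 := rfl

lemma antitone_add {b c : Fin r → ℕ} (hb : Antitone b) (hH : Hor b c) {k : Fin r}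
    (hk : b k < c k) : Antitone (add b k) := by
  intro x y hxy
  by_cases hy : y = k
  · by_cases hx : x = k
    · rw [hx, hy]
    · subst hy
      rw [add_same, add_ne _ hx]
      have hlt : x < y := lt_of_le_of_ne hxy hx
      have hlt' : (x : ℕ) < y := hlt
      obtain ⟨z, hz⟩ : ∃ z : Fin r, (z : ℕ) + 1 = y := ⟨⟨(y : ℕ) - 1, by omega⟩, by
        simp only
        omega⟩
      have h1 := hH z y hz
      have h2 : b z ≤ b x := hb (by
        change (x : ℕ) ≤ z
        omega)
      omega
  · rw [add_ne _ hy]
    exact (hb hxy).trans (add_mono_le b k x)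

/-! ### permutation invariance -/

section perm

/-- product of the two factors, two different rows -/
lemma two_step_ne (b κ : Fin r → ℕ) {x y j l : Fin r} (hxy : x ≠ y) (hjl : j ≠ l) :
    Bc K (add b x) κ x j * Bc K (add (add b x) y) (add κ j) y l =
      ((cK K b x + 1 - cK K κ l) * (cK K b y + 1 - cK K κ j - 1)) /
        ((cK K b x - cK K b y + 1) * (cK K b y - cK K b x)) *
      ((Pxy K (cK K b x + 1) κ j l * Pxy K (cK K b y + 1) κ j l) /
        (Pxy K (cK K b x + 1) b x y * Pxy K (cK K b y + 1) b x y)) := by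
  have e1 : cK K (add b x) x = cK K b x + 1 := cK_add_same b x
  have e2 : cK K (add (add b x) y) y = cK K b y + 1 := by
    rw [cK_add_same, cK_add_ne _ hxy.symm]
  have n1 : Nn K (add b x) x = (cK K b x - cK K b y + 1) * Pxy K (cK K b x + 1) b x y := by
    unfold Nn
    rw [e1]
    have : ∏ l ∈ univ.erase x, (cK K b x + 1 - cK K (add b x) l) =
        ∏ l ∈ univ.erase x, (cK K b x + 1 - cK K b l) := by
      apply prod_congr rfl
      intro l hl
      rw [cK_add_ne _ (ne_of_mem_erase hl)]
    rw [this, prod_erase_eq _ _ hxy]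
    ring
  have n2 : Nn K (add (add b x) y) y =
      (cK K b y - cK K b x) * Pxy K (cK K b y + 1) b x y := by
    unfold Nn
    rw [e2]
    have : ∏ l ∈ univ.erase y, (cK K b y + 1 - cK K (add (add b x) y) l) =
        ∏ l ∈ univ.erase y, (cK K b y + 1 - cK K (add b x) l) := by
      apply prod_congr rfl
      intro l hl
      rw [cK_add_ne (add b x) (ne_of_mem_erase hl)]
    rw [this, prod_erase_eq _ _ hxy.symm, Pxy_comm, Pxy_add, e1]
    ring
  have b1 : Bc K (add b x) κ x j =
      (cK K b x + 1 - cK K κ l) * Pxy K (cK K b x + 1) κ j l /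
        ((cK K b x - cK K b y + 1) * Pxy K (cK K b x + 1) b x y) := by
    rw [Bc_eq _ _ _ hjl, e1, n1]
  have b2 : Bc K (add (add b x) y) (add κ j) y l =
      (cK K b y + 1 - cK K κ j - 1) * Pxy K (cK K b y + 1) κ j l /
        ((cK K b y - cK K b x) * Pxy K (cK K b y + 1) b x y) := by
    rw [Bc_add_ne _ _ _ hjl, e2, n2]
  rw [b1, b2, div_mul_div_comm, div_mul_div_comm]
  congr 1 <;> ring

/-- product of the two factors, same row -/
lemma two_step_eq (b κ : Fin r → ℕ) (x : Fin r) {j l : Fin r} (hjl : j ≠ l) :
    Bc K (add b x) κ x j * Bc K (add (add b x) x) (add κ j) x l =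
      Bc K (add b x) κ x l * Bc K (add (add b x) x) (add κ l) x j := by
  have e1 : cK K (add b x) x = cK K b x + 1 := cK_add_same b x
  have e2 : cK K (add (add b x) x) x = cK K b x + 1 + 1 := by
    rw [cK_add_same, e1]
  have b1 : Bc K (add b x) κ x j =
      (cK K b x + 1 - cK K κ l) * Pxy K (cK K b x + 1) κ j l / Nn K (add b x) x := by
    rw [Bc_eq _ _ _ hjl, e1]
  have b2 : Bc K (add (add b x) x) (add κ j) x l =
      (cK K b x + 1 + 1 - cK K κ j - 1) * Pxy K (cK K b x + 1 + 1) κ j l /
        Nn K (add (add b x) x) x := by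
    rw [Bc_add_ne _ _ _ hjl, e2]
  have b3 : Bc K (add b x) κ x l =
      (cK K b x + 1 - cK K κ j) * Pxy K (cK K b x + 1) κ j l / Nn K (add b x) x := by
    rw [Bc_eq _ _ _ hjl.symm, e1, Pxy_comm]
  have b4 : Bc K (add (add b x) x) (add κ l) x j =
      (cK K b x + 1 + 1 - cK K κ l - 1) * Pxy K (cK K b x + 1 + 1) κ j l /
        Nn K (add (add b x) x) x := by
    rw [Bc_add_ne _ _ _ hjl.symm, e2, Pxy_comm]
  rw [b1, b2, b3, b4]
  ring

lemma two_sym {X Y u w : K} (h1 : X - Y + 1 ≠ 0) (h2 : Y - X + 1 ≠ 0) (h3 : Y - X ≠ 0) :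
    ((X + 1 - w) * (Y + 1 - u - 1)) / ((X - Y + 1) * (Y - X)) -
      ((X + 1 - u) * (Y + 1 - w - 1)) / ((X - Y + 1) * (Y - X)) +
    (((Y + 1 - w) * (X + 1 - u - 1)) / ((Y - X + 1) * (X - Y)) -
      ((Y + 1 - u) * (X + 1 - w - 1)) / ((Y - X + 1) * (X - Y))) = 0 := by
  have h4 : X - Y ≠ 0 := by
    intro h
    apply h3
    linear_combination -h
  field_simp
  ring

lemma Cw_swap {B : ℕ} (hK : HK K B) {c κ b : Fin r → ℕ} (v : List (Fin r))
    (hB : Bd B b (v.length + 2)) (hb : Antitone b) (hH : Hor b c) (j l : Fin r) :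
    Cw K c κ b (j :: l :: v) = Cw K c κ b (l :: j :: v) := by
  by_cases hjl : j = l
  · rw [hjl]
  -- write as a sum over pairs
  have key : ∀ j l : Fin r, Cw K c κ b (j :: l :: v) =
      ∑ p : Fin r × Fin r, if b p.1 < c p.1 ∧ add b p.1 p.2 < c p.2 then
        Bc K (add b p.1) κ p.1 j * Bc K (add (add b p.1) p.2) (add κ j) p.2 l *
          Cw K c (add (add κ j) l) (add (add b p.1) p.2) v else 0 := by
    intro j l
    rw [Cw_cons, Fintype.sum_prod_type]
    apply sum_congr rfl
    intro x _
    by_cases hx : b x < c x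
    · rw [if_pos hx, Cw_cons, mul_sum]
      apply sum_congr rfl
      intro y _
      by_cases hy : add b x y < c y
      · rw [if_pos hy, if_pos ⟨hx, hy⟩]
        ring
      · rw [if_neg hy, if_neg (fun h => hy h.2), mul_zero]
    · rw [if_neg hx]
      symm
      apply sum_eq_zero
      intro y _
      rw [if_neg (fun h => hx h.1)]
  rw [key j l, key l j, ← sub_eq_zero, ← sum_sub_distrib]
  have hW : ∀ s, Cw K c (add (add κ l) j) s v = Cw K c (add (add κ j) l) s v := by
    intro s
    rw [add_comm']
  apply sum_involution (fun p _ => (p.2, p.1))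
  · rintro ⟨x, y⟩ -
    simp only
    by_cases hxy : x = y
    · subst hxy
      rw [hW, two_step_eq b κ x hjl]
      simp
    · have ex : add b x y = b y := add_ne _ (Ne.symm hxy)
      have ey : add b y x = b x := add_ne _ hxy
      rw [ex, ey]
      by_cases hc : b x < c x ∧ b y < c y
      · rw [if_pos hc, if_pos hc, if_pos hc.symm, if_pos hc.symm, hW, hW, add_comm' b y x]
        have hx : Antitone (add b x) := antitone_add hb hH hc.1
        have hy : Antitone (add b y) := antitone_add hb hH hc.2
        have h1 : cK K b x - cK K b y + 1 ≠ 0 := by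
          have := cK_sub_ne hK (hB.add x) hx (x := y) (y := x) (Ne.symm hxy)
          rw [cK_add_same, cK_add_ne _ (Ne.symm hxy)] at this
          intro h
          apply this
          linear_combination h
        have h2 : cK K b y - cK K b x + 1 ≠ 0 := by
          have := cK_sub_ne hK (hB.add y) hy (x := x) (y := y) hxy
          rw [cK_add_same, cK_add_ne _ hxy] at this
          intro h
          apply this
          linear_combination h
        have h3 : cK K b y - cK K b x ≠ 0 := cK_sub_ne hK hB hb hxy
        have s1 := two_step_ne (K := K) b κ hxy hjl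
        have s2 := two_step_ne (K := K) b κ hxy (Ne.symm hjl)
        have s3 := two_step_ne (K := K) b κ (Ne.symm hxy) hjl
        have s4 := two_step_ne (K := K) b κ (Ne.symm hxy) (Ne.symm hjl)
        rw [Pxy_comm _ κ l j, Pxy_comm _ κ l j] at s2 s4
        rw [Pxy_comm _ b y x, Pxy_comm _ b y x] at s3 s4
        rw [add_comm' b y x] at s3 s4
        rw [s1, s2, s3, s4]
        have h5 := two_sym (X := cK K b x) (Y := cK K b y) (u := cK K κ j) (w := cK K κ l)
          h1 h2 h3
        have e1 : (cK K b x - cK K b y + 1) * (cK K b y - cK K b x) ≠ 0 := mul_ne_zero h1 h3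
        rw [mul_comm (Pxy K (cK K b y + 1) κ j l) (Pxy K (cK K b x + 1) κ j l),
          mul_comm (Pxy K (cK K b y + 1) b x y) (Pxy K (cK K b x + 1) b x y)]
        linear_combination (((Pxy K (cK K b x + 1) κ j l * Pxy K (cK K b y + 1) κ j l) /
          (Pxy K (cK K b x + 1) b x y * Pxy K (cK K b y + 1) b x y)) *
          Cw K c (add (add κ j) l) (add (add b x) y) v) * h5
      · rw [if_neg hc, if_neg hc, if_neg (fun h => hc h.symm), if_neg (fun h => hc h.symm)]
        simp
  · rintro ⟨x, y⟩ - hne heq
    simp only [Prod.mk.injEq] at heq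
    apply hne
    simp only
    obtain ⟨h1, -⟩ := heq
    subst h1
    rw [hW, two_step_eq b κ y hjl, sub_self]
  · intro p _
    exact mem_univ _
  · rintro ⟨x, y⟩ -
    rfl

/-- **(P)** permutation invariance -/
theorem Cw_perm {B : ℕ} (hK : HK K B) {c : Fin r → ℕ} {v v' : List (Fin r)} (h : v.Perm v') :
    ∀ (κ b : Fin r → ℕ), Bd B b v.length → Antitone b → Hor b c →
      Cw K c κ b v = Cw K c κ b v' := by
  induction h with
  | nil => intro κ b _ _ _; rfl
  | cons j h ih =>
    intro κ b hB hb hH
    rw [Cw_cons, Cw_cons]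
    apply sum_congr rfl
    intro k _
    by_cases hk : b k < c k
    · rw [if_pos hk, if_pos hk, ih (add κ j) (add b k) (hB.add k) (antitone_add hb hH hk)
        (hH.add k)]
    · rw [if_neg hk, if_neg hk]
  | swap j l v =>
    intro κ b hB hb hH
    exact Cw_swap hK v hB hb hH l j
  | trans h1 h2 ih1 ih2 =>
    intro κ b hB hb hH
    rw [ih1 κ b hB hb hH, ih2 κ b (by rw [← h1.length_eq]; exact hB) hb hH]

end perm

/-! ### vanishing -/

lemma Bc_zero {lam κ : Fin r → ℕ} {k j s : Fin r} (hs : s ≠ j) (h : ct lam k = ct κ s) :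
    Bc K lam κ k j = 0 := by
  unfold Bc
  rw [prod_eq_zero (i := s) (by simp [hs]), zero_div]
  unfold cK
  rw [h, sub_self]

lemma phaseA (c : Fin r → ℕ) {l l' : Fin r} (hl : (l : ℕ) + 1 = l') (n : ℕ)
    (κ b : Fin r → ℕ) (h1 : b l' < κ l') (h2 : κ l' ≤ c l') :
    Cw K c κ b (List.replicate n l) = 0 := by
  have hne : l' ≠ l := by
    intro h
    rw [h] at hl
    omega
  induction n generalizing κ b with
  | zero =>
    rw [List.replicate_zero, Cw_nil, if_neg]
    intro h
    rw [h] at h1
    omega
  | succ n ih =>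
    rw [List.replicate_succ, Cw_cons]
    apply sum_eq_zero
    intro k _
    by_cases hk : b k < c k
    swap
    · rw [if_neg hk]
    rw [if_pos hk]
    have e : add κ l l' = κ l' := add_ne _ hne
    by_cases hkl : k = l'
    · subst hkl
      by_cases h3 : b k + 1 < κ k
      · rw [ih (add κ l) (add b k) (by rw [add_same, e]; exact h3) (by rw [e]; exact h2),
          mul_zero]
      · rw [Bc_zero (s := k) hne, zero_mul]
        unfold ct
        rw [add_same]
        omega
    · rw [ih (add κ l) (add b k) (by rw [add_ne _ (Ne.symm hkl), e]; exact h1)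
        (by rw [e]; exact h2), mul_zero]

lemma phaseB (c : Fin r → ℕ) {l l' : Fin r} (hl : (l : ℕ) + 1 = l') (n : ℕ)
    (w : List (Fin r)) (hw : l ∉ w) (κ b : Fin r → ℕ) (h1 : b l' ≤ κ l)
    (h2 : κ l + 1 ≤ sh κ w l') (h3 : sh κ w l' ≤ c l') :
    Cw K c κ b (w ++ List.replicate n l) = 0 := by
  induction w generalizing κ b with
  | nil =>
    simp only [sh] at h2 h3
    exact phaseA c hl n κ b (by omega) h3
  | cons j w ih =>
    rw [List.cons_append, Cw_cons]
    have hj : l ≠ j := fun h => hw (by simp [h])
    have hw' : l ∉ w := fun h => hw (by simp [h])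
    have e : add κ j l = κ l := add_ne _ hj
    apply sum_eq_zero
    intro k _
    by_cases hk : b k < c k
    swap
    · rw [if_neg hk]
    rw [if_pos hk]
    by_cases hkl : k = l'
    · subst hkl
      by_cases h4 : b k + 1 ≤ κ l
      · rw [ih hw' (add κ j) (add b k) (by rw [add_same, e]; exact h4)
          (by rw [e]; exact h2) h3, mul_zero]
      · rw [Bc_zero (s := l) hj, zero_mul]
        unfold ct
        rw [add_same]
        omega
    · rw [ih hw' (add κ j) (add b k) (by rw [add_ne _ (Ne.symm hkl), e]; exact h1)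
        (by rw [e]; exact h2) h3, mul_zero]

lemma phase2 (c : Fin r → ℕ) {l l' : Fin r} (hl : (l : ℕ) + 1 = l')
    (w : List (Fin r)) (hw : l ∉ w) (κ b : Fin r → ℕ) (h1 : b l' ≤ κ l) (h2 : κ l < c l') :
    Cw K c κ b w = 0 := by
  induction w generalizing κ b with
  | nil =>
    rw [Cw_nil, if_neg]
    intro h
    rw [h] at h1
    omega
  | cons j w ih =>
    rw [Cw_cons]
    have hj : l ≠ j := fun h => hw (by simp [h])
    have hw' : l ∉ w := fun h => hw (by simp [h])
    have e : add κ j l = κ l := add_ne _ hj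
    apply sum_eq_zero
    intro k _
    by_cases hk : b k < c k
    swap
    · rw [if_neg hk]
    rw [if_pos hk]
    by_cases hkl : k = l'
    · subst hkl
      by_cases h4 : b k + 1 ≤ κ l
      · rw [ih hw' (add κ j) (add b k) (by rw [add_same, e]; exact h4)
          (by rw [e]; exact h2), mul_zero]
      · rw [Bc_zero (s := l) hj, zero_mul]
        unfold ct
        rw [add_same]
        omega
    · rw [ih hw' (add κ j) (add b k) (by rw [add_ne _ (Ne.symm hkl), e]; exact h1)
        (by rw [e]; exact h2), mul_zero]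

lemma phase1 (c : Fin r → ℕ) {l l' : Fin r} (hl : (l : ℕ) + 1 = l') (n : ℕ)
    (w : List (Fin r)) (hw : l ∉ w) (κ b : Fin r → ℕ) (h1 : b l' ≤ κ l)
    (h2 : κ l + n < c l') :
    Cw K c κ b (List.replicate n l ++ w) = 0 := by
  induction n generalizing κ b with
  | zero =>
    rw [List.replicate_zero, List.nil_append]
    exact phase2 c hl w hw κ b h1 (by omega)
  | succ n ih =>
    rw [List.replicate_succ, List.cons_append, Cw_cons]
    apply sum_eq_zero
    intro k _
    by_cases hk : b k < c k
    swap
    · rw [if_neg hk]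
    rw [if_pos hk, ih (add κ l) (add b k) ?_ ?_, mul_zero]
    · rw [add_same]
      by_cases hkl : l' = k
      · subst hkl
        rw [add_same]
        omega
      · rw [add_ne _ hkl]
        omega
    · rw [add_same]
      omega

lemma sh_eq_count (κ : Fin r → ℕ) (w : List (Fin r)) (l : Fin r) :
    sh κ w l = κ l + w.count l := by
  induction w generalizing κ with
  | nil => simp [sh]
  | cons a t ih =>
    simp only [sh]
    rw [ih, List.count_cons]
    by_cases h : a = l
    · subst h
      rw [add_same]
      simp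
      omega
    · rw [add_ne _ (Ne.symm h)]
      simp [h]

lemma sh_perm {κ : Fin r → ℕ} {v v' : List (Fin r)} (h : v.Perm v') : sh κ v = sh κ v' := by
  funext l
  rw [sh_eq_count, sh_eq_count, h.count_eq]

lemma perm_filter (v : List (Fin r)) (l : Fin r) :
    v.Perm (v.filter (fun x => x ≠ l) ++ List.replicate (v.count l) l) := by
  rw [List.perm_iff_count]
  intro a
  rw [List.count_append]
  by_cases h : a = l
  · subst h
    have h0 : (v.filter (fun x => x ≠ a)).count a = 0 := by
      apply List.count_eq_zero.2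
      intro h
      simp at h
    rw [List.count_replicate_self, h0, zero_add]
  · rw [List.count_replicate, if_neg (by simpa using Ne.symm h), add_zero,
      List.count_filter (by simpa using h)]

/-- **(V1)** the coefficient vanishes if `sh κ v / κ` is not a horizontal strip -/
theorem Cw_eq_zero_of_not_hor {B : ℕ} (hK : HK K B) {c κ b : Fin r → ℕ} {v : List (Fin r)}
    (hB : Bd B b v.length) (hb : Antitone b) (hκb : Hor κ b) (hbc : Hor b c)
    (hv : ¬ Hor κ (sh κ v)) (hc : ∀ l, sh κ v l ≤ c l) : Cw K c κ b v = 0 := by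
  unfold Hor at hv
  push Not at hv
  obtain ⟨l, l', hl, hlt⟩ := hv
  have hp := perm_filter v l
  rw [Cw_perm hK hp κ b hB hb hbc]
  apply phaseB c hl _ _ (by simp) κ b (hκb l l' hl)
  · have e : sh κ (v.filter (fun x => x ≠ l)) l' = sh κ v l' := by
      rw [sh_eq_count, sh_eq_count, List.count_filter]
      have hne : l' ≠ l := by
        intro h
        rw [h] at hl
        omega
      simpa using hne
    rw [e]
    exact hlt
  · have e : sh κ (v.filter (fun x => x ≠ l)) l' = sh κ v l' := by
      rw [sh_eq_count, sh_eq_count, List.count_filter]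
      have hne : l' ≠ l := by
        intro h
        rw [h] at hl
        omega
      simpa using hne
    rw [e]
    exact hc l'

/-- **(V2)** the coefficient vanishes if `c / sh κ v` is not a horizontal strip -/
theorem Cw_eq_zero_of_not_hor' {B : ℕ} (hK : HK K B) {c κ b : Fin r → ℕ} {v : List (Fin r)}
    (hB : Bd B b v.length) (hb : Antitone b) (hκb : Hor κ b) (hbc : Hor b c)
    (hv : ¬ Hor (sh κ v) c) : Cw K c κ b v = 0 := by
  unfold Hor at hv
  push Not at hv
  obtain ⟨l, l', hl, hlt⟩ := hv
  have hp : v.Perm (List.replicate (v.count l) l ++ v.filter (fun x => x ≠ l)) :=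
    (perm_filter v l).trans List.perm_append_comm
  rw [Cw_perm hK hp κ b hB hb hbc]
  apply phase1 c hl _ _ (by simp) κ b (hκb l l' hl)
  rw [sh_eq_count] at hlt
  exact hlt

end Crest.Agent.R187.SN.Strip
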