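import Mathlib
import Crest.Agent.R187.SN.TopSem

/-!
# Row 187, PLAN S: the spaces `Spec.D K a b lam` are finite-dimensional
-/

set_option autoImplicit false

namespace Crest.Agent.R187.SN.DFin

open Crest.Agent.R187.SN Crest.Agent.R187.SN.Spec

variable {K : Type*} [Field K]

/-- `Mop` as a linear map -/
def mopL (b a : ℕ) (κ lam : Sh) : (List Sh → K) →ₗ[K] (List Sh → K) where
  toFun x := Mop K b a κ lam x
  map_add' x y := Top.Mop_add b a κ lam x y
  map_smul' c x := Top.Mop_smul b a κ lam c x

@[simp] theorem mopL_apply (b a : ℕ) (κ lam : Sh) (x : List Sh → K) :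
    mopL b a κ lam x = Mop K b a κ lam x := rfl

theorem mem_below {κ lam : Sh} {m : ℕ} (h : HS κ lam m) : κ ∈ below lam := by
  unfold below
  rw [Fintype.mem_piFinset]
  intro i
  rw [Finset.mem_range]
  have := h.1 i
  omega

theorem D_le (a b : ℕ) (lam : Sh) :
    D K a (b + 1) lam ≤ (below lam).sup (fun κ => (D K a b κ).map (mopL (b + 1) a κ lam)) := by
  show Submodule.span K _ ≤ _
  rw [Submodule.span_le]
  rintro y ⟨κ, hκ, x, hx, rfl⟩
  have h1 : (D K a b κ).map (mopL (b + 1) a κ lam)
      ≤ (below lam).sup (fun κ => (D K a b κ).map (mopL (b + 1) a κ lam)) :=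
    Finset.le_sup (f := fun κ => (D K a b κ).map (mopL (b + 1) a κ lam)) (mem_below hκ)
  exact h1 ⟨x, hx, rfl⟩

/-- the spaces `D` are finite-dimensional -/
theorem D_finite (a : ℕ) : ∀ (b : ℕ) (lam : Sh), Module.Finite K (D K a b lam) := by
  intro b
  induction b with
  | zero =>
    intro lam
    by_cases h : lam = 0
    · have h1 : D K a 0 lam = Submodule.span K {x0 K a} := by
        show (if lam = 0 then Submodule.span K {x0 K a} else ⊥) = _
        rw [if_pos h]
      rw [h1]
      exact Module.Finite.span_singleton K _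
    · have h1 : D K a 0 lam = ⊥ := by
        show (if lam = 0 then Submodule.span K {x0 K a} else ⊥) = _
        rw [if_neg h]
      rw [h1]
      infer_instance
  | succ b ih =>
    intro lam
    have h1 : ∀ κ, Module.Finite K ((D K a b κ).map (mopL (b + 1) a κ lam)) := by
      intro κ
      have := ih κ
      infer_instance
    have h2 : FiniteDimensional K
        ((below lam).sup (fun κ => (D K a b κ).map (mopL (b + 1) a κ lam)) :
          Submodule K (List Sh → K)) :=
      Submodule.finiteDimensional_finset_sup _ _
    exact Submodule.finiteDimensional_of_le (D_le a b lam)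

end Crest.Agent.R187.SN.DFin
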