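import Crest.Agent.R187.SN.RelStep
import Crest.Agent.R187.SN.KC.All

/-!
# Row 187, PLAN S, block E2: THE RELATIONS OF ALL LEVELS `(a, b)`, `a ≤ 5`, `b ≤ 6`
-/

set_option autoImplicit false

namespace Crest.Agent.R187.SN.Inst

open Crest.Agent.R187.SN Crest.Agent.R187.SN.Spec Crest.Agent.R187.SN.Kern
open Crest.Agent.R187.SN.KKey Crest.Agent.R187.SN.KD Crest.Agent.R187.SN.KE
open Crest.Agent.R187.SN.KRel Crest.Agent.R187.SN.KDec Crest.Agent.R187.SN.Img
open Crest.Agent.R187.SN.KC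

theorem relAll_0_0 : RelAll T (MT 0 0) 0 0 := rel_base (by norm_num)

theorem relAll_0_1 : RelAll T (MT 0 1) 0 1 := rel_base (by norm_num)

theorem relAll_0_2 : RelAll T (MT 0 2) 0 2 := rel_base (by norm_num)

theorem relAll_0_3 : RelAll T (MT 0 3) 0 3 := rel_base (by norm_num)

theorem relAll_0_4 : RelAll T (MT 0 4) 0 4 := rel_base (by norm_num)

theorem relAll_0_5 : RelAll T (MT 0 5) 0 5 := rel_base (by norm_num)

theorem relAll_0_6 : RelAll T (MT 0 6) 0 6 := rel_base (by norm_num)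

theorem relAll_1_0 : RelAll T (MT 1 0) 1 0 :=
  rel_step (a := 0) (b := 0) (by norm_num) (by norm_num) (by decide +kernel) SV_1_1 K_1_0 relAll_0_0

theorem relAll_1_1 : RelAll T (MT 1 1) 1 1 :=
  rel_step (a := 0) (b := 1) (by norm_num) (by norm_num) (by decide +kernel) SV_1_2 K_1_1 relAll_0_1

theorem relAll_1_2 : RelAll T (MT 1 2) 1 2 :=
  rel_step (a := 0) (b := 2) (by norm_num) (by norm_num) (by decide +kernel) SV_1_3 K_1_2 relAll_0_2

theorem relAll_1_3 : RelAll T (MT 1 3) 1 3 :=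
  rel_step (a := 0) (b := 3) (by norm_num) (by norm_num) (by decide +kernel) SV_1_4 K_1_3 relAll_0_3

theorem relAll_1_4 : RelAll T (MT 1 4) 1 4 :=
  rel_step (a := 0) (b := 4) (by norm_num) (by norm_num) (by decide +kernel) SV_1_5 K_1_4 relAll_0_4

theorem relAll_1_5 : RelAll T (MT 1 5) 1 5 :=
  rel_step (a := 0) (b := 5) (by norm_num) (by norm_num) (by decide +kernel) SV_1_6 K_1_5 relAll_0_5

theorem relAll_1_6 : RelAll T (MT 1 6) 1 6 :=
  rel_step (a := 0) (b := 6) (by norm_num) (by norm_num) (by decide +kernel) SV_1_7 K_1_6 relAll_0_6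

theorem relAll_2_0 : RelAll T (MT 2 0) 2 0 :=
  rel_step (a := 1) (b := 0) (by norm_num) (by norm_num) (by decide +kernel) SV_2_1 K_2_0 relAll_1_0

theorem relAll_2_1 : RelAll T (MT 2 1) 2 1 :=
  rel_step (a := 1) (b := 1) (by norm_num) (by norm_num) (by decide +kernel) SV_2_2 K_2_1 relAll_1_1

theorem relAll_2_2 : RelAll T (MT 2 2) 2 2 :=
  rel_step (a := 1) (b := 2) (by norm_num) (by norm_num) (by decide +kernel) SV_2_3 K_2_2 relAll_1_2

theorem relAll_2_3 : RelAll T (MT 2 3) 2 3 :=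
  rel_step (a := 1) (b := 3) (by norm_num) (by norm_num) (by decide +kernel) SV_2_4 K_2_3 relAll_1_3

theorem relAll_2_4 : RelAll T (MT 2 4) 2 4 :=
  rel_step (a := 1) (b := 4) (by norm_num) (by norm_num) (by decide +kernel) SV_2_5 K_2_4 relAll_1_4

theorem relAll_2_5 : RelAll T (MT 2 5) 2 5 :=
  rel_step (a := 1) (b := 5) (by norm_num) (by norm_num) (by decide +kernel) SV_2_6 K_2_5 relAll_1_5

theorem relAll_2_6 : RelAll T (MT 2 6) 2 6 :=
  rel_step (a := 1) (b := 6) (by norm_num) (by norm_num) (by decide +kernel) SV_2_7 K_2_6 relAll_1_6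

theorem relAll_3_0 : RelAll T (MT 3 0) 3 0 :=
  rel_step (a := 2) (b := 0) (by norm_num) (by norm_num) (by decide +kernel) SV_3_1 K_3_0 relAll_2_0

theorem relAll_3_1 : RelAll T (MT 3 1) 3 1 :=
  rel_step (a := 2) (b := 1) (by norm_num) (by norm_num) (by decide +kernel) SV_3_2 K_3_1 relAll_2_1

theorem relAll_3_2 : RelAll T (MT 3 2) 3 2 :=
  rel_step (a := 2) (b := 2) (by norm_num) (by norm_num) (by decide +kernel) SV_3_3 K_3_2 relAll_2_2

theorem relAll_3_3 : RelAll T (MT 3 3) 3 3 :=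
  rel_step (a := 2) (b := 3) (by norm_num) (by norm_num) (by decide +kernel) SV_3_4 K_3_3 relAll_2_3

theorem relAll_3_4 : RelAll T (MT 3 4) 3 4 :=
  rel_step (a := 2) (b := 4) (by norm_num) (by norm_num) (by decide +kernel) SV_3_5 K_3_4 relAll_2_4

theorem relAll_3_5 : RelAll T (MT 3 5) 3 5 :=
  rel_step (a := 2) (b := 5) (by norm_num) (by norm_num) (by decide +kernel) SV_3_6 K_3_5 relAll_2_5

theorem relAll_3_6 : RelAll T (MT 3 6) 3 6 :=
  rel_step (a := 2) (b := 6) (by norm_num) (by norm_num) (by decide +kernel) SV_3_7 K_3_6 relAll_2_6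

theorem relAll_4_0 : RelAll T (MT 4 0) 4 0 :=
  rel_step (a := 3) (b := 0) (by norm_num) (by norm_num) (by decide +kernel) SV_4_1 K_4_0 relAll_3_0

theorem relAll_4_1 : RelAll T (MT 4 1) 4 1 :=
  rel_step (a := 3) (b := 1) (by norm_num) (by norm_num) (by decide +kernel) SV_4_2 K_4_1 relAll_3_1

theorem relAll_4_2 : RelAll T (MT 4 2) 4 2 :=
  rel_step (a := 3) (b := 2) (by norm_num) (by norm_num) (by decide +kernel) SV_4_3 K_4_2 relAll_3_2

theorem relAll_4_3 : RelAll T (MT 4 3) 4 3 :=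
  rel_step (a := 3) (b := 3) (by norm_num) (by norm_num) (by decide +kernel) SV_4_4 K_4_3 relAll_3_3

theorem relAll_4_4 : RelAll T (MT 4 4) 4 4 :=
  rel_step (a := 3) (b := 4) (by norm_num) (by norm_num) (by decide +kernel) SV_4_5 K_4_4 relAll_3_4

theorem relAll_4_5 : RelAll T (MT 4 5) 4 5 :=
  rel_step (a := 3) (b := 5) (by norm_num) (by norm_num) (by decide +kernel) SV_4_6 K_4_5 relAll_3_5

theorem relAll_4_6 : RelAll T (MT 4 6) 4 6 :=
  rel_step (a := 3) (b := 6) (by norm_num) (by norm_num) (by decide +kernel) SV_4_7 K_4_6 relAll_3_6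

theorem relAll_5_0 : RelAll T (MT 5 0) 5 0 :=
  rel_step (a := 4) (b := 0) (by norm_num) (by norm_num) (by decide +kernel) SV_5_1 K_5_0 relAll_4_0

theorem relAll_5_1 : RelAll T (MT 5 1) 5 1 :=
  rel_step (a := 4) (b := 1) (by norm_num) (by norm_num) (by decide +kernel) SV_5_2 K_5_1 relAll_4_1

theorem relAll_5_2 : RelAll T (MT 5 2) 5 2 :=
  rel_step (a := 4) (b := 2) (by norm_num) (by norm_num) (by decide +kernel) SV_5_3 K_5_2 relAll_4_2

theorem relAll_5_3 : RelAll T (MT 5 3) 5 3 :=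
  rel_step (a := 4) (b := 3) (by norm_num) (by norm_num) (by decide +kernel) SV_5_4 K_5_3 relAll_4_3

theorem relAll_5_4 : RelAll T (MT 5 4) 5 4 :=
  rel_step (a := 4) (b := 4) (by norm_num) (by norm_num) (by decide +kernel) SV_5_5 K_5_4 relAll_4_4

theorem relAll_5_5 : RelAll T (MT 5 5) 5 5 :=
  rel_step (a := 4) (b := 5) (by norm_num) (by norm_num) (by decide +kernel) SV_5_6 K_5_5 relAll_4_5

theorem relAll_5_6 : RelAll T (MT 5 6) 5 6 :=
  rel_step (a := 4) (b := 6) (by norm_num) (by norm_num) (by decide +kernel) SV_5_7 K_5_6 relAll_4_6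

end Crest.Agent.R187.SN.Inst
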