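import Crest.Agent.R187.SN.TopF
import Crest.Agent.R187.SN.Img
import Crest.Agent.R187.SN.TD.Base

/-!
# Row 187, PLAN S, block E3 (level `a = 6`): the forward step, definitions

`fwdChk b1 ks f` : kernel check of a record `f : Fwd` (all vectors of `f.out` are images of the
first `t` vectors of the sources); `b1` = number of columns of `f.out`, `ks` = all shapes of level
`(5, b1)` with nonzero multiplicity (base 64, strictly decreasing).
`WtOk T M b w` : what must be known about a `W` table of level `(5, b) → (5, b+1)`.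
`Has6 T b t` : the table `t` consists of coordinates of elements of `Spec.D 6 b (shp t.key)`.
-/

set_option autoImplicit false

namespace Crest.Agent.R187.SN.Fwd

noncomputable section

open Crest.Agent.R187.SN Crest.Agent.R187.SN.Spec Crest.Agent.R187.SN.Img
open Crest.Agent.R187.SN.Top Crest.Agent.R187.SN.Kern

/-! ### kernel functions -/

/-- evaluate `n` before it is used -/
def force {α : Type} (n : ℕ) (f : ℕ → α) : α :=
  Nat.rec (motive := fun _ => α) (f 0) (fun m _ => f (Nat.succ m)) n

/-- `buildQ` with evaluated tables, continuation passing -/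
def buildF {α : Type} (Q : List (ℕ × ℕ)) : (List (ℕ × ℕ) → α) → α :=
  List.rec (motive := fun _ => (List (ℕ × ℕ) → α) → α) (fun c => c [])
    (fun e _ ih c => force (mkT e.2) (fun T => ih (fun L => c ((e.1, T) :: L)))) Q

/-- drop the entries with key `> k` -/
def vdrop (k : ℕ) (e : VE) : VE :=
  VE.rec (motive := fun _ => VE) VE.nil
    (fun key x t ih => Bool.rec (motive := fun _ => VE) (VE.cons key x t) ih
      (Nat.ble (Nat.succ k) key)) e

/-- the list of pairs (scalar, product of blocks) -/
def terms (Q : List (ℕ × ℕ)) (t n : ℕ) (we : WE) : VE → List (ℕ × ℕ) :=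
  WE.rec (motive := fun _ => VE → List (ℕ × ℕ)) (fun _ => [])
    (fun key cs K x _ ih ve =>
      VE.rec (motive := fun _ => List (ℕ × ℕ)) []
        (fun key' x' t' _ => Bool.rec (motive := fun _ => List (ℕ × ℕ)) (ih (VE.cons key' x' t'))
          ((fq5 Q cs, mul 24 7 33 t n x' x K) :: ih t') (Nat.beq key' key))
        (vdrop key ve)) we

/-- coordinates (frame of `λ'`) of the images of the first `t` rows of `ve` -/
def block (Q : List (ℕ × ℕ)) (t : ℕ) (w : WT) (ve : VE) : ℕ :=
  lin 24 7 33 t (WT.n w) (terms Q t (WT.n w) (WT.ent w) ve)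

/-- one source (rows `o, …, o + t - 1` of the output), all `λ'` -/
def blocks (Q : List (ℕ × ℕ)) (t o : ℕ) (ve : VE) (ws : List WT) : VE → Bool :=
  List.rec (motive := fun _ => VE → Bool) (fun _ => true)
    (fun w _ ih e => VE.rec (motive := fun _ => Bool) true
      (fun _ x tl _ => andB (eqM 24 7 33 t (WT.n w) (Kern.sub 24 33 o 0 x) (block Q t w ve))
        (ih tl)) e) ws

/-- one source -/
def srcChk (lam : ℕ) (ent : VE) (ws : List WT) (s : FSrc) (o : ℕ) : Bool :=
  andB (quadChk (VT.key (FSrc.tab s)) lam 6 (FSrc.quad s))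
    (andB (Nat.ble (FSrc.t s) (VT.n (FSrc.tab s)))
      (buildF (FSrc.quad s) (fun Q => blocks Q (FSrc.t s) o (VT.ent (FSrc.tab s)) ws ent)))

/-- all sources, `o` = current row -/
def srcsChk (lam n : ℕ) (ent : VE) (ws : List WT) (src : List FSrc) : ℕ → Bool :=
  List.rec (motive := fun _ => ℕ → Bool) (fun o => Nat.beq o n)
    (fun s _ ih o => andB (srcChk lam ent ws s o) (ih (Nat.add o (FSrc.t s)))) src

/-- the keys of `e` are exactly the elements `k` of `ks` with `HS (shp k) (shp lam) b1`, in order -/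
def cmplChk (lam b1 : ℕ) (ks : List ℕ) : VE → Bool :=
  List.rec (motive := fun _ => VE → Bool) (fun e => VE.rec (motive := fun _ => Bool) true
      (fun _ _ _ _ => false) e)
    (fun k _ ih e => Bool.rec (motive := fun _ => Bool) (ih e)
      (VE.rec (motive := fun _ => Bool) false (fun key _ tl _ => andB (Nat.beq key k) (ih tl)) e)
      (hsChk k lam b1)) ks

/-- the keys of `e` are the keys of `ws`; all slots of the blocks are `< 128` -/
def slotsChk (n : ℕ) (ws : List WT) : VE → Bool :=
  List.rec (motive := fun _ => VE → Bool) (fun e => VE.rec (motive := fun _ => Bool) true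
      (fun _ _ _ _ => false) e)
    (fun w _ ih e => VE.rec (motive := fun _ => Bool) false
      (fun key x tl _ => andB (Nat.beq (WT.key w) key)
        (andB (goodChk 24 7 33 n (WT.n w) x) (ih tl))) e) ws

/-- **kernel check of a forward step** to `b1` columns -/
def fwdChk (b1 : ℕ) (ks : List ℕ) (f : Fwd) : Bool :=
  andB (cmplChk (VT.key (Fwd.out f)) b1 ks (VT.ent (Fwd.out f)))
    (andB (slotsChk (VT.n (Fwd.out f)) (Fwd.ws f) (VT.ent (Fwd.out f)))
      (srcsChk (VT.key (Fwd.out f)) (VT.n (Fwd.out f)) (VT.ent (Fwd.out f)) (Fwd.ws f)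
        (Fwd.src f) 0))

/-! ### semantics -/

/-- the block of the shape `κ'` (zero if not listed) -/
def vx (e : VE) (κ' : Sh) : ℕ :=
  VE.rec (motive := fun _ => ℕ) 0 (fun key x _ ih => if shp key = κ' then x else ih) e

/-- `P key x` for all entries -/
def AllV (P : ℕ → ℕ → Prop) (e : VE) : Prop :=
  VE.rec (motive := fun _ => Prop) True (fun key x _ ih => P key x ∧ ih) e

/-- `P key cs K x` for all entries -/
def AllW (P : ℕ → ℕ → ℕ → ℕ → Prop) (e : WE) : Prop :=
  WE.rec (motive := fun _ => Prop) True (fun key cs K x _ ih => P key cs K x ∧ ih) e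

/-- keys -/
def vkeys (e : VE) : List ℕ :=
  VE.rec (motive := fun _ => List ℕ) [] (fun key _ _ ih => key :: ih) e

/-- keys -/
def wkeys (e : WE) : List ℕ :=
  WE.rec (motive := fun _ => List ℕ) [] (fun key _ _ _ _ ih => key :: ih) e

/-- the equation lemma of `wkeys` is generated here once -/
theorem wkeys_touch : True := by
  have _h1 := @wkeys.eq_1
  trivial

/-- static properties of a `V` table -/
structure VtOk (e : VE) : Prop where
  /-- strictly decreasing keys -/
  sorted : (vkeys e).Pairwise (fun x y => y < x)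
  /-- keys `< 64^6` -/
  lt : ∀ k ∈ vkeys e, k < 68719476736
  /-- reduced slots -/
  slots : AllV (fun _ x => ∀ n, slot 24 x n < 2 ^ 7) e

/-- what must be known about a `W` table of level `(5, b) → (5, b+1)` -/
structure WtOk (T : Tab (ZMod 127)) (M : Sh → Sh → ℕ → ℕ → ZMod 127) (b : ℕ) (w : WT) : Prop where
  /-- number of columns -/
  n_eq : w.n = T.m 5 (b + 1) (shp w.key)
  /-- at most `33` columns -/
  n_le : w.n ≤ 33
  /-- the key -/
  key_lt : w.key < 68719476736
  /-- the shape is small -/
  bd : ∀ i, shp w.key i ≤ 42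
  /-- strictly decreasing keys -/
  sorted : (wkeys w.ent).Pairwise (fun x y => y < x)
  /-- the entries -/
  ent : AllW (fun key cs K x => key < 68719476736 ∧ HS (shp key) (shp w.key) 5 ∧
    cs = csN key w.key ∧ K = T.m 5 b (shp key) ∧ K ≤ 33 ∧ (∀ n, slot 24 x n < 2 ^ 7) ∧
    ∀ l < K, ∀ j < w.n, ((slot 24 x (33 * l + j) : ℕ) : ZMod 127)
      = M (shp key) (shp w.key) l j) w.ent
  /-- all strips with nonzero multiplicity are listed -/
  compl : ∀ κ', HS κ' (shp w.key) 5 → T.m 5 b κ' ≠ 0 → ∃ k ∈ wkeys w.ent, shp k = κ'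
  /-- at most `1024` entries -/
  len : (wkeys w.ent).length ≤ 1024

/-- index of the shapes with nonzero multiplicity at level `(5, b)` -/
structure KsOk (T : Tab (ZMod 127)) (b : ℕ) (ks : List ℕ) : Prop where
  /-- strictly decreasing -/
  sorted : ks.Pairwise (fun x y => y < x)
  /-- keys `< 64^6` -/
  lt : ∀ k ∈ ks, k < 68719476736
  /-- completeness -/
  compl : ∀ κ', T.m 5 b κ' ≠ 0 → ∃ k ∈ ks, shp k = κ'

/-- the rows of the table `t` are the coordinates of elements of `D 6 b (shp t.key)` -/
def Has6 (T : Tab (ZMod 127)) (b : ℕ) (t : VT) : Prop :=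
  VtOk t.ent ∧ ∃ x : ℕ → List Sh → ZMod 127, ∀ r < t.n,
    x r ∈ Spec.D (ZMod 127) 6 b (shp t.key) ∧
    Coord T 5 b (fun κ' l => ((slot 24 (vx t.ent κ') (33 * r + l) : ℕ) : ZMod 127)) (x r)

end

end Crest.Agent.R187.SN.Fwd
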