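import Crest.Agent.R187.SN.KKey

/-!
# Row 187, PLAN S, block E2: the scalars `pc`, `psi` on keys, `p = 127`

`gt l` : table (48 slots of 8 bits) of the values `G_λ(y - 5)`, `0 ≤ y < 48`.
`cl k m` : list of `content + 5` of the boxes of `μ / κ`.
`pcL g L` : product of the table values mod `127`.
-/

set_option autoImplicit false

namespace Crest.Agent.R187.SN.KKey

open Crest.Agent.R187.SN Crest.Agent.R187.SN.Spec Crest.Agent.R187.SN.Kern
open Crest.Agent.R187.SN.Gen Polynomial

instance fact127 : Fact (Nat.Prime 127) := ⟨by norm_num⟩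

/-- one factor `y + 127 - (λ_r + r)` -/
def gf (l y r : ℕ) : ℕ := Nat.sub (Nat.add y 127) (Nat.add (slot 7 l r) r)

/-- `G_λ(y - 5) mod 127` -/
def gv (l y : ℕ) : ℕ :=
  Nat.mod (Nat.mul (Nat.mul (Nat.mul (Nat.mul (gf l y 0) (gf l y 1)) (gf l y 2)) (gf l y 3))
    (gf l y 4)) 127

/-- the table of `G_λ` -/
def gt (l : ℕ) : ℕ :=
  Nat.rec 0 (fun y ih => Nat.add (Nat.shiftLeft (gv l y) (Nat.mul 8 y)) ih) 48

theorem gt_aux (l : ℕ) : ∀ n : ℕ,
    (Nat.rec 0 (fun y ih => Nat.add (Nat.shiftLeft (gv l y) (Nat.mul 8 y)) ih) n : ℕ)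
      = (∑ y ∈ Finset.range n, monomial y (gv l y) : ℕ[X]).eval (2 ^ 8) := by
  intro n
  induction n with
  | zero => simp
  | succ n ih =>
    have h : ∀ (u : ℕ), Nat.add (Nat.shiftLeft (gv l n) (Nat.mul 8 n)) u
        = u + gv l n * (2 ^ 8) ^ n := by
      intro u
      show gv l n <<< (8 * n) + u = _
      rw [Nat.shiftLeft_eq, pow_mul, add_comm]
    rw [Finset.sum_range_succ, eval_add, eval_monomial, ← ih]
    exact h _

theorem slot_gt (l : ℕ) {y : ℕ} (hy : y < 48) : slot 8 (gt l) y = gv l y := by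
  have hc : ∀ j, (∑ y ∈ Finset.range 48, monomial y (gv l y) : ℕ[X]).coeff j
      = if j < 48 then gv l j else 0 := by
    intro j
    rw [finsetSum_coeff]
    simp only [coeff_monomial]
    rw [Finset.sum_ite_eq']
    simp only [Finset.mem_range]
  unfold gt
  rw [gt_aux, slot_eval, hc, if_pos hy]
  intro j
  rw [hc]
  split_ifs
  · exact (Nat.mod_lt _ (by norm_num)).trans (by norm_num)
  · norm_num

theorem cast_gf {l : ℕ} (hl : Val l) (y r : ℕ) (hr : r ≤ 4) :
    ((gf l y r : ℕ) : ZMod 127) = ((y : ℤ) - (slot 7 l r + r : ℕ) : ℤ) := by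
  have h1 := hl.slot_lt r
  show ((y + 127 - (slot 7 l r + r) : ℕ) : ZMod 127) = _
  rw [Nat.cast_sub (by omega), Nat.cast_add]
  have : ((127 : ℕ) : ZMod 127) = 0 := ZMod.natCast_self 127
  rw [this]
  push_cast
  ring

theorem cast_gv {l : ℕ} (hl : Val l) (y : ℕ) :
    ((gv l y : ℕ) : ZMod 127) = Gen.ge (ZMod 127) (sh7 l) ((y : ℤ) - 5) := by
  unfold gv
  rw [show ∀ u : ℕ, ((Nat.mod u 127 : ℕ) : ZMod 127) = (u : ZMod 127) from
    fun u => ZMod.natCast_mod u 127]
  show ((gf l y 0 * gf l y 1 * gf l y 2 * gf l y 3 * gf l y 4 : ℕ) : ZMod 127) = _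
  rw [Nat.cast_mul, Nat.cast_mul, Nat.cast_mul, Nat.cast_mul, cast_gf hl y 0 (by norm_num),
    cast_gf hl y 1 (by norm_num), cast_gf hl y 2 (by norm_num), cast_gf hl y 3 (by norm_num),
    cast_gf hl y 4 (by norm_num)]
  unfold Gen.ge
  have he : (Finset.univ.erase (0 : Fin 6)) = {1, 2, 3, 4, 5} := by decide
  rw [he]
  have c1 : ((y : ℤ) - 5 - ct (sh7 l) 1) = (y : ℤ) - (slot 7 l 4 + 4 : ℕ) := by
    unfold ct; show _ = _; simp [sh7]; ring
  have c2 : ((y : ℤ) - 5 - ct (sh7 l) 2) = (y : ℤ) - (slot 7 l 3 + 3 : ℕ) := by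
    unfold ct; show _ = _; simp [sh7]; ring
  have c3 : ((y : ℤ) - 5 - ct (sh7 l) 3) = (y : ℤ) - (slot 7 l 2 + 2 : ℕ) := by
    unfold ct; show _ = _; simp [sh7]; ring
  have c4 : ((y : ℤ) - 5 - ct (sh7 l) 4) = (y : ℤ) - (slot 7 l 1 + 1 : ℕ) := by
    unfold ct; show _ = _; simp [sh7]; ring
  have c5 : ((y : ℤ) - 5 - ct (sh7 l) 5) = (y : ℤ) - (slot 7 l 0 + 0 : ℕ) := by
    unfold ct; show _ = _; simp [sh7]
  rw [Finset.prod_insert (by decide), Finset.prod_insert (by decide),
    Finset.prod_insert (by decide), Finset.prod_insert (by decide), Finset.prod_singleton,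
    c1, c2, c3, c4, c5]
  ring

/-! ### lists of contents -/

/-- `start, …, start + n - 1` in front of `tail` -/
def clRow (start n : ℕ) (tail : List ℕ) : List ℕ :=
  Nat.rec tail (fun s ih => List.cons (Nat.add start s) ih) n

/-- `content + 5` of all boxes of `μ / κ` -/
def cl (k m : ℕ) : List ℕ :=
  Nat.rec List.nil (fun r ih => clRow (Nat.add (slot 7 k r) r)
    (Nat.sub (slot 7 m r) (slot 7 k r)) ih) 6

/-- product of the table values over the list -/
def pcL (g : ℕ) (L : List ℕ) : ℕ :=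
  List.rec 1 (fun y _ ih => Nat.mod (Nat.mul ih (slot 8 g y)) 127) L

theorem pcL_lt (g : ℕ) (L : List ℕ) : pcL g L < 127 := by
  cases L with
  | nil => show 1 < 127; norm_num
  | cons y L => exact Nat.mod_lt _ (by norm_num)

theorem cast_pcL (g : ℕ) (L : List ℕ) :
    ((pcL g L : ℕ) : ZMod 127) = (L.map (fun y => (slot 8 g y : ZMod 127))).prod := by
  induction L with
  | nil => show ((1 : ℕ) : ZMod 127) = _; simp
  | cons y L ih =>
    have h : pcL g (y :: L) = Nat.mod (Nat.mul (pcL g L) (slot 8 g y)) 127 := rfl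
    rw [h, show ∀ u : ℕ, ((Nat.mod u 127 : ℕ) : ZMod 127) = (u : ZMod 127) from
      fun u => ZMod.natCast_mod u 127]
    show ((pcL g L * slot 8 g y : ℕ) : ZMod 127) = _
    rw [Nat.cast_mul, ih, List.map_cons, List.prod_cons, mul_comm]

theorem clRow_map {M : Type*} [CommMonoid M] (f : ℕ → M) (start n : ℕ) (tail : List ℕ) :
    ((clRow start n tail).map f).prod
      = (∏ s ∈ Finset.range n, f (start + s)) * (tail.map f).prod := by
  induction n with
  | zero => simp [clRow]
  | succ n ih =>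
    have h : clRow start (n + 1) tail = (start + n) :: clRow start n tail := rfl
    rw [h, List.map_cons, List.prod_cons, ih, Finset.prod_range_succ, ← mul_assoc,
      mul_comm (f (start + n))]

theorem cl_map {M : Type*} [CommMonoid M] (f : ℕ → M) (k m : ℕ) :
    ((cl k m).map f).prod = ∏ r ∈ Finset.range 6,
      ∏ s ∈ Finset.range (slot 7 m r - slot 7 k r), f (slot 7 k r + r + s) := by
  have h : ∀ n : ℕ, ((Nat.rec List.nil (fun r ih => clRow (Nat.add (slot 7 k r) r)
      (Nat.sub (slot 7 m r) (slot 7 k r)) ih) n : List ℕ).map f).prod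
      = ∏ r ∈ Finset.range n,
      ∏ s ∈ Finset.range (slot 7 m r - slot 7 k r), f (slot 7 k r + r + s) := by
    intro n
    induction n with
    | zero => simp
    | succ n ih =>
      rw [Finset.prod_range_succ, ← ih, mul_comm]
      exact clRow_map f _ _ _
  exact h 6

/-- the scalar `psi` -/
theorem cast_pc {k m l : ℕ} (hl : Val l) (hm : ∀ i, sh7 m i ≤ 42) :
    ((pcL (gt l) (cl k m) : ℕ) : ZMod 127) = psi (ZMod 127) (sh7 l) (sh7 k) (sh7 m) := by
  rw [cast_pcL, cl_map]
  unfold psi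
  set F : Fin 6 → ZMod 127 := fun i => ∏ s ∈ Finset.range (sh7 m i - sh7 k i),
    Gen.ge (ZMod 127) (sh7 l) (ct (sh7 k) i + s) with hF
  have h1 : ∀ r : ℕ, (hr : r < 6) → ∏ s ∈ Finset.range (slot 7 m r - slot 7 k r),
      (slot 8 (gt l) (slot 7 k r + r + s) : ZMod 127) = F ⟨5 - r, by omega⟩ := by
    intro r hr
    have e1 : sh7 m ⟨5 - r, by omega⟩ = slot 7 m r := by
      show slot 7 m (5 - (5 - r)) = _; congr 1; omega
    have e2 : sh7 k ⟨5 - r, by omega⟩ = slot 7 k r := by
      show slot 7 k (5 - (5 - r)) = _; congr 1; omega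
    rw [hF]
    simp only
    rw [e1, e2]
    refine Finset.prod_congr rfl (fun s hs => ?_)
    rw [Finset.mem_range] at hs
    have h2 := hm ⟨5 - r, by omega⟩
    rw [e1] at h2
    rw [slot_gt l (by omega), cast_gv hl]
    congr 1
    unfold ct
    rw [e2]
    push_cast
    have : ((5 - r : ℕ) : ℤ) = 5 - (r : ℤ) := by omega
    rw [this]; ring
  rw [Fin.prod_univ_six]
  simp only [Finset.prod_range_succ, Finset.prod_range_zero, one_mul]
  have h10 := h1 0 (by norm_num)
  have h11 := h1 1 (by norm_num)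
  have h12 := h1 2 (by norm_num)
  have h13 := h1 3 (by norm_num)
  have h14 := h1 4 (by norm_num)
  have h15 := h1 5 (by norm_num)
  rw [h10, h11, h12, h13, h14, h15]
  show F 5 * F 4 * F 3 * F 2 * F 1 * F 0 = F 0 * F 1 * F 2 * F 3 * F 4 * F 5
  ring

theorem prod_flatMap {α β M : Type*} [CommMonoid M] (L : List α) (f : α → List β) (g : β → M) :
    ((L.flatMap f).map g).prod = (L.map (fun i => ((f i).map g).prod)).prod := by
  induction L with
  | nil => simp
  | cons a L ih =>
    rw [List.flatMap_cons, List.map_append, List.prod_append, ih, List.map_cons, List.prod_cons]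

theorem prod_map_range {M : Type*} [CommMonoid M] (f : ℕ → M) (n : ℕ) :
    ((List.range n).map f).prod = ∏ s ∈ Finset.range n, f s := by
  induction n with
  | zero => simp
  | succ n ih =>
    rw [List.range_succ, List.map_append, List.prod_append, ih, Finset.prod_range_succ]
    simp

theorem pc_eq_psi {K : Type*} [Field K] (lam κ' lam' : Sh) :
    pc K lam κ' lam' = psi K lam κ' lam' := by
  unfold pc psi conts
  rw [prod_flatMap, Fin.prod_univ_def]
  congr 1
  refine List.map_congr_left (fun i _ => ?_)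
  rw [List.map_map, prod_map_range]
  refine Finset.prod_congr rfl (fun s _ => ?_)
  show Gen.ge K lam (((κ' i + s : ℕ) : ℤ) - (i : ℕ)) = _
  congr 1
  unfold ct
  push_cast
  ring

end Crest.Agent.R187.SN.KKey
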