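import Crest.Agent.R187.SN.Star
import Crest.Agent.R187.SN.KCont
import Crest.Agent.R187.SN.KD.Base

/-!
# Row 187, PLAN S, block E2: kernel check of the relations of one level

`chkK` : the kernel check for one source shape `κ`; `relAll_chk` : the checks for all `κ` of level
`(a+1, b)` give `RelAll T N (a+1) b` from `RelAll T M a b`.
Everything is generic in the accessor functions (`vt0 vt1 ng nb`), see `Link`.
Packed format: `W = 24`, `k = 7`, row stride `33`, transposed (global rows).
-/

set_option autoImplicit false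

namespace Crest.Agent.R187.SN.KRel

open Crest.Agent.R187.SN Crest.Agent.R187.SN.Spec Crest.Agent.R187.SN.Kern
open Crest.Agent.R187.SN.Gen Crest.Agent.R187.SN.Img Crest.Agent.R187.SN.KKey
open Crest.Agent.R187.SN.KD

/-! ### list functions for the kernel -/

/-- index entry with key `k` (or zero) -/
def look (L : List IE) (k : ℕ) : IE :=
  List.rec (IE.mk 0 0 0) (fun e _ ih => Bool.rec ih e (Nat.beq (IE.key e) k)) L

/-- `q → p` (lazy in `p`) -/
def impb (q p : Bool) : Bool := Bool.rec true p q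

/-- `q ∨ p` (lazy in `p`) -/
def orb (q p : Bool) : Bool := Bool.rec p true q

theorem impb_get {q p : Bool} (h : impb q p = true) (hq : q = true) : p = true := by
  subst hq; exact h

theorem orb_get {q p : Bool} (h : orb q p = true) (hq : q = false) : p = true := by
  subst hq; exact h

/-- `P e` for all entries -/
def allL (P : IE → Bool) (L : List IE) : Bool :=
  List.rec true (fun e _ ih => Bool.rec false ih (P e)) L

/-- sum of `f e` over the entries with `P e` -/
def sumL (P : IE → Bool) (f : IE → ℕ) (L : List IE) : ℕ :=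
  List.rec 0 (fun e _ ih => Bool.rec ih (Nat.add ih (f e)) (P e)) L

/-- filter -/
def filL (P : IE → Bool) (L : List IE) : List IE :=
  List.rec List.nil (fun e _ ih => Bool.rec ih (List.cons e ih) (P e)) L

theorem look_nil (k : ℕ) : look [] k = IE.mk 0 0 0 := rfl

theorem look_cons (e : IE) (L : List IE) (k : ℕ) :
    look (e :: L) k = if e.key = k then e else look L k := by
  show (Bool.rec (look L k) e (Nat.beq e.key k) : IE) = _
  split_ifs with h
  · rw [h, Nat.beq_refl]
  · have : Nat.beq e.key k = false := by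
      rw [Bool.eq_false_iff]; intro h2; exact h (Nat.eq_of_beq_eq_true h2)
    rw [this]

theorem allL_iff (P : IE → Bool) (L : List IE) : allL P L = true ↔ ∀ e ∈ L, P e = true := by
  induction L with
  | nil => simp [allL]
  | cons e L ih =>
    have h : allL P (e :: L) = Bool.rec false (allL P L) (P e) := rfl
    rw [h]
    cases hP : P e with
    | false => simp [hP]
    | true => simp [hP, ih]

theorem filL_eq (P : IE → Bool) (L : List IE) : filL P L = L.filter P := by
  induction L with
  | nil => rfl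
  | cons e L ih =>
    have h : filL P (e :: L) = Bool.rec (filL P L) (e :: filL P L) (P e) := rfl
    rw [h, List.filter_cons, ih]
    cases hP : P e <;> simp

theorem sumL_cons (P : IE → Bool) (f : IE → ℕ) (e : IE) (L : List IE) :
    sumL P f (e :: L) = if P e = true then Nat.add (sumL P f L) (f e) else sumL P f L := by
  show (Bool.rec (sumL P f L) (Nat.add (sumL P f L) (f e)) (P e) : ℕ) = _
  cases hP : P e <;> simp

/-- slots of a filtered sum -/
theorem slot_sumL {W B : ℕ} (hW : 0 < W) (P : IE → Bool) (f : IE → ℕ) (L : List IE)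
    (hf : ∀ e ∈ L, ∀ n, slot W (f e) n ≤ B) (hB : L.length * B < 2 ^ W) (n : ℕ) :
    slot W (sumL P f L) n = (L.map (fun e => if P e = true then slot W (f e) n else 0)).sum ∧
      slot W (sumL P f L) n ≤ L.length * B := by
  revert n
  induction L with
  | nil => intro n; exact ⟨slot_zero W n, by rw [show sumL P f [] = 0 from rfl]; simp⟩
  | cons e L ih =>
    intro n
    rw [List.length_cons, Nat.succ_mul] at hB ⊢
    have ih' := ih (fun e' he' => hf e' (List.mem_cons_of_mem _ he')) (by omega)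
    have he := hf e (List.mem_cons_self ..)
    have hadd : ∀ n, slot W (Nat.add (sumL P f L) (f e)) n
        = slot W (sumL P f L) n + slot W (f e) n := by
      intro n
      refine slot_add hW (fun j => ?_)
      have h1 := (ih' j).2
      have h2 := he j
      omega
    rw [sumL_cons, List.map_cons, List.sum_cons]
    split_ifs with hP
    · rw [hadd]
      have h1 := ih' n
      have h2 := he n
      exact ⟨by rw [h1.1]; ring, by omega⟩
    · have h1 := ih' n
      exact ⟨by rw [h1.1]; ring, by omega⟩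

/-! ### index lists -/

/-- valid key test -/
def valb (k : ℕ) : Bool := and (Nat.blt k 4398046511104) (Nat.beq (Nat.land k H6) 0)

/-- digit sum -/
def dsum (k : ℕ) : ℕ := Nat.add (Nat.add (Nat.add (Nat.add (Nat.add (slot 7 k 0) (slot 7 k 1))
  (slot 7 k 2)) (slot 7 k 3)) (slot 7 k 4)) (slot 7 k 5)

/-- check of one entry: valid antitone key, sum `s`, `0 < m ≤ 33`, `off + m ≤ tot` -/
def ieb (s tot : ℕ) (e : IE) : Bool :=
  and (and (and (valb (IE.key e)) (Nat.beq (dsum (IE.key e)) s))
    (geb H5 (up (IE.key e)) (low (IE.key e))))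
    (and (Nat.blt 0 (IE.m e)) (and (Nat.ble (IE.m e) 33) (Nat.ble (Nat.add (IE.off e) (IE.m e)) tot)))

/-- keys strictly decreasing, all `< p` -/
def decb (L : List IE) : ℕ → Bool :=
  List.rec (fun _ => true) (fun e _ ih p => and (Nat.blt (IE.key e) p) (ih (IE.key e))) L

/-- the check of an index list -/
def ixb (s tot : ℕ) (L : List IE) : Bool := and (allL (ieb s tot) L) (decb L 4398046511104)

theorem val_of_valb {k : ℕ} (h : valb k = true) : Val k := by
  unfold valb at h
  rw [Bool.and_eq_true] at h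
  obtain ⟨h1, h2⟩ := h
  have hk : k < 128 ^ 6 := by
    have := Nat.blt_eq.symm ▸ h1
    have h3 : k < 4398046511104 := by
      unfold Nat.blt at h1
      rw [Nat.ble_eq] at h1
      exact h1
    norm_num
    exact h3
  refine ⟨hk, fun i => ?_⟩
  have h3 : Nat.land k H6 = 0 := Nat.eq_of_beq_eq_true h2
  have h4 : slot 7 (Nat.land k H6) (5 - (i : ℕ)) = 0 := by rw [h3]; exact slot_zero _ _
  rw [slot_land, H6_eq, slot_guard 6 _ (by norm_num), if_pos (by omega)] at h4
  have h5 : ∀ u < 128, Nat.land u 64 = 0 → u < 64 := by decide +kernel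
  have h6 : slot 7 k (5 - (i : ℕ)) < 128 := slot_lt 7 k (5 - (i : ℕ))
  exact h5 _ h6 h4

theorem dsum_eq (k : ℕ) : dsum k = ∑ i, sh7 k i := by
  rw [Fin.sum_univ_six]
  show slot 7 k 0 + slot 7 k 1 + slot 7 k 2 + slot 7 k 3 + slot 7 k 4 + slot 7 k 5
    = slot 7 k 5 + slot 7 k 4 + slot 7 k 3 + slot 7 k 2 + slot 7 k 1 + slot 7 k 0
  ring

/-- properties of an index list -/
structure IxOK (s tot : ℕ) (L : List IE) : Prop where
  val : ∀ e ∈ L, Val e.key
  sum : ∀ e ∈ L, ∑ i, sh7 e.key i = s
  anti : ∀ e ∈ L, Antitone (sh7 e.key)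
  pos : ∀ e ∈ L, 0 < e.m
  le33 : ∀ e ∈ L, e.m ≤ 33
  tot : ∀ e ∈ L, e.off + e.m ≤ tot
  nodup : (L.map IE.key).Nodup

theorem decb_spec (L : List IE) : ∀ p, decb L p = true →
    (L.map IE.key).Nodup ∧ ∀ e ∈ L, e.key < p := by
  induction L with
  | nil => intro p _; simp
  | cons e L ih =>
    intro p h
    have h0 : decb (e :: L) p = and (Nat.blt e.key p) (decb L e.key) := rfl
    rw [h0, Bool.and_eq_true] at h
    obtain ⟨h1, h2⟩ := h
    have h1' : e.key < p := by
      unfold Nat.blt at h1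
      rw [Nat.ble_eq] at h1
      exact h1
    obtain ⟨h3, h4⟩ := ih _ h2
    refine ⟨?_, ?_⟩
    · rw [List.map_cons, List.nodup_cons]
      refine ⟨?_, h3⟩
      intro hmem
      rw [List.mem_map] at hmem
      obtain ⟨e', he', heq⟩ := hmem
      have := h4 e' he'
      omega
    · intro e' he'
      rcases List.mem_cons.1 he' with h5 | h5
      · rw [h5]; exact h1'
      · exact (h4 e' h5).trans h1'

theorem ixOK_of_ixb {s tot : ℕ} {L : List IE} (h : ixb s tot L = true) : IxOK s tot L := by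
  unfold ixb at h
  rw [Bool.and_eq_true, allL_iff] at h
  obtain ⟨h1, h2⟩ := h
  have h3 : ∀ e ∈ L, valb e.key = true ∧ dsum e.key = s ∧ geb H5 (up e.key) (low e.key) = true ∧
      0 < e.m ∧ e.m ≤ 33 ∧ e.off + e.m ≤ tot := by
    intro e he
    have h4 := h1 e he
    unfold ieb at h4
    simp only [Bool.and_eq_true] at h4
    obtain ⟨⟨⟨a1, a2⟩, a3⟩, a4, a5, a6⟩ := h4
    refine ⟨a1, Nat.eq_of_beq_eq_true a2, a3, ?_, ?_, ?_⟩
    · unfold Nat.blt at a4
      rw [Nat.ble_eq] at a4
      exact a4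
    · rw [Nat.ble_eq] at a5; exact a5
    · rw [Nat.ble_eq] at a6; exact a6
  refine ⟨fun e he => val_of_valb (h3 e he).1, fun e he => ?_, fun e he => ?_,
    fun e he => (h3 e he).2.2.2.1, fun e he => (h3 e he).2.2.2.2.1,
    fun e he => (h3 e he).2.2.2.2.2, (decb_spec L _ h2).1⟩
  · rw [← dsum_eq]; exact (h3 e he).2.1
  · have hv := val_of_valb (h3 e he).1
    have h4 := (ge5_up_iff hv hv).1 (h3 e he).2.2.1
    refine Fin.antitone_iff_succ_le.2 (fun i => h4 i)

/-- key of an arbitrary shape (junk out of range) -/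
def kyo (lam : Sh) : ℕ := if ∀ i, lam i < 64 then ky lam else 4398046511104

theorem kyo_of {lam : Sh} (h : ∀ i, lam i < 64) : kyo lam = ky lam := if_pos h

theorem kyo_sh7 {k : ℕ} (h : Val k) : kyo (sh7 k) = k := by
  rw [kyo_of h.2, ky_sh7 h.1]

theorem sh7_kyo {lam : Sh} (h : kyo lam < 4398046511104) : sh7 (kyo lam) = lam := by
  unfold kyo at h ⊢
  split_ifs at h ⊢ with h1
  · exact sh7_ky (fun i => (h1 i).trans (by norm_num))
  · exact absurd h (lt_irrefl _)

theorem look_mem {L : List IE} (hn : (L.map IE.key).Nodup) {e : IE} (he : e ∈ L) :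
    look L e.key = e := by
  induction L with
  | nil => simp at he
  | cons a L ih =>
    rw [look_cons]
    rw [List.map_cons, List.nodup_cons] at hn
    rcases List.mem_cons.1 he with h1 | h1
    · rw [h1, if_pos rfl]
    · rw [if_neg, ih hn.2 h1]
      intro h2
      exact hn.1 (h2 ▸ List.mem_map_of_mem h1)

theorem mem_of_look {L : List IE} {k : ℕ} (h : (look L k).m ≠ 0) :
    look L k ∈ L ∧ (look L k).key = k := by
  induction L with
  | nil => exact absurd rfl h
  | cons a L ih =>
    rw [look_cons] at h ⊢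
    split_ifs at h ⊢ with h1
    · exact ⟨List.mem_cons_self .., h1⟩
    · exact ⟨List.mem_cons_of_mem _ (ih h).1, (ih h).2⟩

/-- multiplicity read from an index list -/
def mOf (L : List IE) (lam : Sh) : ℕ := (look L (kyo lam)).m

/-- the equation lemma of `mOf` is generated here once -/
theorem mOf_touch : True := by
  have _h1 := @mOf.eq_1
  trivial


theorem IxOK.look_pos {s tot : ℕ} {L : List IE} (hL : IxOK s tot L) {lam : Sh}
    (h : mOf L lam ≠ 0) : look L (kyo lam) ∈ L ∧ sh7 (look L (kyo lam)).key = lam ∧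
      (look L (kyo lam)).key = kyo lam := by
  obtain ⟨h1, h2⟩ := mem_of_look h
  refine ⟨h1, ?_, h2⟩
  have h3 := (hL.val _ h1).1
  rw [h2] at h3 ⊢
  exact sh7_kyo (by norm_num at h3; exact h3)

theorem IxOK.look_of_mem {s tot : ℕ} {L : List IE} (hL : IxOK s tot L) {e : IE} (he : e ∈ L) :
    look L (kyo (sh7 e.key)) = e := by
  rw [kyo_sh7 (hL.val e he)]; exact look_mem hL.nodup he

theorem sh7_inj {s tot : ℕ} {L : List IE} (hL : IxOK s tot L) {e e' : IE} (he : e ∈ L)
    (he' : e' ∈ L) (h : sh7 e.key = sh7 e'.key) : e = e' := by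
  rw [← hL.look_of_mem he, h, hL.look_of_mem he']

/-- sums over shapes with nonzero multiplicity = sums over the list -/
theorem sum_look {K : Type*} [Field K] {s tot : ℕ} {L : List IE} (hL : IxOK s tot L)
    (S : Finset Sh) (f : Sh → K) (h0 : ∀ lam ∈ S, mOf L lam = 0 → f lam = 0)
    (hS : ∀ e ∈ L, f (sh7 e.key) ≠ 0 → sh7 e.key ∈ S) :
    ∑ lam ∈ S, f lam = (L.map (fun e => f (sh7 e.key))).sum := by
  classical
  have hnd : (L.map (fun e => sh7 e.key)).Nodup := by
    refine List.Nodup.map_on (fun e he e' he' h => sh7_inj hL he he' h) ?_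
    exact hL.nodup.of_map
  have h1 : (L.map (fun e => f (sh7 e.key))).sum = ((L.map (fun e => sh7 e.key)).map f).sum := by
    rw [List.map_map]; rfl
  rw [h1, ← List.sum_toFinset f hnd]
  have hU : ∀ lam ∈ S, lam ∉ (L.map (fun e => sh7 e.key)).toFinset → f lam = 0 := by
    intro lam hlam hn
    refine h0 lam hlam ?_
    by_contra hne
    obtain ⟨h2, h3, _⟩ := hL.look_pos hne
    apply hn
    rw [List.mem_toFinset, List.mem_map]
    exact ⟨_, h2, h3⟩
  have hV : ∀ lam ∈ (L.map (fun e => sh7 e.key)).toFinset, lam ∉ S → f lam = 0 := by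
    intro lam hlam hn
    rw [List.mem_toFinset, List.mem_map] at hlam
    obtain ⟨e, he, rfl⟩ := hlam
    by_contra hne
    exact hn (hS e he hne)
  rw [← Finset.sum_subset (Finset.inter_subset_left (s₂ := (L.map (fun e => sh7 e.key)).toFinset))
      (fun x hx hx' => hU x hx (fun h => hx' (Finset.mem_inter.2 ⟨hx, h⟩))),
    ← Finset.sum_subset (Finset.inter_subset_right (s₁ := S))
      (fun x hx hx' => hV x hx (fun h => hx' (Finset.mem_inter.2 ⟨h, hx⟩)))]

/-! ### the check -/

/-- necessary condition for a common strip over `κ` and over `λ'` -/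
def compat (c e : ℕ) : Bool := and (geb H5 (up c) (low e)) (geb H5 (up e) (low c))

/-- `V(μ)ᵀ · N(κ, μ)ᵀ` -/
def Cp (tot : ℕ) (vt1 : ℕ → ℕ) (nb : ℕ → IE → ℕ) (c e : IE) : ℕ :=
  mul 24 7 33 tot (IE.m c) (vt1 (IE.key e)) (nb (IE.key c) e) (IE.m e)

/-- `N(κ')ᵀ · V(κ, κ')ᵀ` -/
def Pp (tot : ℕ) (vt0 ng : ℕ → ℕ) (c e : IE) : ℕ :=
  mul 24 7 33 tot (IE.m c) (ng (IE.key e))
    (Nat.shiftRight (vt0 (IE.key c)) (Nat.mul 24 (Nat.mul 33 (IE.off e)))) (IE.m e)

/-- rows `off', …, off' + m' - 1` -/
def blkR (x : ℕ) (e' : IE) : ℕ :=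
  Nat.mod (Nat.shiftRight x (Nat.mul 24 (Nat.mul 33 (IE.off e'))))
    (Nat.pow 2 (Nat.mul 24 (Nat.mul 33 (IE.m e'))))

/-- left-hand side of (*) for the target key `l`, all `λ'` together -/
def Lh (tot : ℕ) (vt1 : ℕ → ℕ) (nb : ℕ → IE → ℕ) (c : IE) (D : List IE) (l : ℕ) : ℕ :=
  sumL (fun e => geb H5 (low l) (low (IE.key e)))
    (fun e => Nat.mul (pcL (gt l) (cl (IE.key c) (IE.key e))) (Cp tot vt1 nb c e)) D

/-- right-hand side of (*) -/
def Rh (tot : ℕ) (vt0 ng : ℕ → ℕ) (c : IE) (A : List IE) (l : ℕ) (e' : IE) : ℕ :=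
  sumL (fun e => hsk (IE.key e) (IE.key e'))
    (fun e => Nat.mul (pcL (gt l) (cl (IE.key e) (IE.key e'))) (blkR (Pp tot vt0 ng c e) e')) A

/-- zero test of the block -/
def zt (m c x : ℕ) : Bool :=
  isZero 24 7 33 m c (red 7 (blk 24 33 m c 127) (blk 24 33 m c 131071) x)

/-- the check for one source `c` -/
def chkK (tot n : ℕ) (LA LB LD : List IE) (vt0 vt1 ng : ℕ → ℕ) (nb : ℕ → IE → ℕ) (c : IE) : Bool :=
  (fun (A B D : List IE) =>
    allS (IE.key c) n (fun l =>
      allL (fun e' => impb (hsk (IE.key e') l)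
        (zt (IE.m e') (IE.m c) (Nat.add (blkR (Lh tot vt1 nb c D l) e')
          (Rh tot vt0 ng c A l e')))) B))
    (filL (fun e => hsk (IE.key e) (IE.key c)) LA)
    (filL (fun e => compat (IE.key c) (IE.key e)) LB)
    (filL (fun e => hsk (IE.key c) (IE.key e)) LD)

/-- the support check of a `V` table: blocks off the strips vanish -/
def suppb (LB : List IE) (vt1 : ℕ → ℕ) (e : IE) : Bool :=
  allL (fun e' => orb (hsk (IE.key e') (IE.key e)) (Nat.beq (blkR (vt1 (IE.key e)) e') 0)) LB

theorem slot_blkR (x : ℕ) (e' : IE) {j i : ℕ} (hj : j < e'.m) (hi : i < 33) :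
    slot 24 (blkR x e') (33 * j + i) = slot 24 x (33 * (e'.off + j) + i) := by
  unfold blkR
  have h1 : 33 * j + i < Nat.mul 33 e'.m := by
    show 33 * j + i < 33 * e'.m
    omega
  rw [slot_mod, if_pos h1, slot_shr]
  congr 1
  show 33 * e'.off + (33 * j + i) = _
  ring

theorem slot_blkR_le {x : ℕ} {B : ℕ} (h : ∀ n, slot 24 x n ≤ B) (e' : IE) (n : ℕ) :
    slot 24 (blkR x e') n ≤ B := by
  unfold blkR
  rw [slot_mod, slot_shr]
  split_ifs
  · exact h _
  · exact Nat.zero_le _

end Crest.Agent.R187.SN.KRel
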