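import Crest.Agent.R187.SN.WChk
import Crest.Agent.R187.SN.FwdDef
import Crest.Agent.R187.SN.KRel

/-!
# Row 187, PLAN S, blocks E3/E4: the `W` tables (`WtOk`) from the relation tables

`wChk nb s LC LD w` : complete kernel check of one table `w : WT` of level `(5, b) → (5, b+1)`;
`LC`, `LD` = index lists of the levels `(5, b)`, `(5, b+1)`, `s = 5 b`, `nb` = accessor of the
(transposed) relation blocks.  `wtOk_of_chk` : it implies `Fwd.WtOk`.
-/

set_option autoImplicit false

namespace Crest.Agent.R187.SN.WOk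

open Crest.Agent.R187.SN Crest.Agent.R187.SN.Spec Crest.Agent.R187.SN.Kern
open Crest.Agent.R187.SN.KKey Crest.Agent.R187.SN.KD Crest.Agent.R187.SN.Top
open Crest.Agent.R187.SN.KRel Crest.Agent.R187.SN.Img
open Crest.Agent.R187.SN.PivK (andb andb_eq force force_eq findE)
open Crest.Agent.R187.SN.Tr (trChk trChk_sound)
open Crest.Agent.R187.SN.WChk (cv cv_eq sh7_cv shp_lt lkM lkM_cons lkM_cons_ne dropW lkM_dropW
  forceL forceL_eq)

attribute [local irreducible] hsk

/-! ### keys -/

lemma val_cv (k : ℕ) : Val (cv k) := by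
  rw [cv_eq]; exact val_ky (shp_lt k)

lemma kyo_shp (k : ℕ) : kyo (shp k) = cv k := by
  rw [kyo_of (shp_lt k), cv_eq]

lemma lkM_eq (k : ℕ) (L : List IE) : lkM k L = (look L k).m := by
  induction L with
  | nil => rfl
  | cons e L ih =>
    rw [look_cons]
    split_ifs with h
    · rw [lkM_cons, h, Nat.beq_refl]
    · rw [lkM_cons_ne L h, ih]

lemma mOf_shp (L : List IE) (k : ℕ) : mOf L (shp k) = lkM (cv k) L := by
  rw [mOf, kyo_shp, lkM_eq]

/-! ### completeness -/

/-- evaluate the list first -/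
noncomputable def forceN (L : List ℕ) (f : List ℕ → Bool) : Bool :=
  List.rec (motive := fun _ => Bool) (f []) (fun e t _ => f (e :: t)) L

lemma forceN_eq (L : List ℕ) (f : List ℕ → Bool) : forceN L f = f L := by cases L <;> rfl

/-- drop the larger numbers -/
noncomputable def dropN (k : ℕ) (L : List ℕ) : List ℕ :=
  List.rec (motive := fun _ => List ℕ) []
    (fun e t ih => Bool.rec (motive := fun _ => List ℕ) (List.cons e t) ih
      (Nat.ble (Nat.succ k) e)) L

lemma mem_dropN {k x : ℕ} {L : List ℕ} (h : x ∈ dropN k L) : x ∈ L := by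
  induction L with
  | nil => exact h
  | cons e L ih =>
    have h1 : dropN k (e :: L) = Bool.rec (motive := fun _ => List ℕ) (e :: L) (dropN k L)
      (Nat.ble (Nat.succ k) e) := rfl
    rw [h1] at h
    cases h2 : Nat.ble (Nat.succ k) e with
    | false => rw [h2] at h; exact h
    | true => rw [h2] at h; exact List.mem_cons_of_mem _ (ih h)

/-- if-then-else on `Bool` -/
noncomputable def cnd (c t e : Bool) : Bool := Bool.rec (motive := fun _ => Bool) e t c

lemma cnd_false (t e : Bool) : cnd false t e = e := rfl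
lemma cnd_true (t e : Bool) : cnd true t e = t := rfl

/-- every `e ∈ LC` with `hsk e.key kl` has its key in the list -/
noncomputable def cmpl (kl : ℕ) (LC : List IE) : List ℕ → Bool :=
  List.rec (motive := fun _ => List ℕ → Bool) (fun _ => true)
    (fun e _ ih ks => cnd (hsk (IE.key e) kl)
      (forceN (dropN (IE.key e) ks) (fun ks' => List.rec (motive := fun _ => Bool) false
        (fun k t _ => andb (Nat.beq k (IE.key e)) (ih t)) ks')) (ih ks)) LC

lemma cmpl_sound {kl : ℕ} (LC : List IE) : ∀ ks : List ℕ, cmpl kl LC ks = true →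
    ∀ e ∈ LC, hsk e.key kl = true → e.key ∈ ks := by
  induction LC with
  | nil => intro ks _ e he; simp at he
  | cons a LC ih =>
    intro ks h e he hh
    have h1 : cmpl kl (a :: LC) ks = cnd (hsk a.key kl)
      (forceN (dropN a.key ks) (fun ks' => List.rec (motive := fun _ => Bool) false
        (fun k t _ => andb (Nat.beq k a.key) (cmpl kl LC t)) ks')) (cmpl kl LC ks) := rfl
    rw [h1] at h
    by_cases h2 : hsk a.key kl = true
    · rw [h2, cnd_true, forceN_eq] at h
      rcases h4 : dropN a.key ks with _ | ⟨k, t⟩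
      · rw [h4] at h
        exact absurd (show false = true from h) (by decide)
      · rw [h4] at h
        have h5 : andb (Nat.beq k a.key) (cmpl kl LC t) = true := h
        rw [andb_eq] at h5
        have h6 : ∀ x, x ∈ k :: t → x ∈ ks := fun x hx => mem_dropN (h4 ▸ hx)
        rcases List.mem_cons.mp he with h3 | h3
        · rw [h3, ← Nat.eq_of_beq_eq_true h5.1]
          exact h6 _ List.mem_cons_self
        · exact h6 _ (List.mem_cons_of_mem _ (ih t h5.2 e h3 hh))
    · have h2' : hsk a.key kl = false := by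
        rw [Bool.eq_false_iff]; exact h2
      rw [h2', cnd_false] at h
      rcases List.mem_cons.mp he with h3 | h3
      · rw [h3] at hh; exact absurd hh h2
      · exact ih ks h e h3 hh

/-- length -/
noncomputable def lenN (L : List ℕ) : ℕ :=
  List.rec (motive := fun _ => ℕ) 0 (fun _ _ ih => Nat.succ ih) L

lemma lenN_eq (L : List ℕ) : lenN L = L.length := by
  induction L with
  | nil => rfl
  | cons a L ih =>
    have h : lenN (a :: L) = lenN L + 1 := rfl
    rw [h, ih, List.length_cons]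

/-! ### the check -/

/-- one entry: `k = cv key`, `L` = rest of the index list of the level of `κ'` -/
noncomputable def wOne (nb : ℕ → IE → ℕ) (e' : IE) (n s lkey k key cs K x : ℕ) (L : List IE) :
    Bool :=
  andb (hsk k (IE.key e')) (andb (Nat.beq (dsum k) s) (andb (Nat.beq cs (csN key lkey))
    (andb (Nat.beq (lkM k L) K) (andb (goodChk 24 7 33 K n x)
      (Nat.rec (motive := fun _ => Bool) true
        (fun _ _ => force (nb k e') (fun y => trChk 24 33 24 33 K n x y)) K)))))

/-- all entries; `bk`, `bd` = bounds for the base 64 and base 128 keys -/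
noncomputable def wEnt (nb : ℕ → IE → ℕ) (e' : IE) (n s lkey : ℕ) (E : WE) :
    ℕ → ℕ → List IE → (List ℕ → Bool) → Bool :=
  WE.rec (motive := fun _ => ℕ → ℕ → List IE → (List ℕ → Bool) → Bool) (fun _ _ _ c => c [])
    (fun key cs K x _ ih bk bd L c => force (cv key) (fun k => forceL (dropW k L) (fun L' =>
      andb (Nat.ble (Nat.succ key) bk) (andb (Nat.ble k bd)
        (andb (wOne nb e' n s lkey k key cs K x L')
          (ih key k L' (fun ks => c (List.cons k ks)))))))) E

/-- the facts about one entry -/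
def EntP (nb : ℕ → IE → ℕ) (LC : List IE) (e' : IE) (n s lkey : ℕ) (key cs K x : ℕ) : Prop :=
  hsk (cv key) e'.key = true ∧ dsum (cv key) = s ∧ cs = csN key lkey ∧ K = lkM (cv key) LC ∧
    goodChk 24 7 33 K n x = true ∧
    ∀ l < K, ∀ c < n, slot 24 x (33 * l + c) = slot 24 (nb (cv key) e') (33 * c + l)

lemma wEnt_sound {nb : ℕ → IE → ℕ} {e' : IE} {n s lkey : ℕ} {LC : List IE} (E : WE) :
    ∀ (bk bd : ℕ) (L : List IE) (c : List ℕ → Bool), (∀ k' ≤ bd, lkM k' L = lkM k' LC) →
    wEnt nb e' n s lkey E bk bd L c = true →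
    c ((Fwd.wkeys E).map cv) = true ∧ (Fwd.wkeys E).Pairwise (fun x y => y < x) ∧
      (∀ k ∈ Fwd.wkeys E, k < bk) ∧ Fwd.AllW (EntP nb LC e' n s lkey) E := by
  induction E with
  | nil =>
    intro bk bd L c _ h
    exact ⟨h, List.Pairwise.nil, fun k hk => absurd hk (by simp [Fwd.wkeys]), trivial⟩
  | cons key cs K x E ih =>
    intro bk bd L c hL h
    have h1 : wEnt nb e' n s lkey (.cons key cs K x E) bk bd L c = force (cv key) (fun k =>
      forceL (dropW k L) (fun L' => andb (Nat.ble (Nat.succ key) bk) (andb (Nat.ble k bd)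
        (andb (wOne nb e' n s lkey k key cs K x L')
          (wEnt nb e' n s lkey E key k L' (fun ks => c (k :: ks))))))) := rfl
    rw [h1, force_eq, forceL_eq, andb_eq, andb_eq, andb_eq] at h
    obtain ⟨h2, h3, h4, h5⟩ := h
    have hbk : key < bk := Nat.le_of_ble_eq_true h2
    have hb : cv key ≤ bd := Nat.le_of_ble_eq_true h3
    have hL' : ∀ k' ≤ cv key, lkM k' (dropW (cv key) L) = lkM k' LC := fun k' hk' => by
      rw [lkM_dropW hk', hL k' (hk'.trans hb)]
    obtain ⟨a1, a2, a3, a4⟩ := ih key (cv key) _ _ hL' h5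
    unfold wOne at h4
    rw [andb_eq, andb_eq, andb_eq, andb_eq, andb_eq] at h4
    obtain ⟨c1, c2, c3, c4, c5, c6⟩ := h4
    have hw : Fwd.wkeys (.cons key cs K x E) = key :: Fwd.wkeys E := rfl
    refine ⟨?_, ?_, ?_, ?_⟩
    · rw [hw, List.map_cons]; exact a1
    · rw [hw, List.pairwise_cons]
      exact ⟨fun k hk => a3 k hk, a2⟩
    · intro k hk
      rw [hw] at hk
      rcases List.mem_cons.mp hk with rfl | h6
      · exact hbk
      · exact (a3 k h6).trans hbk
    · refine ⟨⟨c1, Nat.eq_of_beq_eq_true c2, Nat.eq_of_beq_eq_true c3, ?_, c5, ?_⟩, a4⟩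
      · rw [← Nat.eq_of_beq_eq_true c4, hL' _ le_rfl]
      · intro l hl c' hc
        cases K with
        | zero => omega
        | succ K =>
          have h7 : force (nb (cv key) e') (fun y => trChk 24 33 24 33 (K + 1) n x y) = true := c6
          rw [force_eq] at h7
          exact trChk_sound h7 l hl c' hc

/-- **kernel check of one `W` table** -/
noncomputable def wChk (nb : ℕ → IE → ℕ) (s : ℕ) (LC LD : List IE) (w : WT) : Bool :=
  andb (Nat.ble (Nat.succ (WT.key w)) 68719476736) (force (cv (WT.key w)) (fun kl =>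
    findE kl (fun e' => andb (Nat.beq (IE.m e') (WT.n w))
      (wEnt nb e' (WT.n w) s (WT.key w) (WT.ent w) 68719476736 4398046511104 LC
        (fun ks => andb (Nat.ble (lenN ks) 1024) (cmpl kl LC ks)))) LD))

lemma allW_imp {P Q : ℕ → ℕ → ℕ → ℕ → Prop} (h : ∀ a b c d, P a b c d → Q a b c d) {E : WE}
    (hE : Fwd.AllW P E) : Fwd.AllW Q E := by
  induction E with
  | nil => trivial
  | cons key cs K x E ih => exact ⟨h _ _ _ _ hE.1, ih hE.2⟩

lemma allW_and {P Q : ℕ → ℕ → ℕ → ℕ → Prop} {E : WE} (h1 : Fwd.AllW P E) (h2 : Fwd.AllW Q E) :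
    Fwd.AllW (fun a b c d => P a b c d ∧ Q a b c d) E := by
  induction E with
  | nil => trivial
  | cons key cs K x E ih => exact ⟨⟨h1.1, h2.1⟩, ih h1.2 h2.2⟩

lemma allW_key {P : ℕ → Prop} {E : WE} (h : ∀ k ∈ Fwd.wkeys E, P k) :
    Fwd.AllW (fun key _ _ _ => P key) E := by
  induction E with
  | nil => trivial
  | cons key cs K x E ih =>
    have hw : Fwd.wkeys (.cons key cs K x E) = key :: Fwd.wkeys E := rfl
    rw [hw] at h
    exact ⟨h key List.mem_cons_self, ih (fun k hk => h k (List.mem_cons_of_mem _ hk))⟩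

theorem wtOk_of_chk {T : Tab (ZMod 127)} {M : Sh → Sh → ℕ → ℕ → ZMod 127} {b s tot tot' : ℕ}
    {LC LD : List IE} {nb : ℕ → IE → ℕ} {w : WT}
    (hLC : IxOK s tot LC) (hLD : IxOK (s + 5) tot' LD) (hs : s + 5 ≤ 42)
    (hC : ∀ lam, T.m 5 b lam = mOf LC lam) (hD : ∀ lam, T.m 5 (b + 1) lam = mOf LD lam)
    (hM : ∀ κ lam l j, HS κ lam 5 → M κ lam l j
      = ((slot 24 (nb (kyo κ) (look LD (kyo lam))) (33 * j + l) : ℕ) : ZMod 127))
    (h : wChk nb s LC LD w = true) : Fwd.WtOk T M b w := by
  unfold wChk at h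
  rw [andb_eq, force_eq] at h
  obtain ⟨h1, h2⟩ := h
  obtain ⟨e', he', hk, h3⟩ := PivK.findE_sound h2
  rw [andb_eq] at h3
  obtain ⟨h4, h5⟩ := h3
  have hm : e'.m = w.n := Nat.eq_of_beq_eq_true h4
  obtain ⟨a1, a2, a3, a4⟩ := wEnt_sound (LC := LC) _ _ _ _ _ (fun _ _ => rfl) h5
  rw [andb_eq] at a1
  obtain ⟨a5, a6⟩ := a1
  have hshape : sh7 e'.key = shp w.key := by rw [hk, sh7_cv]
  have hlook : look LD (kyo (shp w.key)) = e' := by
    rw [← hshape]; exact hLD.look_of_mem he'
  have hsum : ∑ i, shp w.key i = s + 5 := by rw [← hshape]; exact hLD.sum e' he'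
  -- strips
  have hHS : ∀ key, hsk (cv key) e'.key = true → dsum (cv key) = s →
      HS (shp key) (shp w.key) 5 := by
    intro key b1 b2
    have b3 : ∑ i, sh7 e'.key i = ∑ i, sh7 (cv key) i + 5 := by
      rw [hLD.sum e' he', ← dsum_eq (cv key), b2]
    have b4 := (hsk_iff (val_cv key) (hLD.val e' he') b3).1 b1
    rw [sh7_cv, hshape] at b4
    exact b4
  constructor
  · rw [hD, mOf, hlook, hm]
  · rw [← hm]; exact hLD.le33 e' he'
  · exact Nat.le_of_ble_eq_true h1
  · intro i
    have b1 : shp w.key i ≤ ∑ j, shp w.key j :=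
      Finset.single_le_sum (f := fun j => shp w.key j) (fun _ _ => Nat.zero_le _)
        (Finset.mem_univ i)
    omega
  · exact a2
  · refine allW_imp ?_ (allW_and (allW_key a3) a4)
    rintro key cs K x ⟨b0, b1, b2, b3, b4, b5, b6⟩
    have hh := hHS key b1 b2
    have hKm : K = T.m 5 b (shp key) := by rw [hC, mOf_shp]; exact b4
    have hn33 : w.n ≤ 33 := by rw [← hm]; exact hLD.le33 e' he'
    refine ⟨b0, hh, b3, hKm, ?_, ?_, ?_⟩
    · rw [hKm, hC]
      by_cases hz : mOf LC (shp key) = 0
      · omega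
      · exact hLC.le33 _ (hLC.look_pos hz).1
    · intro n
      exact (good_of_chk (by norm_num) (by norm_num) hn33 b5 n).1
    · intro l hl j hj
      rw [b6 l hl j hj, hM _ _ _ _ hh, hlook, kyo_shp]
  · intro κ' hκ hne
    rw [hC] at hne
    obtain ⟨b1, b2, b3⟩ := hLC.look_pos hne
    have b4 : hsk (look LC (kyo κ')).key e'.key = true := by
      rw [hsk_iff (hLC.val _ b1) (hLD.val e' he') (n := 5)]
      · rw [b2, hshape]; exact hκ
      · rw [b2, hshape]; exact hκ.2.2
    have b5 := cmpl_sound LC _ a6 _ b1 (by rw [← hk]; exact b4)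
    rw [List.mem_map] at b5
    obtain ⟨key, c1, c2⟩ := b5
    exact ⟨key, c1, by rw [← sh7_cv, c2, b2]⟩
  · have b1 := Nat.le_of_ble_eq_true a5
    rw [lenN_eq, List.length_map] at b1
    exact b1

end Crest.Agent.R187.SN.WOk
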