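import Crest.Agent.R187.SN.TDef
import Crest.Agent.R187.SN.WOk

/-!
# Row 187, PLAN S, blocks E3/E4: `wChk` of a `W` table gives `WtOk T (MT 5 b) b`
-/

set_option autoImplicit false

namespace Crest.Agent.R187.SN.Inst

open Crest.Agent.R187.SN Crest.Agent.R187.SN.Spec Crest.Agent.R187.SN.Kern
open Crest.Agent.R187.SN.KKey Crest.Agent.R187.SN.KD Crest.Agent.R187.SN.KE
open Crest.Agent.R187.SN.KRel Crest.Agent.R187.SN.KDec Crest.Agent.R187.SN.Img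
open Crest.Agent.R187.SN.WOk Crest.Agent.R187.SN.Top

theorem wtOk_gen {b : ℕ} (hb : b ≤ 6) {w : WT}
    (h : wChk (nbDec (bNF b)) (5 * b) (ixF 5 b) (ixF 5 (b + 1)) w = true) :
    Fwd.WtOk T (MT 5 b) b w := by
  have h1 : IxOK (5 * b + 5) (totF 5 (b + 1)) (ixF 5 (b + 1)) :=
    ixOK (a := 5) (b := b + 1) le_rfl (by omega)
  exact wtOk_of_chk (s := 5 * b) (LC := ixF 5 b) (LD := ixF 5 (b + 1)) (nb := nbDec (bNF b))
    (ixOK (a := 5) (b := b) le_rfl (by omega)) h1 (by omega) (fun _ => rfl) (fun _ => rfl)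
    (fun _ _ _ _ _ => rfl) h

theorem wt_ok0 {w : WT} (h : wChk (nbDec bN_5_0) 0 ix_5_0 ix_5_1 w = true) :
    Fwd.WtOk T (MT 5 0) 0 w := wtOk_gen (by norm_num) h

theorem wt_ok1 {w : WT} (h : wChk (nbDec bN_5_1) 5 ix_5_1 ix_5_2 w = true) :
    Fwd.WtOk T (MT 5 1) 1 w := wtOk_gen (by norm_num) h

theorem wt_ok2 {w : WT} (h : wChk (nbDec bN_5_2) 10 ix_5_2 ix_5_3 w = true) :
    Fwd.WtOk T (MT 5 2) 2 w := wtOk_gen (by norm_num) h

theorem wt_ok3 {w : WT} (h : wChk (nbDec bN_5_3) 15 ix_5_3 ix_5_4 w = true) :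
    Fwd.WtOk T (MT 5 3) 3 w := wtOk_gen (by norm_num) h

theorem wt_ok4 {w : WT} (h : wChk (nbDec bN_5_4) 20 ix_5_4 ix_5_5 w = true) :
    Fwd.WtOk T (MT 5 4) 4 w := wtOk_gen (by norm_num) h

theorem wt_ok5 {w : WT} (h : wChk (nbDec bN_5_5) 25 ix_5_5 ix_5_6 w = true) :
    Fwd.WtOk T (MT 5 5) 5 w := wtOk_gen (by norm_num) h

theorem wt_ok6 {w : WT} (h : wChk (nbDec bN_5_6) 30 ix_5_6 ix_5_7 w = true) :
    Fwd.WtOk T (MT 5 6) 6 w := wtOk_gen (by norm_num) h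

end Crest.Agent.R187.SN.Inst
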