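import Crest.Agent.R187.SN.Kern
import Crest.Agent.R187.SN.KD.NBase
import Crest.Agent.R187.SN.KD.Base

/-!
# Row 187, PLAN S, block E2: decoding of the compressed tables (kernel functions)

A table value `v = m + 2^6 s + 2^9 R + 2^18 x` describes a matrix with `m` columns in the packed
format (24-bit slots, row stride 33) as follows: `x` is a packed matrix with `R` rows, every slot
holds three 7-bit entries (rows `i`, `R + i`, `2R + i`), and then the columns `[w, 2w)`,
`w = m 2^t`, are moved below the columns `[0, w)`, `t = s-1, …, 0`.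
No property of the decoder is needed (tables are only checked), except `slot_decV_lt`.
-/

set_option autoImplicit false

namespace Crest.Agent.R187.SN.KDec

open Crest.Agent.R187.SN.Kern Crest.Agent.R187.SN.KD

/-- value of the key `k` (`0` if absent) -/
noncomputable def find (k : ℕ) (t : Tr) : ℕ :=
  Tr.rec (motive := fun _ => ℕ) 0 (fun key val _ _ ihl ihr =>
    Bool.rec (motive := fun _ => ℕ) ihr
      (Bool.rec (motive := fun _ => ℕ) ihl val (Nat.beq k key)) (Nat.ble k key)) t

/-- block list of the key `k` -/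
noncomputable def findL (k : ℕ) (t : NTr) : NE :=
  NTr.rec (motive := fun _ => NE) NE.nil (fun key val _ _ ihl ihr =>
    Bool.rec (motive := fun _ => NE) ihr
      (Bool.rec (motive := fun _ => NE) ihl val (Nat.beq k key)) (Nat.ble k key)) t

/-- block of the key `k` (`0` if absent) -/
noncomputable def findB (k : ℕ) (t : NE) : ℕ :=
  NE.rec (motive := fun _ => ℕ) 0 (fun key val _ ih =>
    Bool.rec (motive := fun _ => ℕ) ih val (Nat.beq k key)) t

/-- evaluate `n` before `f n` -/
def force (f : ℕ → ℕ) (n : ℕ) : ℕ :=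
  Nat.rec (motive := fun _ => ℕ) (f 0) (fun m _ => f (Nat.succ m)) n

/-- mask of the `T × 33` block -/
def mask (T : ℕ) : ℕ := blk 24 33 T 33 127

/-- mask of the first `w` columns -/
def cmask (w : ℕ) : ℕ := blk 24 33 512 w 127

/-- mask of all entries -/
def M7 : ℕ := mask 512

/-- split in two halves -/
def spl (M a b x : ℕ) : ℕ :=
  Nat.add (Nat.land x M) (Nat.shiftLeft (Nat.land (Nat.shiftRight x a) M) b)

/-- the column rounds; `B = 792 * (number of rows)` -/
def rounds (m s : ℕ) : ℕ → ℕ → ℕ :=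
  Nat.rec (motive := fun _ => ℕ → ℕ → ℕ) (fun _ y => y)
    (fun t ih B y => ih (Nat.mul 2 B) (spl (cmask (Nat.shiftLeft m t))
      (Nat.mul 24 (Nat.shiftLeft m t)) B y)) s

/-- decoding -/
def dec (m s B x : ℕ) : ℕ :=
  rounds m s (Nat.mul 3 B) (Nat.add (Nat.land x M7)
    (Nat.shiftLeft (spl M7 7 B (Nat.shiftRight x 7)) B))

/-- value `v = m + 2^6 s + 2^9 R + 2^18 x` of a table, decoded; `T` = number of rows -/
def decV (T v : ℕ) : ℕ :=
  Nat.land (force (fun m => dec m (Nat.mod (Nat.shiftRight v 6) 8)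
    (Nat.mul 792 (Nat.mod (Nat.shiftRight v 9) 512)) (Nat.shiftRight v 18)) (Nat.mod v 64))
    (mask T)

/-- table entry, decoded; `T` = number of rows (at most `512`) -/
noncomputable def vtDec (T : ℕ) (t : Tr) (k : ℕ) : ℕ := decV T (find k t)

/-- block `(k, e)` of a table with global rows -/
noncomputable def ngBlk (T : ℕ) (t : Tr) (k : ℕ) (e : IE) : ℕ :=
  Nat.shiftRight (vtDec T t k) (Nat.mul 24 (Nat.mul 33 (IE.off e)))

/-- block `(k, e)` of a table of blocks -/
noncomputable def nbDec (t : NTr) (k : ℕ) (e : IE) : ℕ := decV 33 (findB (IE.key e) (findL k t))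

theorem slot_decV_lt (T v n : ℕ) : slot 24 (decV T v) n < 2 ^ 7 := by
  unfold decV
  rw [slot_land]
  have h1 : slot 24 (mask T) n ≤ 127 := by
    unfold mask
    rw [slot_blk (by norm_num) (by norm_num) le_rfl (by norm_num)]
    split_ifs <;> norm_num
  have h2 : ∀ x : ℕ, Nat.land x (slot 24 (mask T) n) ≤ slot 24 (mask T) n :=
    fun x => Nat.and_le_right
  have h3 := h2 (slot 24 (force (fun m => dec m (Nat.mod (Nat.shiftRight v 6) 8)
    (Nat.mul 792 (Nat.mod (Nat.shiftRight v 9) 512)) (Nat.shiftRight v 18)) (Nat.mod v 64)) n)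
  omega

theorem good_decV (T v : ℕ) : Good 24 7 33 T 33 (decV T v) := by
  intro n
  refine ⟨slot_decV_lt T v n, fun h => ?_⟩
  unfold decV
  rw [slot_land]
  unfold mask
  rw [slot_blk (by norm_num) (by norm_num) le_rfl (by norm_num), if_neg h]
  exact Nat.and_zero _

theorem slot_vtDec_lt (T : ℕ) (t : Tr) (k n : ℕ) : slot 24 (vtDec T t k) n < 2 ^ 7 :=
  slot_decV_lt _ _ _

theorem good_vtDec (T : ℕ) (t : Tr) (k : ℕ) : Good 24 7 33 T 33 (vtDec T t k) := good_decV _ _

theorem slot_ngBlk_lt (T : ℕ) (t : Tr) (k : ℕ) (e : IE) (n : ℕ) :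
    slot 24 (ngBlk T t k e) n < 2 ^ 7 := by
  unfold ngBlk
  rw [slot_shr]
  exact slot_decV_lt _ _ _

theorem slot_nbDec_lt (t : NTr) (k : ℕ) (e : IE) (n : ℕ) : slot 24 (nbDec t k e) n < 2 ^ 7 :=
  slot_decV_lt _ _ _

end Crest.Agent.R187.SN.KDec
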