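import Crest.Agent.R187.SN.Gauge
import Crest.Agent.R187.SN.Strip

/-!
# Row 187, PLAN S, block C5: the path sum of the local lemma (L) equals `Spec.Fc` up to gauge
-/

set_option autoImplicit false

namespace Crest.Agent.R187.SN.Gauge

open Crest.Agent.R187.SN Finset

variable {r : ℕ} (K : Type*) [Field K]

/-- path sum: the letters of the word are passed below the strip (`κ'` = start shape of the strip,
`κ1` = its final shape, `lam` = final shape at the end) -/
def PB : List (Fin r) → (Fin r → ℕ) → (Fin r → ℕ) → (Fin r → ℕ) → K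
  | [], _, κ1, lam => if κ1 = lam then 1 else 0
  | j :: js, κ', κ1, lam =>
      ∑ k : Fin r, Strip.Bc K (add κ1 k) κ' k j * PB js (add κ' j) (add κ1 k) lam

/-- the coefficient of the local lemma -/
def FL (y : List (Fin r)) (κ' κ lam : Fin r → ℕ) : K :=
  ∑ k : Fin r, Strip.gc K (add κ k) κ' k * PB K y κ' (add κ k) lam

variable {K}

lemma Bc_eq (κ κ' : Fin r → ℕ) (k j : Fin r) :
    Strip.Bc K (add κ k) κ' k j = Bco K κ κ' k j := by
  rw [Strip.Bc, Bco, Strip.Nn, div_eq_mul_inv, ← prod_inv_distrib]
  congr 1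
  · apply prod_congr rfl
    intro l _
    rw [Strip.cK, Strip.cK, ct_add_same]
    push_cast
    ring
  · apply prod_congr rfl
    intro l hl
    rw [Strip.cK, Strip.cK, ct_add_same, ct_add_ne κ (ne_of_mem_erase hl)]
    push_cast
    ring

lemma gc_eq (κ κ' : Fin r → ℕ) (k : Fin r) :
    Strip.gc K (add κ k) κ' k = gco K κ κ' k := by
  rw [Strip.gc, gco, Strip.Nn, div_eq_mul_inv, ← prod_inv_distrib]
  congr 1
  · apply prod_congr rfl
    intro l _
    rw [Strip.cK, Strip.cK, ct_add_same]
    push_cast
    ring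
  · apply prod_congr rfl
    intro l hl
    rw [Strip.cK, Strip.cK, ct_add_same, ct_add_ne κ (ne_of_mem_erase hl)]
    push_cast
    ring

lemma PB_zero (js : List (Fin r)) : ∀ (κ' κ1 lam : Fin r → ℕ), ¬ (∀ i, κ1 i ≤ lam i) →
    PB K js κ' κ1 lam = 0 := by
  induction js with
  | nil =>
    intro κ' κ1 lam h
    rw [PB, if_neg]
    rintro rfl
    exact h fun i => le_rfl
  | cons j js ih =>
    intro κ' κ1 lam h
    rw [PB]
    apply sum_eq_zero
    intro k _
    rw [ih, mul_zero]
    intro h2
    exact h fun i => (le_add' κ1 k i).trans (h2 i)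

/-- a violation of the first interlacing inequality is never repaired in the strip form -/
lemma bad_zero_B (js : List (Fin r)) : ∀ (κ' κ1 lam : Fin r → ℕ), (∃ i, κ1 i + 1 ≤ κ' i) →
    (∀ i, sh κ' js i ≤ lam i) → PB K js κ' κ1 lam = 0 := by
  induction js with
  | nil =>
    rintro κ' κ1 lam ⟨i, hi⟩ h
    rw [PB, if_neg]
    rintro rfl
    have := h i
    rw [sh] at this
    omega
  | cons j js ih =>
    rintro κ' κ1 lam ⟨i, hi⟩ h
    rw [PB]
    apply sum_eq_zero
    intro k _
    have hj := le_add' κ' j i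
    by_cases hk : i = k
    · subst hk
      by_cases hij : i = j
      · subst hij
        rw [ih (add κ' i) (add κ1 i) lam ⟨i, by rw [add_same, add_same]; omega⟩ h, mul_zero]
      · by_cases h2 : κ1 i + 2 ≤ κ' i
        · rw [ih (add κ' j) (add κ1 i) lam ⟨i, by rw [add_same]; omega⟩ h, mul_zero]
        · rw [Bc_eq, Bco, prod_eq_zero (i := i) (mem_erase.mpr ⟨hij, mem_univ i⟩), zero_mul,
            zero_mul]
          have : ct κ1 i + 1 - ct κ' i = 0 := by
            unfold ct
            omega
          rw [this]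
          simp
    · rw [ih (add κ' j) (add κ1 k) lam ⟨i, by rw [add_ne κ1 hk]; omega⟩ h, mul_zero]

/-- what can go wrong in one step -/
lemma not_IL {κ κ' : Fin r → ℕ} {k j : Fin r} (h : IL κ' κ) (ha : Antitone (add κ' j))
    (h1 : ¬ IL (add κ' j) (add κ k)) :
    (j ≠ k ∧ κ j = κ' j) ∨
      ∃ i : Fin r, i ≠ j ∧ (i : ℕ) + 1 = k ∧ κ k = κ' i := by
  by_cases h3 : ∀ i, add κ' j i ≤ add κ k i
  · right
    have h4 : ∃ i l : Fin r, i < l ∧ add κ' j i < add κ k l := by
      by_contra h5
      push Not at h5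
      exact h1 ⟨h3, h5⟩
    obtain ⟨i, l, hil, h5⟩ := h4
    have hil' : (i : ℕ) < l := hil
    let i' : Fin r := ⟨l - 1, by omega⟩
    have hi'l : i' < l := by show (l : ℕ) - 1 < l; omega
    have h6 : add κ' j i' ≤ add κ' j i := ha (by show (i : ℕ) ≤ l - 1; omega)
    have h7 := h.2 i' l hi'l
    have h8 := le_add' κ' j i'
    have hlk : l = k := by
      by_contra hlk
      rw [add_ne κ hlk] at h5
      omega
    subst hlk
    have hj : i' ≠ j := by
      intro hj
      rw [← hj, add_same] at h6
      rw [← hj] at h5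
      rw [add_same] at h5
      omega
    refine ⟨i', hj, by show (l : ℕ) - 1 + 1 = l; omega, ?_⟩
    rw [add_same] at h5
    rw [add_ne κ' hj] at h6
    omega
  · left
    push Not at h3
    obtain ⟨i, hi⟩ := h3
    have h4 := h.1 i
    have h5 := le_add' κ k i
    have hij : i = j := by
      by_contra hij
      rw [add_ne κ' hij] at hi
      omega
    subst hij
    rw [add_same] at hi
    have hik : i ≠ k := by
      rintro rfl
      rw [add_same] at hi
      omega
    exact ⟨hik, by omega⟩

lemma sh_le {κ : Fin r → ℕ} (js : List (Fin r)) : ∀ i, κ i ≤ sh κ js i := by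
  induction js generalizing κ with
  | nil => intro i; exact le_rfl
  | cons a t ih => intro i; exact (le_add' κ a i).trans (ih i)

/-- a violation of the second interlacing inequality is never repaired (without `T_∞`) -/
lemma bad_zero' {lam : Fin r → ℕ} (js : List (Fin r)) : ∀ (κ κ' : Fin r → ℕ),
    (∃ i k : Fin r, (i : ℕ) + 1 = k ∧ κ' i + 1 ≤ κ k) → IL (sh κ' js) lam →
    Fg K ((contsW κ' js).map some) κ lam = 0 := by
  induction js with
  | nil =>
    rintro κ κ' ⟨i, k, hik, hv⟩ hf
    simp only [contsW, List.map_nil, Fg]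
    rw [if_neg]
    rintro rfl
    have h3 := hf.2 i k (by show (i : ℕ) < k; omega)
    rw [sh] at h3
    omega
  | cons j js ih =>
    rintro κ κ' ⟨i, k, hik, hv⟩ hf
    simp only [contsW, List.map_cons, Fg]
    apply sum_eq_zero
    intro m _
    split_ifs
    swap
    · rfl
    have hm := le_add' κ m k
    by_cases hij : i = j
    · subst hij
      by_cases h2 : κ' i + 2 ≤ add κ m k
      · rw [ih (add κ m) (add κ' i) ⟨i, k, hik, by rw [add_same]; omega⟩ hf, mul_zero]
      · have hmk : k ≠ m := by
          rintro rfl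
          rw [add_same] at h2
          omega
        have h3 : κ k = κ' i + 1 := by omega
        have h4 : tco K κ m (some (ct κ' i)) = 0 := by
          rw [tco]
          apply prod_eq_zero (mem_erase.mpr ⟨hmk, mem_univ k⟩)
          have h5 : ct κ k - ct κ' i = 0 := by
            unfold ct
            omega
          rw [h5]
          simp
        rw [h4, zero_mul]
    · rw [ih (add κ m) (add κ' j) ⟨i, k, hik, by rw [add_ne κ' hij]; omega⟩ hf, mul_zero]

/-- gauge equivalence for `PB` -/
theorem PB_eq {B : ℕ} (hK : HK K B) {lam : Fin r → ℕ} (hB : ∀ i, lam i + r ≤ B)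
    (js : List (Fin r)) : ∀ (κ' κ1 : Fin r → ℕ), IL κ' κ1 → Lat κ' js → IL (sh κ' js) lam →
    PB K js κ' κ1 lam * G K κ1 κ'
      = G K lam (sh κ' js) * Fg K ((contsW κ' js).map some) κ1 lam := by
  induction js with
  | nil =>
    intro κ' κ1 h _ hf
    simp only [contsW, List.map_nil, Fg, PB, sh] at hf ⊢
    split_ifs with h1
    · rw [h1, one_mul, mul_one]
    · rw [zero_mul, mul_zero]
  | cons j js ih =>
    intro κ' κ h hlat hf
    simp only [contsW, List.map_cons, Fg, PB, sh] at hf ⊢
    rw [sum_mul, mul_sum]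
    apply sum_congr rfl
    intro k _
    by_cases hle : ∀ i, add κ k i ≤ lam i
    swap
    · rw [PB_zero _ _ _ _ hle, Fg_zero _ _ _ hle]
      simp
    have hBk : ∀ i, add κ k i + r ≤ B := fun i => (Nat.add_le_add_right (hle i) r).trans (hB i)
    by_cases h1 : IL (add κ' j) (add κ k)
    · have h2 := ih (add κ' j) (add κ k) h1 hlat.2 hf
      have h3 := step_B hK h h1 hBk
      rw [if_pos h1.anti, Bc_eq]
      calc _ = (Bco K κ κ' k j * G K κ κ') * PB K js (add κ' j) (add κ k) lam := by ring
        _ = (PB K js (add κ' j) (add κ k) lam * G K (add κ k) (add κ' j))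
            * tco K κ k (some (ct κ' j)) := by rw [h3]; ring
        _ = _ := by rw [h2]; ring
    · rcases not_IL h hlat.2.anti h1 with ⟨hjk, hj⟩ | ⟨i, hij, hik, hi⟩
      · rw [bad_zero_B js (add κ' j) (add κ k) lam
          ⟨j, by rw [add_ne κ hjk, add_same]; omega⟩ hf.1]
        have h6 : tco K κ k (some (ct κ' j)) = 0 := by
          rw [tco]
          apply prod_eq_zero (mem_erase.mpr ⟨hjk, mem_univ j⟩)
          have h5 : ct κ j - ct κ' j = 0 := by
            unfold ct
            omega
          rw [h5]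
          simp
        rw [h6]
        simp
      · rw [Bc_eq, Bco, prod_eq_zero (i := i) (mem_erase.mpr ⟨hij, mem_univ i⟩)]
        · rw [bad_zero' js (add κ k) (add κ' j)
              ⟨i, k, hik, by rw [add_same, add_ne κ' hij]; omega⟩ hf]
          simp
        · have h5 : ct κ k + 1 - ct κ' i = 0 := by
            unfold ct
            omega
          rw [h5]
          simp

/-- **the coefficient of the local lemma (L) equals `Spec.Fc` up to gauge** -/
theorem FL_Fc {B : ℕ} (hK : HK K B) {κ κ' lam : Spec.Sh} (hB : ∀ i, lam i + 6 ≤ B)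
    (js : List (Fin 6)) (hκ : IL κ' κ) (hlat : Lat κ' js) (hf : IL (sh κ' js) lam)
    (hs : IL κ lam) :
    FL K js κ' κ lam * G K κ κ' = G K lam (sh κ' js) * Spec.Fc K κ κ' lam (sh κ' js) := by
  have hp : Spec.Fc K κ κ' lam (sh κ' js)
      = Fg K (none :: (contsW κ' js).map some) κ lam := by
    rw [Spec.Fc, Fp_eq]
    apply Fg_perm hK hB _ hs
    exact List.Perm.cons _ ((contsW_perm js κ').map some).symm
  rw [hp, FL, Fg, sum_mul, mul_sum]
  apply sum_congr rfl
  intro k _
  by_cases hle : ∀ i, add κ k i ≤ lam i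
  swap
  · rw [PB_zero _ _ _ _ hle, Fg_zero _ _ _ hle]
    simp
  have hBk : ∀ i, add κ k i + 6 ≤ B := fun i => (Nat.add_le_add_right (hle i) 6).trans (hB i)
  rw [if_pos (hs.between (le_add' κ k) hle).anti', gc_eq]
  by_cases h1 : IL κ' (add κ k)
  · have h2 := PB_eq hK hB js κ' (add κ k) h1 hlat hf
    have h3 := step_g hK hκ h1 hBk
    calc _ = (gco K κ κ' k * G K κ κ') * PB K js κ' (add κ k) lam := by ring
      _ = (PB K js κ' (add κ k) lam * G K (add κ k) κ') * tco K κ k none := by rw [h3]; ring
      _ = _ := by rw [h2]; ring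
  · -- the second inequality is violated
    have h4 : ∃ i l : Fin 6, i < l ∧ κ' i < add κ k l := by
      by_contra h5
      push Not at h5
      exact h1 ⟨fun i => (hκ.1 i).trans (le_add' κ k i), h5⟩
    obtain ⟨i, l, hil, h5⟩ := h4
    have hil' : (i : ℕ) < l := hil
    let i' : Fin 6 := ⟨l - 1, by omega⟩
    have hi'l : i' < l := by show (l : ℕ) - 1 < l; omega
    have h6 : κ' i' ≤ κ' i := hκ.anti' (by show (i : ℕ) ≤ l - 1; omega)
    have h7 := hκ.2 i' l hi'l
    have hlk : l = k := by
      by_contra hlk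
      rw [add_ne κ hlk] at h5
      omega
    subst hlk
    rw [add_same] at h5
    have hik : (i' : ℕ) + 1 = l := by show (l : ℕ) - 1 + 1 = l; omega
    rw [gco, prod_eq_zero (i := i') (mem_univ i'),
      bad_zero' js (add κ l) κ' ⟨i', l, hik, by rw [add_same]; omega⟩ hf]
    · simp
    · have h8 : ct κ l + 1 - ct κ' i' = 0 := by
        unfold ct
        omega
      rw [h8]
      simp

end Crest.Agent.R187.SN.Gauge
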