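import Crest.Agent.R187.SN.Insert3
import Crest.Agent.R187.SN.Strip

/-!
# Row 187, PLAN S, block (C1): the operators in terms of `T κ i`
-/

set_option autoImplicit false

namespace Crest.Agent.R187.SN.Ins

open Equiv Crest.Agent.R187.SN Link Strip

variable {r : ℕ} {K : Type*} [Field K]

lemma rh_cycP {B : ℕ} (hK : HK K B) {κ : Fin r → ℕ} {N : ℕ} (hB : Bd B κ N) (m : ℕ) :
    ∀ (i : ℕ) (_ : i + m < N) (f : V K κ N),
    (rh hK hB (cycP N i m) f : List (Fin r) → K) = cyc κ i m (f : List (Fin r) → K) := by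
  induction m with
  | zero => intro i _ f; simp [cycP, cyc]
  | succ m ih =>
    intro i hi f
    rw [cycP, map_mul, Module.End.mul_apply, rh_s hK hB i (by omega), TV_coe,
      ih (i + 1) (by omega)]
    rfl

lemma rh_bsP {B : ℕ} (hK : HK K B) {κ : Fin r → ℕ} {N : ℕ} (hB : Bd B κ N) (m q : ℕ) :
    ∀ (i : ℕ) (_ : i + m + q ≤ N) (f : V K κ N),
    (rh hK hB (bsP N m i q) f : List (Fin r) → K) = bs κ i m q (f : List (Fin r) → K) := by
  induction q with
  | zero => intro i _ f; simp [bsP, bs]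
  | succ q ih =>
    intro i hi f
    rw [bsP, map_mul, Module.End.mul_apply, ih (i + 1) (by omega), rh_cycP hK hB m i (by omega)]
    rfl

lemma rhA_csum {B : ℕ} (hK : HK K B) {κ : Fin r → ℕ} {N : ℕ} (hB : Bd B κ N) (m M q : ℕ)
    (hm : m < M) (hM : q + M ≤ N) (f : V K κ N) :
    (rhA hK hB (embA K q hM (csum K M m)) f : List (Fin r) → K)
      = sy κ q m (f : List (Fin r) → K) := by
  rw [embA_csum q hM m hm, map_sum, LinearMap.sum_apply]
  funext w
  rw [sy_apply]
  rw [Submodule.coe_sum, Finset.sum_apply]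
  refine Finset.sum_congr rfl fun k hk => ?_
  rw [Finset.mem_range] at hk
  rw [single_fix, rh_cycP hK hB _ _ (by omega)]

lemma rhA_loc {B : ℕ} (hK : HK K B) {κ : Fin r → ℕ} {N : ℕ} (hB : Bd B κ N) (a b q : ℕ)
    (h : q + (b + 1 + a) ≤ N) (f : V K κ N) :
    (rhA hK hB (embA K q h (loc K a b)) f : List (Fin r) → K)
      = bs κ q (b + 1) a (sy κ q b (f : List (Fin r) → K)) := by
  rw [loc, map_mul, map_mul, Module.End.mul_apply, embA_single, single_fix,
    emb_bsP q h (b + 1) a 0 (by omega)]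
  show (rh hK hB (bsP N (b + 1) q a) _ : List (Fin r) → K) = _
  rw [rh_bsP hK hB (b + 1) a q (by omega), rhA_csum hK hB b _ q (by omega)]

/-- the local operator on functions -/
lemma rhA_loc' {B : ℕ} (hK : HK K B) {κ : Fin r → ℕ} (a b : ℕ) (hB : Bd B κ (b + 1 + a))
    (f : V K κ (b + 1 + a)) :
    (rhA hK hB (loc K a b) f : List (Fin r) → K)
      = bs κ 0 (b + 1) a (sy κ 0 b (f : List (Fin r) → K)) := by
  have h1 := rhA_loc hK hB a b 0 (by omega) f
  have h2 : embA K 0 (show 0 + (b + 1 + a) ≤ b + 1 + a by omega) (loc K a b) = loc K a b := by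
    have h3 : ∀ x : MonoidAlgebra K (Perm (Fin (b + 1 + a))),
        embA K 0 (show 0 + (b + 1 + a) ≤ b + 1 + a by omega) x = x := by
      intro x
      induction x using alg_induction with
      | h0 => simp
      | ha x y hx hy => rw [map_add, hx, hy]
      | hs g c =>
        rw [embA_single]
        congr 1
        ext x
        rcases in_or_out 0 (show 0 + (b + 1 + a) ≤ b + 1 + a by omega) x with ⟨i, rfl⟩ | hx
        · rw [emb_in, embF_val]
          have : embF 0 (show 0 + (b + 1 + a) ≤ b + 1 + a by omega) i = i := by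
            ext
            rw [embF_val, zero_add]
          rw [this, zero_add]
        · have := x.2
          omega
    exact h3 _
  rw [h2] at h1
  exact h1

/-- column insertion on functions, from `b` to `b + 1` columns -/
noncomputable def Pop (K : Type*) [Field K] (r b : ℕ) :
    ℕ → ((List (Fin r) → K) →ₗ[K] (List (Fin r) → K))
  | 0 => LinearMap.id
  | a + 1 => Pop K r b a ∘ₗ bs 0 (a * b) (b + 1) a ∘ₗ sy 0 (a * b) b

lemma rhA_G {B : ℕ} (hK : HK K B) (b : ℕ) : ∀ (a : ℕ) {N : ℕ}
    (hB : Bd B (0 : Fin r → ℕ) N) (h : 0 + a * (b + 1) ≤ N) (f : V K (0 : Fin r → ℕ) N),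
    (rhA hK hB (embA K 0 h (G K a b)) f : List (Fin r) → K)
      = Pop K r b a (f : List (Fin r) → K)
  | 0, N, hB, h, f => by
    rw [G, map_one, map_one]
    rfl
  | a + 1, N, hB, h, f => by
    have h1 : (a + 1) * (b + 1) = a * b + (b + 1 + a) := by ring
    have h2 : (a + 1) * (b + 1) = a * (b + 1) + (b + 1) := by ring
    have e1 : embA K (0 + 0) (show 0 + 0 + a * (b + 1) ≤ N by omega) (G K a b)
        = embA K 0 (show 0 + a * (b + 1) ≤ N by omega) (G K a b) := rfl
    have e2 : embA K (0 + a * b) (show 0 + a * b + (b + 1 + a) ≤ N by omega) (loc K a b)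
        = embA K (a * b) (show a * b + (b + 1 + a) ≤ N by omega) (loc K a b) := by
      congr 1
      simp
    rw [G, map_mul, map_mul, Module.End.mul_apply, embA_embA, embA_embA, e1, e2,
      rhA_G hK b a hB, rhA_loc]
    rfl

/-- **C1, in terms of the operators `T κ i`** -/
theorem pop_range {B : ℕ} (hK : HK K B) (a b : ℕ) (hB : Bd B (0 : Fin r → ℕ) (a * b))
    (hB' : Bd B (0 : Fin r → ℕ) (a * (b + 1))) (ha : (a.factorial : K) ≠ 0)
    (κ lam : Fin r → ℕ) (hz : Hz κ lam) (x : V K (0 : Fin r → ℕ) (a * b))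
    (hx : x ∈ LinearMap.range (rhA hK hB (E K (eE a b))))
    (hxκ : ∀ w, sh 0 w ≠ κ → (x : List (Fin r) → K) w = 0)
    (f : List (Fin r) → K)
    (hf1 : ∀ w, Lat 0 w → w.length = a * (b + 1) → sh 0 w = lam →
      f w = (x : List (Fin r) → K) (w.take (a * b)))
    (hf0 : ∀ w, ¬ (Lat 0 w ∧ w.length = a * (b + 1) ∧ sh 0 w = lam) → f w = 0) :
    ∃ h : Pop K r b a f ∈ V K (0 : Fin r → ℕ) (a * (b + 1)),
      (⟨Pop K r b a f, h⟩ : V K (0 : Fin r → ℕ) (a * (b + 1)))
        ∈ LinearMap.range (rhA hK hB' (E K (eE a (b + 1)))) := by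
  have h1 : f = (Z (a * b) (a * (b + 1)) κ lam x : V K (0 : Fin r → ℕ) (a * (b + 1))) := by
    funext w
    rw [Z_coe]
    by_cases hw : w.length = a * (b + 1)
    swap
    · rw [hf0 w (fun h => hw h.2.1), if_neg (fun h => hw h.1)]
    by_cases hs : sh 0 (w.take (a * b)) = κ
    swap
    · rw [if_neg (fun h => hs h.2)]
      by_cases hL : Lat 0 w ∧ w.length = a * (b + 1) ∧ sh 0 w = lam
      · rw [hf1 w hL.1 hL.2.1 hL.2.2, hxκ _ hs]
      · rw [hf0 w hL]
    rw [if_pos ⟨hw, hs⟩]
    by_cases hL : Lat 0 w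
    · have e1 : sh κ (w.drop (a * b)) = sh 0 w := by
        conv_rhs => rw [← List.take_append_drop (a * b) w, sh_append, hs]
      by_cases h2 : sh 0 w = lam
      · rw [hf1 w hL hw h2]
        unfold str
        rw [if_pos ⟨hz, e1.trans h2⟩, mul_one]
      · rw [hf0 w (fun h => h2 h.2.2), str_zero (fun h => h2 (e1.symm.trans h.2)), mul_zero]
    · rw [hf0 w (fun h => hL h.1)]
      by_cases h2 : (x : List (Fin r) → K) (w.take (a * b)) = 0
      · rw [h2, zero_mul]
      · have h3 : Lat 0 (w.take (a * b)) := by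
          by_contra hcon
          exact h2 (x.2 _ (fun h => hcon h.1))
        rw [str_zero, mul_zero]
        rintro ⟨h4, h5⟩
        apply hL
        have h6 := (lat_append 0 (w.take (a * b)) (w.drop (a * b))).2 ⟨h3, by
          rw [hs]
          exact h4.lat h5⟩
        rwa [List.take_append_drop] at h6
  have h2 := InX.step hK a b hB hB' κ lam ((inX_iff hK a b hB ha x).2 hx)
  rw [inX_iff hK a (b + 1) hB' ha] at h2
  have h3 : (rhA hK hB' (G K a b) (Z (a * b) (a * (b + 1)) κ lam x) : List (Fin r) → K)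
      = Pop K r b a f := by
    have h4 := rhA_G hK b a hB' (show 0 + a * (b + 1) ≤ a * (b + 1) by omega)
      (Z (a * b) (a * (b + 1)) κ lam x)
    have h5 : ∀ {N : ℕ} (x : MonoidAlgebra K (Perm (Fin N))) (h : 0 + N ≤ N),
        embA K 0 h x = x := by
      intro N x h
      induction x using alg_induction with
      | h0 => simp
      | ha x y hx hy => rw [map_add, hx, hy]
      | hs g c =>
        rw [embA_single]
        congr 1
        ext x
        rcases in_or_out 0 h x with ⟨i, rfl⟩ | hx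
        · rw [emb_in, embF_val]
          have : embF 0 h i = i := by
            ext
            rw [embF_val, zero_add]
          rw [this, zero_add]
        · have := x.2
          omega
    rw [h5] at h4
    rw [h4, h1]
  rw [← h3]
  exact ⟨(rhA hK hB' (G K a b) (Z (a * b) (a * (b + 1)) κ lam x)).2, h2⟩

end Crest.Agent.R187.SN.Ins
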