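import Crest.Agent.R187.SN.Gauge2
import Crest.Agent.R187.SN.Insert4

/-!
# Row 187, PLAN S, block (C4): from pattern functions to vectors of the seminormal module
-/

set_option autoImplicit false

namespace Crest.Agent.R187.SN.Iota

open Crest.Agent.R187.SN Gauge

variable (K : Type*) [Field K]

open scoped Classical in
/-- pattern functions of level `a` (top shape `lam`) as functions on words of length `a * b` -/
noncomputable def iota : (a b : ℕ) → Spec.Sh → (List Spec.Sh → K) → (List (Fin 6) → K)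
  | 0, _, lam, x => fun w => if w = [] ∧ lam = 0 then x [] else 0
  | a + 1, b, lam, x => fun w =>
      if Lat 0 w ∧ w.length = (a + 1) * b ∧ sh 0 w = lam ∧
          Spec.HS (sh 0 (w.take (a * b))) lam b then
        Gauge.G K lam (sh 0 (w.take (a * b))) *
          iota a b (sh 0 (w.take (a * b)))
            (fun l => x (sh 0 (w.take (a * b)) :: l)) (w.take (a * b))
      else 0

open scoped Classical in
/-- append a strip: `n` old letters, `m` new letters, final shape `lam` -/
noncomputable def Zf (n m : ℕ) (lam : Spec.Sh) (f : List (Fin 6) → K) : List (Fin 6) → K :=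
  fun w => if Lat 0 w ∧ w.length = n + m ∧ sh 0 w = lam then f (w.take n) else 0

/-- supported on valid chains -/
def VC : (a b : ℕ) → Spec.Sh → (List Spec.Sh → K) → Prop
  | 0, _, lam, x => (lam ≠ 0 → x [] = 0) ∧ ∀ l, l ≠ [] → x l = 0
  | a + 1, b, lam, x => x [] = 0 ∧
      ∀ κ, VC a b κ (fun l => x (κ :: l)) ∧ (¬ Spec.HS κ lam b → ∀ l, x (κ :: l) = 0)

variable {K}

lemma iota_add (a b : ℕ) : ∀ (lam : Spec.Sh) (x y : List Spec.Sh → K),
    iota K a b lam (x + y) = iota K a b lam x + iota K a b lam y := by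
  induction a with
  | zero =>
    intro lam x y
    funext w
    simp only [iota, Pi.add_apply]
    split_ifs <;> simp
  | succ a ih =>
    intro lam x y
    funext w
    have h := congrFun (ih (sh 0 (w.take (a * b))) (fun l => x (sh 0 (w.take (a * b)) :: l))
      (fun l => y (sh 0 (w.take (a * b)) :: l))) (w.take (a * b))
    simp only [Pi.add_apply] at h
    simp only [iota, Pi.add_apply]
    split_ifs
    · rw [← mul_add, ← h]
      rfl
    · simp

lemma iota_smul (a b : ℕ) : ∀ (lam : Spec.Sh) (c : K) (x : List Spec.Sh → K),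
    iota K a b lam (c • x) = c • iota K a b lam x := by
  induction a with
  | zero =>
    intro lam c x
    funext w
    simp only [iota, Pi.smul_apply]
    split_ifs <;> simp
  | succ a ih =>
    intro lam c x
    funext w
    have h := congrFun (ih (sh 0 (w.take (a * b))) c
      (fun l => x (sh 0 (w.take (a * b)) :: l))) (w.take (a * b))
    simp only [Pi.smul_apply, smul_eq_mul] at h
    simp only [iota, Pi.smul_apply, smul_eq_mul]
    split_ifs
    · rw [mul_left_comm, ← h]
      rfl
    · simp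

/-- `iota` as a linear map -/
noncomputable def iotaL (a b : ℕ) (lam : Spec.Sh) :
    (List Spec.Sh → K) →ₗ[K] (List (Fin 6) → K) where
  toFun := iota K a b lam
  map_add' := iota_add a b lam
  map_smul' := iota_smul a b lam

lemma iotaL_apply (a b : ℕ) (lam : Spec.Sh) (x : List Spec.Sh → K) :
    iotaL a b lam x = iota K a b lam x := rfl

lemma iota_zero (a b : ℕ) (lam : Spec.Sh) : iota K a b lam 0 = 0 :=
  (iotaL (K := K) a b lam).map_zero

lemma iota_sum {ι : Type*} (s : Finset ι) (a b : ℕ) (lam : Spec.Sh) (f : ι → List Spec.Sh → K) :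
    iota K a b lam (∑ i ∈ s, f i) = ∑ i ∈ s, iota K a b lam (f i) :=
  map_sum (iotaL (K := K) a b lam) f s

/-- support -/
lemma iota_supp (a b : ℕ) (lam : Spec.Sh) (x : List Spec.Sh → K) (w : List (Fin 6))
    (h : iota K a b lam x w ≠ 0) : Lat 0 w ∧ w.length = a * b ∧ sh 0 w = lam := by
  cases a with
  | zero =>
    simp only [iota] at h
    split_ifs at h with h1
    · obtain ⟨rfl, rfl⟩ := h1
      refine ⟨fun _ _ _ => le_rfl, by simp, rfl⟩
    · exact absurd rfl h
  | succ a =>
    simp only [iota] at h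
    split_ifs at h with h1
    · exact ⟨h1.1, h1.2.1, h1.2.2.1⟩
    · exact absurd rfl h

lemma iota_mem (a b : ℕ) (lam : Spec.Sh) (x : List Spec.Sh → K) :
    iota K a b lam x ∈ V K (0 : Fin 6 → ℕ) (a * b) := by
  rw [mem_V]
  intro w hw
  by_contra h
  have := iota_supp a b lam x w h
  exact hw ⟨this.1, this.2.1⟩

lemma iota_shape (a b : ℕ) (lam : Spec.Sh) (x : List Spec.Sh → K) (w : List (Fin 6))
    (h : sh 0 w ≠ lam) : iota K a b lam x w = 0 := by
  by_contra h1
  exact h (iota_supp a b lam x w h1).2.2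

/-- value on a concatenation `old word ++ strip` -/
lemma iota_append (a b : ℕ) (lam : Spec.Sh) (x : List Spec.Sh → K) (w v : List (Fin 6))
    (hw : w.length = a * b) (hL : Lat 0 (w ++ v)) (hv : v.length = b) (hs : sh 0 (w ++ v) = lam)
    (hH : Spec.HS (sh 0 w) lam b) :
    iota K (a + 1) b lam x (w ++ v)
      = Gauge.G K lam (sh 0 w) * iota K a b (sh 0 w) (fun l => x (sh 0 w :: l)) w := by
  have ht : (w ++ v).take (a * b) = w := by
    rw [← hw, List.take_left']
    rfl
  simp only [iota]
  rw [ht, if_pos ⟨hL, by rw [List.length_append, hw, hv]; ring, hs, hH⟩]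

/-! ### valid chains -/

lemma VC.zero (a b : ℕ) : ∀ lam : Spec.Sh, VC K a b lam 0 := by
  induction a with
  | zero => intro lam; exact ⟨fun _ => rfl, fun _ _ => rfl⟩
  | succ a ih => intro lam; exact ⟨rfl, fun κ => ⟨ih κ, fun _ _ => rfl⟩⟩

lemma VC.add (a b : ℕ) : ∀ (lam : Spec.Sh) (x y : List Spec.Sh → K), VC K a b lam x →
    VC K a b lam y → VC K a b lam (x + y) := by
  induction a with
  | zero =>
    intro lam x y hx hy
    refine ⟨fun h => ?_, fun l hl => ?_⟩
    · rw [Pi.add_apply, hx.1 h, hy.1 h, add_zero]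
    · rw [Pi.add_apply, hx.2 l hl, hy.2 l hl, add_zero]
  | succ a ih =>
    intro lam x y hx hy
    refine ⟨?_, fun κ => ⟨ih κ _ _ (hx.2 κ).1 (hy.2 κ).1, fun h l => ?_⟩⟩
    · rw [Pi.add_apply, hx.1, hy.1, add_zero]
    · rw [Pi.add_apply, (hx.2 κ).2 h l, (hy.2 κ).2 h l, add_zero]

lemma VC.smul (a b : ℕ) : ∀ (lam : Spec.Sh) (c : K) (x : List Spec.Sh → K), VC K a b lam x →
    VC K a b lam (c • x) := by
  induction a with
  | zero =>
    intro lam c x hx
    refine ⟨fun h => ?_, fun l hl => ?_⟩
    · rw [Pi.smul_apply, hx.1 h, smul_zero]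
    · rw [Pi.smul_apply, hx.2 l hl, smul_zero]
  | succ a ih =>
    intro lam c x hx
    refine ⟨?_, fun κ => ⟨ih κ _ _ (hx.2 κ).1, fun h l => ?_⟩⟩
    · rw [Pi.smul_apply, hx.1, smul_zero]
    · rw [Pi.smul_apply, (hx.2 κ).2 h l, smul_zero]

/-- the submodule of functions supported on valid chains -/
def VCs (a b : ℕ) (lam : Spec.Sh) : Submodule K (List Spec.Sh → K) where
  carrier := {x | VC K a b lam x}
  zero_mem' := VC.zero a b lam
  add_mem' {x y} hx hy := VC.add a b lam x y hx hy
  smul_mem' c x hx := VC.smul a b lam c x hx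

lemma mem_VCs {a b : ℕ} {lam : Spec.Sh} {x : List Spec.Sh → K} :
    x ∈ VCs (K := K) a b lam ↔ VC K a b lam x := Iff.rfl

end Crest.Agent.R187.SN.Iota
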