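import Crest.Agent.R187.SN.Local
import Crest.Agent.R187.SN.Gauge2
import Crest.Agent.R187.SN.Insert4
import Crest.Agent.R187.SN.IotaDef

/-!
# Row 187, PLAN S, block (C-c): the recursion (R)

`Pop (Z (iota x)) = iota (Mop x)`: the column insertion on words is the operator `Spec.Mop` on
pattern functions.
-/

set_option autoImplicit false

namespace Crest.Agent.R187.SN.Iota

open Crest.Agent.R187.SN Crest.Agent.R187.SN.Spec Finset
open Crest.Agent.R187.SN.Ins (Pop)

variable {K : Type*} [Field K]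

/-! ### linearity -/

lemma iota_lsum {ι : Type*} (s : Finset ι) (a b : ℕ) (lam : Sh) (c : ι → K)
    (X : ι → List Sh → K) (w : List (Fin 6)) :
    iota K a b lam (fun l => ∑ i ∈ s, c i * X i l) w = ∑ i ∈ s, c i * iota K a b lam (X i) w := by
  induction a generalizing lam X w with
  | zero =>
    simp only [iota]
    split_ifs
    · rfl
    · simp
  | succ a ih =>
    simp only [iota]
    split_ifs
    · rw [ih, mul_sum]
      apply sum_congr rfl
      intro i _
      ring
    · simp

lemma iota_z (a b : ℕ) (lam : Sh) (w : List (Fin 6)) :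
    iota K a b lam (fun _ => 0) w = 0 := by
  have h := iota_lsum (K := K) (∅ : Finset ℕ) a b lam (fun _ => 0) (fun _ _ => 0) w
  simpa using h

lemma iota_ne {a b : ℕ} {lam : Sh} {x : List Sh → K} {w : List (Fin 6)}
    (h : iota K a b lam x w ≠ 0) : Lat 0 w ∧ w.length = a * b ∧ sh 0 w = lam :=
  iota_supp a b lam x w h

/-! ### locality of `Pop` -/

lemma Pop_congr {a b : ℕ} {f g : List (Fin 6) → K} {w : List (Fin 6)}
    (h : ∀ u : List (Fin 6), u.Perm w → f u = g u) : Pop K 6 b a f w = Pop K 6 b a g w := by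
  induction a generalizing f g with
  | zero => exact h w (List.Perm.refl _)
  | succ a ih =>
    simp only [Pop, LinearMap.comp_apply]
    apply ih
    intro u hu
    apply Loc.bs_congr
    intro v hv
    apply Loc.sy_congr
    intro z hz
    exact h z (hz.trans (hv.trans hu))

lemma bs_append_left (κ : Fin 6 → ℕ) (i m q : ℕ) (f : List (Fin 6) → K) (x y : List (Fin 6))
    (h : i + m + q ≤ x.length) : Strip.bs κ i m q f (x ++ y) =
      Strip.bs κ i m q (fun u => f (u ++ y)) x := by
  induction q generalizing i x f with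
  | zero => rfl
  | succ q ih =>
    simp only [Strip.bs, LinearMap.comp_apply]
    rw [ih (i + 1) _ x (by omega)]
    apply Loc.bs_congr
    intro u hu
    exact Loc.cyc_append_left κ i m f u y (by rw [hu.length_eq]; omega)

lemma Pop_append_left (a b : ℕ) (f : List (Fin 6) → K) (x y : List (Fin 6))
    (h : a * (b + 1) ≤ x.length) :
    Pop K 6 b a f (x ++ y) = Pop K 6 b a (fun u => f (u ++ y)) x := by
  induction a generalizing f with
  | zero => rfl
  | succ a ih =>
    simp only [Pop, LinearMap.comp_apply]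
    have h1 : (a + 1) * (b + 1) = a * b + a + (b + 1) := by ring
    have h2 : a * (b + 1) = a * b + a := by ring
    rw [ih _ (by omega)]
    apply Pop_congr
    intro u hu
    rw [bs_append_left 0 (a * b) (b + 1) a _ u y (by rw [hu.length_eq]; omega)]
    apply Loc.bs_congr
    intro v hv
    exact Loc.sy_append_left 0 (a * b) b f v y (by rw [hv.length_eq, hu.length_eq]; omega)

lemma Pop_sum {ι : Type*} (s : Finset ι) (a b : ℕ) (c : ι → K)
    (X : ι → List (Fin 6) → K) (w : List (Fin 6)) :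
    Pop K 6 b a (fun w => ∑ i ∈ s, c i * X i w) w = ∑ i ∈ s, c i * Pop K 6 b a (X i) w := by
  have e : (fun w => ∑ i ∈ s, c i * X i w) = ∑ i ∈ s, c i • X i := by
    funext w
    rw [Finset.sum_apply]
    rfl
  rw [e, map_sum, Finset.sum_apply]
  apply sum_congr rfl
  intro i _
  rw [map_smul]
  rfl

/-! ### the coefficients -/

lemma Cw_eq_PB (κ b c : Fin 6 → ℕ) (y : List (Fin 6)) :
    Loc.Cw K κ b c y = Gauge.PB K y κ b c := by
  induction y generalizing κ b with
  | nil => rfl
  | cons j v ih =>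
    simp only [Loc.Cw, Gauge.PB]
    apply sum_congr rfl
    intro k _
    rw [ih]

lemma FL_eq (κ' κ lam : Fin 6 → ℕ) (y : List (Fin 6)) :
    Loc.FL K κ' κ lam y = Gauge.FL K y κ' κ lam := by
  unfold Loc.FL Gauge.FL
  apply sum_congr rfl
  intro k _
  rw [Cw_eq_PB]

lemma HS_iff {κ lam : Sh} {m : ℕ} :
    HS κ lam m ↔ Ins.Hz κ lam ∧ ∑ i, lam i = ∑ i, κ i + m := by
  unfold HS Ins.Hz
  rw [and_assoc]

lemma Hz_IL {κ lam : Sh} (h : Ins.Hz κ lam) : Gauge.IL κ lam := h

/-! ### the first step of the insertion -/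

/-- slice of `Z (iota x)` -/
lemma Zf_slice (a b : ℕ) (κ lam : Sh) (x : List Sh → K) (w1 v : List (Fin 6))
    (h1 : w1.length = a * b) :
    Zf K ((a + 1) * b) (a + 1) lam (iota K (a + 1) b κ x) (w1 ++ v) =
      (if HS (sh 0 w1) κ b then Gauge.G K κ (sh 0 w1) *
          iota K a b (sh 0 w1) (fun l => x (sh 0 w1 :: l)) w1 else 0) *
        Strip.ind2 K (sh 0 w1) b κ (a + 1) lam v := by
  classical
  have e1 : (w1 ++ v).take ((a + 1) * b) = w1 ++ v.take b := by
    rw [List.take_append, h1, List.take_of_length_le (by rw [h1, Nat.add_one_mul]; omega)]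
    congr 2
    rw [Nat.add_one_mul]
    omega
  have e2 : (w1 ++ v.take b).take (a * b) = w1 := List.take_left' h1
  have e3 : (a + 1) * b = a * b + b := Nat.add_one_mul a b
  have e4 : (a + 1) * b + (a + 1) = a * b + (b + (a + 1)) := by ring
  set c : K := Gauge.G K κ (sh 0 w1) * iota K a b (sh 0 w1) (fun l => x (sh 0 w1 :: l)) w1
    with hc
  unfold Zf
  rw [e1]
  simp only [iota]
  rw [e2, ← hc]
  by_cases hH : HS (sh 0 w1) κ b
  swap
  · rw [if_neg hH, zero_mul]
    split_ifs with h2 h3
    · exact absurd h3.2.2.2 hH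
    · rfl
    · rfl
  rw [if_pos hH]
  by_cases hc0 : c = 0
  · rw [hc0, zero_mul]
    split_ifs <;> rfl
  have hL : Lat 0 w1 := (iota_ne (right_ne_zero_of_mul (hc ▸ hc0))).1
  unfold Strip.ind2
  by_cases hv : Lat (sh 0 w1) v ∧ v.length = b + (a + 1) ∧ sh (sh 0 w1) (v.take b) = κ ∧
      sh (sh 0 w1) v = lam
  · rw [if_pos hv, mul_one]
    obtain ⟨hv1, hv2, hv3, hv4⟩ := hv
    have hv5 : Lat (sh 0 w1) (v.take b) := by
      have := hv1
      rw [← List.take_append_drop b v, lat_append] at this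
      exact this.1
    rw [if_pos, if_pos]
    · refine ⟨(lat_append _ _ _).2 ⟨hL, hv5⟩, ?_, ?_, hH⟩
      · rw [List.length_append, h1, List.length_take, hv2, e3]
        omega
      · rw [sh_append, hv3]
    · refine ⟨(lat_append _ _ _).2 ⟨hL, hv1⟩, ?_, ?_⟩
      · rw [List.length_append, h1, hv2, e4]
      · rw [sh_append, hv4]
  · rw [if_neg hv, mul_zero]
    split_ifs with h2 h3
    · exfalso
      apply hv
      obtain ⟨h4, h5, h6⟩ := h2
      rw [List.length_append, h1, e4] at h5
      rw [lat_append] at h4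
      rw [sh_append] at h6
      refine ⟨h4.2, by omega, ?_, h6⟩
      rw [← sh_append]
      exact h3.2.2.1
    · rfl
    · rfl

lemma Hz_of_HS {κ lam : Sh} {m : ℕ} (h : HS κ lam m) : Ins.Hz κ lam := (HS_iff.1 h).1

lemma mem_below {κ lam : Sh} : κ ∈ below lam ↔ ∀ i, κ i ≤ lam i := by
  unfold below
  rw [Fintype.mem_piFinset]
  simp only [mem_range, Nat.lt_succ_iff]

lemma le_sum (κ : Sh) (i : Fin 6) : κ i ≤ ∑ i, κ i :=
  single_le_sum (f := κ) (fun _ _ => Nat.zero_le _) (mem_univ i)

open Classical in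
/-- the values after the first step -/
lemma step_val {B : ℕ} (hK : HK K B) (a b : ℕ) (hB : (a + 1) * (b + 1) + 6 ≤ B) (κ lam : Sh)
    (hκ : HS κ lam (a + 1)) (x : List Sh → K) (hx : VC K (a + 1) b κ x)
    (u y : List (Fin 6)) (hu : u.length = a * (b + 1)) (hy : y.length = b + 1) :
    Strip.bs (0 : Fin 6 → ℕ) (a * b) (b + 1) a
        (Strip.sy 0 (a * b) b (Zf K ((a + 1) * b) (a + 1) lam (iota K (a + 1) b κ x))) (u ++ y) =
      (if Lat (sh 0 u) y ∧ sh (sh 0 u) y = lam ∧ HS (sh 0 u) lam (b + 1) then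
        Gauge.G K lam (sh 0 u) else 0) *
      ∑ κ' ∈ below (sh 0 u), (if HS κ' (sh 0 u) a then Fc K κ κ' lam (sh 0 u) else 0) *
        Zf K (a * b) a (sh 0 u) (iota K a b κ' (fun l => x (κ' :: l))) u := by
  have e4 : (a + 1) * (b + 1) = a * b + (b + 1 + a) := by ring
  have e5 : a * (b + 1) = a * b + a := by ring
  obtain ⟨w1, js, rfl, h1⟩ : ∃ w1 js : List (Fin 6), u = w1 ++ js ∧ w1.length = a * b :=
    ⟨u.take (a * b), u.drop (a * b), (List.take_append_drop _ _).symm, by
      rw [List.length_take]; omega⟩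
  have h2 : js.length = a := by
    rw [List.length_append] at hu
    omega
  set κ' : Sh := sh 0 w1 with hκ'
  have hlam' : sh 0 (w1 ++ js) = sh κ' js := by rw [sh_append]
  set I : K := iota K a b κ' (fun l => x (κ' :: l)) w1 with hI
  -- left-hand side
  have hL : Strip.bs (0 : Fin 6 → ℕ) (a * b) (b + 1) a
        (Strip.sy 0 (a * b) b (Zf K ((a + 1) * b) (a + 1) lam (iota K (a + 1) b κ x))) ((w1 ++ js) ++ y) =
      (if HS κ' κ b then Gauge.G K κ κ' * I else 0) * Loc.LV K κ' b κ a lam (js ++ y) := by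
    have e6 : a * b = w1.length + 0 := by omega
    rw [List.append_assoc]
    conv_lhs => rw [e6]
    rw [Loc.bs_append_right]
    have e7 : (fun v => Strip.sy (0 : Fin 6 → ℕ) (w1.length + 0) b
        (Zf K ((a + 1) * b) (a + 1) lam (iota K (a + 1) b κ x)) (w1 ++ v)) =
        (if HS κ' κ b then Gauge.G K κ κ' * I else 0) •
          Strip.sy κ' 0 b (Strip.ind2 K κ' b κ (a + 1) lam) := by
      rw [← map_smul]
      funext v
      rw [Loc.sy_append_right]
      apply congrFun
      apply congrArg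
      funext v
      rw [Zf_slice a b κ lam x w1 v h1]
      rfl
    rw [e7, map_smul]
    rfl
  rw [hL, hlam']
  -- the sum
  have hsum : ∑ κ'' ∈ below (sh κ' js), (if HS κ'' (sh κ' js) a then
        Fc K κ κ'' lam (sh κ' js) else 0) *
        Zf K (a * b) a (sh κ' js) (iota K a b κ'' (fun l => x (κ'' :: l))) (w1 ++ js) =
      (if HS κ' (sh κ' js) a then Fc K κ κ' lam (sh κ' js) else 0) *
        (if Lat 0 (w1 ++ js) then I else 0) := by
    have e8 : (w1 ++ js).take (a * b) = w1 := List.take_left' h1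
    rw [sum_eq_single κ']
    · congr 1
      unfold Zf
      rw [e8]
      by_cases h : Lat 0 (w1 ++ js)
      · rw [if_pos h, if_pos ⟨h, hu, hlam'⟩]
      · rw [if_neg h, if_neg (fun h' => h h'.1)]
    · intro κ'' _ hne
      unfold Zf
      rw [e8]
      have : iota K a b κ'' (fun l => x (κ'' :: l)) w1 = 0 := by
        by_contra h
        exact hne (iota_ne h).2.2.symm
      rw [this]
      simp
    · intro h
      exact absurd (mem_below.2 (Ins.le_sh κ' js)) h
  rw [hsum]
  by_cases hI0 : I = 0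
  · rw [hI0]
    simp
  have hHS : HS κ' κ b := by
    by_contra h
    apply hI0
    have := (hx.2 κ').2 h
    rw [hI]
    have e9 : (fun l => x (κ' :: l)) = fun _ => 0 := funext this
    rw [e9, iota_z]
  have hLat : Lat 0 w1 := (iota_ne hI0).1
  rw [if_pos hHS]
  have hsκ' : ∑ i, κ' i = a * b := by
    rw [hκ', Ins.sum_sh, h1]
    simp
  have hslam : ∑ i, lam i = (a + 1) * (b + 1) := by
    have h3 := (HS_iff.1 hHS).2
    have h4 := (HS_iff.1 hκ).2
    rw [h4, h3, hsκ', e4]
    omega
  have hBd : Bd B κ' (b + 1 + a) := by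
    intro i
    have := le_sum κ' i
    omega
  have hBlam : ∀ i, lam i + 6 ≤ B := by
    intro i
    have := le_sum lam i
    omega
  rw [Loc.local_L hK hBd (Loc.Hor_of_Hz (Hz_of_HS hHS)) (Loc.Hor_of_Hz (Hz_of_HS hκ)) js y h2,
    FL_eq, sh_append]
  by_cases hz : Ins.Hz κ' (sh κ' js)
  swap
  · rw [if_neg (fun h => hz h.2.2.1), if_neg (fun h => hz (Hz_of_HS h))]
    simp
  have hHS' : HS κ' (sh κ' js) a := HS_iff.2 ⟨hz, by rw [Ins.sum_sh, h2]⟩
  have hLat' : Lat 0 (w1 ++ js) := (lat_append _ _ _).2 ⟨hLat, hz.lat rfl⟩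
  rw [if_pos hHS', if_pos hLat']
  by_cases hz2 : sh (sh κ' js) y = lam ∧ Ins.Hz (sh κ' js) lam
  swap
  · rw [if_neg (fun h => hz2 ⟨h.2.1, h.2.2.2⟩), if_neg (fun h => hz2 ⟨h.2.1, Hz_of_HS h.2.2⟩)]
    simp
  have hHS2 : HS (sh κ' js) lam (b + 1) :=
    HS_iff.2 ⟨hz2.2, by rw [← hy, ← Ins.sum_sh, hz2.1]⟩
  rw [if_pos ⟨hy, hz2.1, hz, hz2.2⟩, if_pos ⟨hz2.2.lat hz2.1, hz2.1, hHS2⟩]
  have key := Gauge.FL_Fc hK hBlam js (Hz_IL (Hz_of_HS hHS)) (hz.lat rfl) (Hz_IL hz2.2)
    (Hz_IL (Hz_of_HS hκ))
  linear_combination I * key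

/-! ### the recursion -/

lemma Zf_mem (a b : ℕ) (lam : Sh) (f : List (Fin 6) → K) :
    Zf K (a * b) a lam f ∈ V K (0 : Sh) (a * (b + 1)) := by
  intro w hw
  unfold Zf
  rw [if_neg (fun h => hw ⟨h.1, h.2.1⟩)]

lemma Pop_mem (a b : ℕ) {N : ℕ} {f : List (Fin 6) → K} (hf : f ∈ V K (0 : Sh) N) :
    Pop K 6 b a f ∈ V K (0 : Sh) N := by
  induction a generalizing f with
  | zero => exact hf
  | succ a ih =>
    simp only [Pop, LinearMap.comp_apply]
    exact ih (Strip.bs_mem _ _ _ (Strip.sy_mem _ _ hf))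

/-- **(R)** -/
theorem rec_iota {B : ℕ} (hK : HK K B) (a b : ℕ) (hB : a * (b + 1) + 6 ≤ B) (κ lam : Sh)
    (hκ : HS κ lam a) (x : List Sh → K) (hx : VC K a b κ x) :
    Pop K 6 b a (Zf K (a * b) a lam (iota K a b κ x)) =
      iota K a (b + 1) lam (Mop K (b + 1) a κ lam x) := by
  classical
  induction a generalizing κ lam x with
  | zero =>
    have hkl : κ = lam := by
      funext i
      have h1 := (Hz_of_HS hκ).1
      have h2 := (HS_iff.1 hκ).2
      by_contra hne
      have h3 : κ i < lam i := lt_of_le_of_ne (h1 i) hne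
      have : ∑ i, κ i < ∑ i, lam i := sum_lt_sum (fun i _ => h1 i) ⟨i, mem_univ i, h3⟩
      omega
    subst hkl
    funext w
    simp only [Pop, LinearMap.id_apply, Mop, Zf, iota]
    by_cases hw : w = []
    · subst hw
      by_cases h0 : κ = 0
      · subst h0
        rw [if_pos, if_pos, if_pos]
        · exact ⟨rfl, rfl⟩
        · simp
        · refine ⟨?_, by simp, rfl⟩
          rw [lat_nil]
          exact fun _ _ _ => le_rfl
      · rw [if_neg, if_neg (fun h => h0 h.2)]
        rintro ⟨-, -, h⟩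
        exact h0 h.symm
    · rw [if_neg, if_neg (fun h => hw h.1)]
      rintro ⟨-, h, -⟩
      apply hw
      apply List.length_eq_zero_iff.1
      rw [h, zero_mul]
  | succ a ih =>
    have e5 : (a + 1) * (b + 1) = a * (b + 1) + (b + 1) := by ring
    have hB' : a * (b + 1) + 6 ≤ B := by omega
    funext w
    by_cases hw : w.length = (a + 1) * (b + 1)
    swap
    · rw [Pop_mem (a + 1) b (Zf_mem (a + 1) b lam _) w (fun h => hw h.2)]
      by_contra h
      exact hw (iota_ne (Ne.symm h)).2.1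
    obtain ⟨u, y, rfl, hu⟩ : ∃ u y : List (Fin 6), w = u ++ y ∧ u.length = a * (b + 1) :=
      ⟨w.take (a * (b + 1)), w.drop (a * (b + 1)), (List.take_append_drop _ _).symm, by
        rw [List.length_take]; omega⟩
    have hy : y.length = b + 1 := by
      rw [List.length_append] at hw
      omega
    have e6 : (u ++ y).take (a * (b + 1)) = u := List.take_left' hu
    set lam' : Sh := sh 0 u with hlam'
    set c : K := if Lat lam' y ∧ sh lam' y = lam ∧ HS lam' lam (b + 1) then
        Gauge.G K lam lam' else 0 with hc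
    -- left-hand side
    have hL : Pop K 6 b (a + 1) (Zf K ((a + 1) * b) (a + 1) lam (iota K (a + 1) b κ x)) (u ++ y) =
        ∑ κ' ∈ below lam', (c * if HS κ' lam' a then Fc K κ κ' lam lam' else 0) *
          iota K a (b + 1) lam' (Mop K (b + 1) a κ' lam' (fun l => x (κ' :: l))) u := by
      have e7 : Pop K 6 b (a + 1) (Zf K ((a + 1) * b) (a + 1) lam (iota K (a + 1) b κ x)) (u ++ y) =
          Pop K 6 b a (fun u => ∑ κ' ∈ below lam',
            (c * if HS κ' lam' a then Fc K κ κ' lam lam' else 0) *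
              Zf K (a * b) a lam' (iota K a b κ' (fun l => x (κ' :: l))) u) u := by
        conv_lhs => simp only [Pop, LinearMap.comp_apply]
        rw [Pop_append_left a b _ u y hu.ge]
        apply Pop_congr
        intro v hv
        have hs : sh 0 v = lam' := Loc.sh_perm hv
        rw [step_val hK a b hB κ lam hκ x hx v y (by rw [hv.length_eq, hu]) hy, hs, mul_sum]
        apply sum_congr rfl
        intro κ' _
        rw [hc]
        ring
      rw [e7, Pop_sum]
      apply sum_congr rfl
      intro κ' _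
      by_cases hκ' : HS κ' lam' a
      · rw [ih hB' κ' lam' hκ' _ ((hx.2 κ').1)]
      · rw [if_neg hκ', mul_zero, zero_mul, zero_mul]
    rw [hL]
    by_cases hA : Lat 0 u
    swap
    · have h1 : iota K (a + 1) (b + 1) lam (Mop K (b + 1) (a + 1) κ lam x) (u ++ y) = 0 := by
        by_contra h
        have := (iota_ne h).1
        rw [lat_append] at this
        exact hA this.1
      rw [h1]
      apply sum_eq_zero
      intro κ' _
      have h2 : iota K a (b + 1) lam' (Mop K (b + 1) a κ' lam' (fun l => x (κ' :: l))) u = 0 := by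
        by_contra h
        exact hA (iota_ne h).1
      rw [h2, mul_zero]
    conv_rhs => simp only [iota]
    rw [e6, ← hlam']
    by_cases hC : Lat lam' y ∧ sh lam' y = lam ∧ HS lam' lam (b + 1)
    swap
    · have hc0 : c = 0 := by rw [hc, if_neg hC]
      rw [if_neg]
      · rw [hc0]
        simp
      · rintro ⟨h1, h2, h3, h4⟩
        rw [lat_append] at h1
        rw [sh_append] at h3
        exact hC ⟨h1.2, h3, h4⟩
    have hc1 : c = Gauge.G K lam lam' := by rw [hc, if_pos hC]
    rw [if_pos]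
    swap
    · refine ⟨(lat_append _ _ _).2 ⟨hA, hC.1⟩, hw, ?_, hC.2.2⟩
      rw [sh_append]
      exact hC.2.1
    have e8 : (fun l => Mop K (b + 1) (a + 1) κ lam x (lam' :: l)) =
        fun l => ∑ κ' ∈ below lam', (if HS κ' lam' a then Fc K κ κ' lam lam' else 0) *
          Mop K (b + 1) a κ' lam' (fun l => x (κ' :: l)) l := by
      funext l
      simp only [Mop]
      rw [if_pos hC.2.2]
      apply sum_congr rfl
      intro κ' _
      split_ifs
      · rfl
      · rw [zero_mul]
    rw [e8, iota_lsum, mul_sum, hc1]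
    apply sum_congr rfl
    intro κ' _
    ring

end Crest.Agent.R187.SN.Iota
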