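import Crest.Agent.R187.SN.TargetC
import Crest.Agent.R187.SN.IotaRec

/-!
# Row 187, PLAN S, block (C): `TargetC` proved
-/

set_option autoImplicit false

namespace Crest.Agent.R187.SN.Iota

open Crest.Agent.R187.SN

theorem rstmt (K : Type*) [Field K] : RStmt K := by
  intro B hK a b κ lam hB _ _ hs x hx
  have h := hB 0
  simp only [Pi.zero_apply, zero_add] at h
  exact rec_iota hK a b (by omega) κ lam hs x hx

/-- **`TargetC`** over every field with `6! ≠ 0` -/
theorem targetC (K : Type*) [Field K] (h6 : ((6).factorial : K) ≠ 0) : Assemble.TargetC K :=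
  targetC_of_R (rstmt K) h6

/-- **`TargetC`** over `ZMod p`, `p > 6` prime -/
theorem targetC_zmod (p : ℕ) [hp : Fact p.Prime] (h : 48 < p) : Assemble.TargetC (ZMod p) := by
  apply targetC
  rw [Ne, ZMod.natCast_eq_zero_iff]
  intro h1
  have h2 := (hp.out.dvd_factorial).1 h1
  omega

end Crest.Agent.R187.SN.Iota
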