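import Mathlib
import Crest.Agent.R187.SN.Kern

/-!
# Row 187, PLAN S, block E1: rank check of a list of packed rows

`rankChk p W k n L rows m` performs a left-looking elimination modulo `p = 2^k - 1` on the packed
rows (`n` slots of `W` bits, reduced: slots `< 2^k`), skipping dependent rows, until `m` pivots are
found.  No hints are needed: the pivot column is found by a binary search (`L` levels,
`n ≤ 2^L`), the inverse of the pivot by a power; both are untrusted (the product is checked).

`rank_sound`: if the check succeeds, there are `m` rows which are linearly independent over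
`ZMod p`.
-/

set_option autoImplicit false

namespace Crest.Agent.R187.SN.Rank

open Crest.Agent.R187.SN.Kern

/-- list of pivots: row, bit offset of the pivot slot; newest first -/
inductive PL : Type
  | nil : PL
  | cons (r off : ℕ) (t : PL) : PL

/-- eliminate `s` by the pivots (oldest first); `M = 2^W` -/
noncomputable def elim (p M s : ℕ) (P : PL) : ℕ :=
  @PL.rec (fun _ => ℕ) s (fun r off _ ih =>
    Nat.add ih (Nat.mul (Nat.mod (Nat.mod (Nat.shiftRight ih off) M) p) r)) P

/-- `s`, tagged by the list of the remaining rows.  The kernel caches terms by a hash which sees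
only the low 64 bits of a literal; the tag keeps the hashes of different rows apart. -/
def tg (_ : List ℕ) (s : ℕ) : ℕ := s

/-- two folds -/
noncomputable def red2 (k lo hi x : ℕ) : ℕ := fold k lo hi (fold k lo hi x)

/-- replace the slots `2^k - 1` by `0` (untrusted, used only for finding a pivot) -/
noncomputable def canon (k lo one x : ℕ) : ℕ :=
  Nat.land (Nat.add x (Nat.land (Nat.shiftRight (Nat.add x one) k) one)) lo

/-- index of the lowest nonzero slot, `L` levels of binary search (untrusted) -/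
noncomputable def find (W x L : ℕ) : ℕ :=
  @Nat.rec (fun _ => ℕ → ℕ) (fun j => j) (fun l ih j =>
    @Bool.rec (fun _ => ℕ) (ih j) (ih (Nat.add j (Nat.shiftLeft 1 l)))
      (Nat.beq (Nat.mod x (Nat.pow 2 (Nat.mul W (Nat.add j (Nat.shiftLeft 1 l))))) 0)) L 0

/-- candidate for the pivot column: `e` if this slot is nonzero, else the lowest nonzero slot -/
noncomputable def pivj (W M L e x : ℕ) : ℕ :=
  @Bool.rec (fun _ => ℕ) e (find W x L)
    (Nat.beq (Nat.mod (Nat.shiftRight x (Nat.mul W e)) M) 0)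

/-- use the row `r` with pivot slot `j`, entry `c`, inverse `i` -/
noncomputable def stepi (p W k lo hi m : ℕ) (ih : PL → ℕ → Bool) (P : PL) (cnt r j c i : ℕ) :
    Bool :=
  @Bool.rec (fun _ => Bool) (ih P cnt)
    (@Bool.rec (fun _ => Bool)
      (ih (PL.cons (red2 k lo hi (Nat.mul (Nat.sub p i) r)) (Nat.mul W j) P) (Nat.succ cnt))
      true (Nat.beq (Nat.succ cnt) m))
    (Nat.beq (Nat.mod (Nat.mul c i) p) 1)

noncomputable def stepc (p W k lo hi m : ℕ) (ih : PL → ℕ → Bool) (P : PL) (cnt r j c : ℕ) :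
    Bool :=
  stepi p W k lo hi m ih P cnt r j c (Nat.mod (Nat.pow c (Nat.sub p 2)) p)

noncomputable def stepj (p W k M lo hi m : ℕ) (ih : PL → ℕ → Bool) (P : PL) (cnt r j : ℕ) :
    Bool :=
  stepc p W k lo hi m ih P cnt r j (Nat.mod (Nat.shiftRight r (Nat.mul W j)) M)

noncomputable def step (p W k M lo hi one m L : ℕ) (ih : PL → ℕ → Bool) (P : PL) (cnt r : ℕ) :
    Bool :=
  stepj p W k M lo hi m ih P cnt r (pivj W M L cnt (canon k lo one r))

noncomputable def go (p W k M lo hi one m L : ℕ) (rows : List ℕ) : PL → ℕ → Bool :=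
  @List.rec ℕ (fun _ => PL → ℕ → Bool) (fun _ _ => false)
    (fun s tl ih P cnt =>
      step p W k M lo hi one m L ih P cnt (red k lo hi (elim p M (tg tl s) P))) rows

/-- the rank check: `m` pivots are found among the rows -/
noncomputable def rankChk (p W k n L : ℕ) (rows : List ℕ) (m : ℕ) : Bool :=
  go p W k (Nat.pow 2 W) (blk W n 1 n (Nat.sub (Nat.pow 2 k) 1))
    (blk W n 1 n (Nat.sub (Nat.pow 2 (Nat.sub W k)) 1)) (blk W n 1 n 1) m L rows PL.nil 0

/-! ### soundness -/

section

variable {p W k n : ℕ}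

/-- the vector of residues of a packed row -/
def vec (p W n x : ℕ) : Fin n → ZMod p := fun j => (slot W x j : ZMod p)

theorem vec_apply (x : ℕ) (j : Fin n) : vec p W n x j = (slot W x j : ZMod p) := rfl

theorem pos_of_fin (j : Fin n) : 0 < n := lt_of_le_of_lt (Nat.zero_le _) j.2

theorem in_blk (j : Fin n) : (j : ℕ) / n < 1 ∧ (j : ℕ) % n < n := by
  have h := pos_of_fin j
  exact ⟨by rw [Nat.div_eq_of_lt j.2]; exact one_pos, Nat.mod_lt _ h⟩

theorem vec_red (hP : Par p W k) (x : ℕ) :
    vec p W n (red k (blk W n 1 n (2 ^ k - 1)) (blk W n 1 n (2 ^ (W - k) - 1)) x)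
      = vec p W n x := by
  funext j
  exact cast_red hP (pos_of_fin j) le_rfl x _ (in_blk j)

theorem cast_f1 (hP : Par p W k) (c : ℕ) : ((f1 k c : ℕ) : ZMod p) = (c : ZMod p) := by
  refine (ZMod.natCast_eq_natCast_iff _ _ _).2 ?_
  rw [hP.hp]
  exact f1_mod k c

theorem slot_red2 (hP : Par p W k) (hn : 0 < n) (x i : ℕ) :
    slot W (red2 k (blk W n 1 n (2 ^ k - 1)) (blk W n 1 n (2 ^ (W - k) - 1)) x) i
      = if i / n < 1 ∧ i % n < n then f1 k (f1 k (slot W x i)) else 0 := by
  rw [red2, slot_fold hP.hk0 hP.hk hn le_rfl, slot_fold hP.hk0 hP.hk hn le_rfl]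
  split_ifs <;> rfl

theorem vec_red2 (hP : Par p W k) (x : ℕ) :
    vec p W n (red2 k (blk W n 1 n (2 ^ k - 1)) (blk W n 1 n (2 ^ (W - k) - 1)) x)
      = vec p W n x := by
  funext j
  rw [vec_apply, slot_red2 hP (pos_of_fin j), if_pos (in_blk j), cast_f1 hP, cast_f1 hP,
    vec_apply]

theorem f1f1_lt {c : ℕ} (h : c ≤ (2 ^ k - 1) * (2 ^ k - 1)) : f1 k (f1 k c) < 2 ^ k := by
  have hp : 0 < 2 ^ k := by positivity
  obtain ⟨q, hq⟩ : ∃ q, 2 ^ k = q + 1 := ⟨2 ^ k - 1, by omega⟩
  rw [hq] at h
  simp only [Nat.add_sub_cancel] at h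
  -- first fold
  have h1 : f1 k c < 2 * q ∨ f1 k c < 2 ^ k := by
    unfold f1
    have h2 : c % 2 ^ k ≤ q := by have := Nat.mod_lt c hp; omega
    rcases Nat.eq_zero_or_pos q with h0 | h0
    · right
      have : c = 0 := by rw [h0] at h; omega
      rw [this]; simp
    · left
      have h3 : c / 2 ^ k < q := by
        rw [Nat.div_lt_iff_lt_mul hp, hq]
        nlinarith
      omega
  unfold f1
  rcases h1 with h1 | h1
  · rcases Nat.lt_or_ge (f1 k c) (2 ^ k) with h4 | h4
    · change f1 k c % 2 ^ k + f1 k c / 2 ^ k < 2 ^ k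
      rw [Nat.mod_eq_of_lt h4, Nat.div_eq_of_lt h4]; omega
    · change f1 k c % 2 ^ k + f1 k c / 2 ^ k < 2 ^ k
      have h5 : f1 k c / 2 ^ k = 1 := Nat.div_eq_of_lt_le (by omega) (by omega)
      have h6 : f1 k c % 2 ^ k = f1 k c - 2 ^ k := by
        rw [Nat.mod_eq_sub_mod h4, Nat.mod_eq_of_lt (by omega)]
      rw [h5, h6]; omega
  · change f1 k c % 2 ^ k + f1 k c / 2 ^ k < 2 ^ k
    rw [Nat.mod_eq_of_lt h1, Nat.div_eq_of_lt h1]; omega

namespace PL

def len : PL → ℕ
  | .nil => 0
  | .cons _ _ t => t.len + 1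

def offs : PL → List ℕ
  | .nil => []
  | .cons _ o t => o :: t.offs

/-- the span of the pivot rows -/
noncomputable def sp (p W n : ℕ) : PL → Submodule (ZMod p) (Fin n → ZMod p)
  | .nil => ⊥
  | .cons r _ t => Submodule.span (ZMod p) {vec p W n r} ⊔ t.sp p W n

def WF (p W k n : ℕ) : PL → Prop
  | .nil => True
  | .cons r off t => (∃ j : Fin n, off = W * (j : ℕ) ∧ vec p W n r j = -1) ∧
      (∀ j : Fin n, W * (j : ℕ) ∈ t.offs → vec p W n r j = 0) ∧
      (∀ i, slot W r i < 2 ^ k) ∧ t.WF p W k n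

end PL

theorem elim_cons (M s r off : ℕ) (t : PL) :
    elim p M s (.cons r off t) = Nat.add (elim p M s t)
      (Nat.mul (Nat.mod (Nat.mod (Nat.shiftRight (elim p M s t) off) M) p) r) := rfl

theorem two_mul_pow (k : ℕ) : 2 ^ (2 * k) = 2 ^ k * 2 ^ k := by rw [← pow_add]; congr 1; omega

theorem elim_spec (hP : Par p W k) (P : PL) (hwf : P.WF p W k n) (s : ℕ)
    (hs : ∀ i, slot W s i < 2 ^ k) (hb : 2 ^ k + P.len * 2 ^ (2 * k) ≤ 2 ^ W) :
    (∀ i, slot W (elim p (2 ^ W) s P) i + P.len < 2 ^ k + P.len * 2 ^ (2 * k) + 1) ∧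
    vec p W n (elim p (2 ^ W) s P) - vec p W n s ∈ P.sp p W n ∧
    ∀ j : Fin n, W * (j : ℕ) ∈ P.offs → vec p W n (elim p (2 ^ W) s P) j = 0 := by
  have hW := hP.hW
  induction P with
  | nil =>
    refine ⟨fun i => ?_, ?_, fun j hj => ?_⟩
    · show slot W s i + 0 < 2 ^ k + 0 * 2 ^ (2 * k) + 1
      have := hs i; omega
    · show vec p W n s - vec p W n s ∈ _
      rw [sub_self]; exact Submodule.zero_mem _
    · exact absurd hj (by simp [PL.offs])
  | cons r off t ih =>
    obtain ⟨⟨j, hj, hrj⟩, hr0, hrb, ht⟩ := hwf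
    have hlen : (PL.cons r off t).len = t.len + 1 := rfl
    rw [hlen, add_mul, one_mul] at hb
    obtain ⟨ih1, ih2, ih3⟩ := ih ht (le_trans (Nat.add_le_add_left (Nat.le_add_right _ _) _) hb)
    set s' := elim p (2 ^ W) s t with hs'
    set c := slot W s' j % p with hc
    have hel : elim p (2 ^ W) s (.cons r off t) = Nat.add s' (Nat.mul c r) := by
      rw [elim_cons, ← hs', hj]; rfl
    have hpk : p < 2 ^ k := by
      rw [hP.hp]; exact Nat.sub_lt (by positivity) one_pos
    have hp0 : 0 < p := by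
      rw [hP.hp]
      have : 2 ^ 1 ≤ 2 ^ k := Nat.pow_le_pow_right (by norm_num) hP.hk0
      omega
    have hcp : c < p := Nat.mod_lt _ hp0
    have h2k := two_mul_pow k
    have hprod : ∀ i, c * slot W r i + 1 ≤ 2 ^ (2 * k) := by
      intro i
      have h1 := hrb i
      rw [h2k]
      obtain ⟨q, hq⟩ : ∃ q, 2 ^ k = q + 1 := ⟨2 ^ k - 1, by omega⟩
      rw [hq] at h1 hpk ⊢
      have : c * slot W r i ≤ q * q := Nat.mul_le_mul (by omega) (by omega)
      nlinarith
    have hsm : ∀ i, slot W (Nat.mul c r) i = c * slot W r i := by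
      intro i
      refine slot_smul hW (fun i => ?_)
      have := hprod i
      have h3 : 0 < 2 ^ k := by positivity
      omega
    have hadd : ∀ i, slot W (Nat.add s' (Nat.mul c r)) i = slot W s' i + c * slot W r i := by
      intro i
      rw [slot_add hW, hsm]
      intro i
      rw [hsm]
      have h1 := hprod i
      have h2 := ih1 i
      omega
    have hvec : vec p W n (elim p (2 ^ W) s (.cons r off t))
        = vec p W n s' + (vec p W n s' j) • vec p W n r := by
      funext i
      rw [hel, vec_apply, hadd, Nat.cast_add, Nat.cast_mul, Pi.add_apply, Pi.smul_apply,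
        smul_eq_mul, vec_apply, vec_apply, vec_apply, hc, ZMod.natCast_mod]
    refine ⟨fun i => ?_, ?_, fun i hi => ?_⟩
    · rw [hel, hadd, hlen, add_mul, one_mul]
      have h1 := hprod i
      have h2 := ih1 i
      omega
    · rw [hvec, add_sub_right_comm]
      exact Submodule.add_mem _ (Submodule.mem_sup_right ih2)
        (Submodule.smul_mem _ _ (Submodule.mem_sup_left (Submodule.mem_span_singleton_self _)))
    · rw [hvec, Pi.add_apply, Pi.smul_apply, smul_eq_mul]
      rcases List.mem_cons.1 (show W * (i : ℕ) ∈ off :: t.offs from hi) with h | h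
      · have hij : i = j := by
          apply Fin.ext
          rw [hj] at h
          exact Nat.eq_of_mul_eq_mul_left hW h
        rw [hij, hrj]; ring
      · rw [ih3 i h, hr0 i h]; ring

theorem eq_zero_of_mem_sp (P : PL) (hwf : P.WF p W k n) (x : Fin n → ZMod p)
    (hx : x ∈ P.sp p W n) (h0 : ∀ j : Fin n, W * (j : ℕ) ∈ P.offs → x j = 0) : x = 0 := by
  induction P generalizing x with
  | nil => exact (Submodule.mem_bot _).1 hx
  | cons r off t ih =>
    obtain ⟨⟨j, hj, hrj⟩, hr0, hrb, ht⟩ := hwf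
    obtain ⟨y, hy, z, hz, hyz⟩ := Submodule.mem_sup.1
      (show x ∈ Submodule.span (ZMod p) {vec p W n r} ⊔ t.sp p W n from hx)
    obtain ⟨a, rfl⟩ := Submodule.mem_span_singleton.1 hy
    have hz0 : z = 0 := by
      refine ih ht z hz (fun i hi => ?_)
      have h1 := h0 i (List.mem_cons_of_mem _ hi)
      rw [← hyz, Pi.add_apply, Pi.smul_apply, hr0 i hi, smul_zero, zero_add] at h1
      exact h1
    rw [hz0, add_zero] at hyz
    have h2 := h0 j (by rw [← hj]; exact List.mem_cons_self)
    rw [← hyz, Pi.smul_apply, hrj, smul_eq_mul, mul_neg, mul_one, neg_eq_zero] at h2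
    rw [← hyz, h2, zero_smul]

theorem len_le_finrank [Fact p.Prime] (P : PL) (hwf : P.WF p W k n) :
    P.len ≤ Module.finrank (ZMod p) (P.sp p W n) := by
  induction P with
  | nil => exact Nat.zero_le _
  | cons r off t ih =>
    obtain ⟨⟨j, hj, hrj⟩, hr0, hrb, ht⟩ := hwf
    have h1 := ih ht
    have h2 : t.sp p W n < (PL.cons r off t).sp p W n := by
      refine lt_of_le_of_ne (show t.sp p W n ≤ Submodule.span (ZMod p) {vec p W n r} ⊔ t.sp p W n
        from le_sup_right) (fun h => ?_)
      have h3 : vec p W n r ∈ t.sp p W n := by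
        rw [h]
        exact Submodule.mem_sup_left (Submodule.mem_span_singleton_self _)
      have h4 := eq_zero_of_mem_sp t ht _ h3 hr0
      rw [h4, Pi.zero_apply] at hrj
      exact one_ne_zero (neg_eq_zero.1 hrj.symm)
    have h3 := Submodule.finrank_lt_finrank_of_lt h2
    show t.len + 1 ≤ _
    omega

theorem go_cons (p W k M lo hi one m L s : ℕ) (rows : List ℕ) (P : PL) (cnt : ℕ) :
    go p W k M lo hi one m L (s :: rows) P cnt
      = step p W k M lo hi one m L (go p W k M lo hi one m L rows) P cnt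
          (red k lo hi (elim p M s P)) := rfl

/-- the new pivot row -/
theorem pivot_spec (hP : Par p W k) (hkW : 2 ^ (2 * k) ≤ 2 ^ W) {r j c i : ℕ}
    (hc : c = slot W r j) (hi : i < p) (hci : c * i % p = 1) (hr : Good W k n 1 n r) :
    ∃ jn : Fin n, (jn : ℕ) = j ∧
      vec p W n (red2 k (blk W n 1 n (2 ^ k - 1)) (blk W n 1 n (2 ^ (W - k) - 1))
        (Nat.mul (Nat.sub p i) r)) = (-(i : ZMod p)) • vec p W n r ∧
      -(i : ZMod p) * vec p W n r jn = -1 ∧
      ∀ t, slot W (red2 k (blk W n 1 n (2 ^ k - 1)) (blk W n 1 n (2 ^ (W - k) - 1))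
        (Nat.mul (Nat.sub p i) r)) t < 2 ^ k := by
  have hW := hP.hW
  have hk0 := hP.hk0
  have hp : p = 2 ^ k - 1 := hP.hp
  have h2k : 2 ^ 1 ≤ 2 ^ k := Nat.pow_le_pow_right (by norm_num) hk0
  have hne : c ≠ 0 := by
    intro h
    rw [h, Nat.zero_mul, Nat.zero_mod] at hci
    exact absurd hci (by norm_num)
  have hn : 0 < n := by
    by_contra h
    have h0 : n = 0 := by omega
    have := (hr j).2 (by rw [h0]; simp)
    rw [← hc] at this
    exact hne this
  have hjn : j < n := by
    by_contra h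
    have := (hr j).2 (by
      intro h1
      have h2 : 1 ≤ j / n := Nat.div_pos (by omega) hn
      omega)
    rw [← hc] at this
    exact hne this
  have hbd : ∀ t, Nat.sub p i * slot W r t ≤ (2 ^ k - 1) * (2 ^ k - 1) := by
    intro t
    have h1 := (hr t).1
    refine Nat.mul_le_mul ?_ (by omega)
    show p - i ≤ _
    omega
  have hlt : (2 ^ k - 1) * (2 ^ k - 1) < 2 ^ W := by
    refine lt_of_lt_of_le ?_ hkW
    rw [two_mul_pow]
    exact Nat.mul_lt_mul'' (Nat.sub_lt (by positivity) one_pos)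
      (Nat.sub_lt (by positivity) one_pos)
  have hsm : ∀ t, slot W (Nat.mul (Nat.sub p i) r) t = Nat.sub p i * slot W r t :=
    fun t => slot_smul hW (fun t => lt_of_le_of_lt (hbd t) hlt)
  refine ⟨⟨j, hjn⟩, rfl, ?_, ?_, fun t => ?_⟩
  · rw [vec_red2 hP]
    funext t
    rw [vec_apply, hsm, Nat.cast_mul, Pi.smul_apply, smul_eq_mul, vec_apply]
    congr 1
    show ((p - i : ℕ) : ZMod p) = _
    rw [Nat.cast_sub hi.le, ZMod.natCast_self, zero_sub]
  · rw [vec_apply, ← hc, neg_mul, ← Nat.cast_mul]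
    congr 1
    rw [mul_comm i c, ← ZMod.natCast_mod, hci, Nat.cast_one]
  · rw [slot_red2 hP hn, hsm]
    split_ifs
    · exact f1f1_lt (hbd t)
    · positivity

theorem vec_elim_mem {S : Submodule (ZMod p) (Fin n → ZMod p)} {P : PL} (hPS : P.sp p W n ≤ S)
    {s s' : ℕ} (hs : vec p W n s ∈ S) (h : vec p W n s' - vec p W n s ∈ P.sp p W n) :
    vec p W n s' ∈ S := by
  have h1 := S.add_mem (hPS h) hs
  rwa [sub_add_cancel] at h1

theorem blk_zero (W m : ℕ) : blk W 0 1 0 m = 0 := by
  show m * (ones (W * 0) 1 * ((2 ^ (W * 0) - 1) / (2 ^ W - 1))) = 0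
  rw [Nat.mul_zero, pow_zero, Nat.sub_self, Nat.zero_div, Nat.mul_zero, Nat.mul_zero]

theorem red_zero_mask (k x : ℕ) : red k 0 0 x = 0 := by
  have h : ∀ y, fold k 0 0 y = 0 := by
    intro y
    show (y &&& 0) + ((y >>> k) &&& 0) = 0
    rw [Nat.and_zero, Nat.and_zero]
  rw [red, h]

theorem go_spec [Fact p.Prime] (hP : Par p W k) {m : ℕ} (hb : 2 ^ k + m * 2 ^ (2 * k) ≤ 2 ^ W)
    (S : Submodule (ZMod p) (Fin n → ZMod p)) (one L : ℕ) (rows : List ℕ)
    (hrows : ∀ x ∈ rows, (∀ i, slot W x i < 2 ^ k) ∧ vec p W n x ∈ S) :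
    ∀ (P : PL) (cnt : ℕ), P.WF p W k n → P.sp p W n ≤ S → cnt = P.len → cnt < m →
      go p W k (2 ^ W) (blk W n 1 n (2 ^ k - 1)) (blk W n 1 n (2 ^ (W - k) - 1)) one m L rows P cnt
        = true → m ≤ Module.finrank (ZMod p) S := by
  have hp0 : 0 < p := (Fact.out : p.Prime).pos
  induction rows with
  | nil =>
    intro P cnt _ _ _ _ h
    exact absurd (show false = true from h) (by simp)
  | cons s rows ih =>
    intro P cnt hwf hPS hcnt hm h
    have ih' := ih (fun x hx => hrows x (List.mem_cons_of_mem _ hx))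
    obtain ⟨hs1, hs2⟩ := hrows s List.mem_cons_self
    rw [go_cons, step, stepj, stepc] at h
    set r := red k (blk W n 1 n (2 ^ k - 1)) (blk W n 1 n (2 ^ (W - k) - 1))
      (elim p (2 ^ W) s P) with hr
    set j := pivj W (2 ^ W) L cnt (canon k (blk W n 1 n (2 ^ k - 1)) one r) with hj
    have hbP : 2 ^ k + P.len * 2 ^ (2 * k) ≤ 2 ^ W :=
      le_trans (Nat.add_le_add_left (Nat.mul_le_mul_right _ (by omega)) _) hb
    obtain ⟨_, he2, he3⟩ := elim_spec hP P hwf s hs1 hbP
    have hvr : vec p W n r = vec p W n (elim p (2 ^ W) s P) := vec_red hP _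
    have hrS : vec p W n r ∈ S := by rw [hvr]; exact vec_elim_mem hPS hs2 he2
    unfold stepi at h
    generalize hi : Nat.mod (Nat.pow (Nat.mod (Nat.shiftRight r (Nat.mul W j)) (2 ^ W))
      (Nat.sub p 2)) p = i at h
    have hip : i < p := by rw [← hi]; exact Nat.mod_lt _ hp0
    cases hq : Nat.beq (Nat.mod (Nat.mul (Nat.mod (Nat.shiftRight r (Nat.mul W j)) (2 ^ W)) i) p) 1
      with
    | false =>
      rw [hq] at h
      exact ih' P cnt hwf hPS hcnt hm h
    | true =>
      rw [hq] at h
      have hci := Nat.eq_of_beq_eq_true hq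
      have hn : 0 < n ∨ n = 0 := by omega
      rcases hn with hn | hn
      swap
      · exfalso
        subst hn
        have h0 : r = 0 := by
          rw [hr, blk_zero, blk_zero]
          exact red_zero_mask _ _
        rw [h0] at hci
        have h1 : Nat.mod (Nat.shiftRight 0 (Nat.mul W j)) (2 ^ W) = 0 := by
          show (0 >>> (W * j)) % 2 ^ W = 0
          rw [Nat.zero_shiftRight, Nat.zero_mod]
        rw [h1] at hci
        have h2 : Nat.mod (Nat.mul 0 i) p = 0 := by
          show (0 * i) % p = 0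
          rw [Nat.zero_mul, Nat.zero_mod]
        rw [h2] at hci
        exact absurd hci (by norm_num)
      have hgood : Good W k n 1 n r := good_red hP hn le_rfl _
      have hkW : 2 ^ (2 * k) ≤ 2 ^ W := by
        refine le_trans (Nat.le_mul_of_pos_left _ (show 0 < m by omega)) ?_
        exact le_trans (Nat.le_add_left _ _) hb
      obtain ⟨jn, hjn, hv, hv1, hv2⟩ := pivot_spec hP hkW (c := slot W r j) rfl hip hci hgood
      set r' := red2 k (blk W n 1 n (2 ^ k - 1)) (blk W n 1 n (2 ^ (W - k) - 1))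
        (Nat.mul (Nat.sub p i) r) with hr'
      have hwf' : (PL.cons r' (Nat.mul W j) P).WF p W k n := by
        refine ⟨⟨jn, ?_, ?_⟩, fun t ht => ?_, hv2, hwf⟩
        · rw [hjn]; rfl
        · rw [hv, Pi.smul_apply, smul_eq_mul, hv1]
        · rw [hv, Pi.smul_apply, hvr, he3 t ht, smul_zero]
      have hPS' : (PL.cons r' (Nat.mul W j) P).sp p W n ≤ S := by
        refine sup_le ?_ hPS
        rw [Submodule.span_singleton_le_iff_mem, hv]
        exact S.smul_mem _ hrS
      have hlen : (PL.cons r' (Nat.mul W j) P).len = P.len + 1 := rfl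
      have hfin := len_le_finrank _ hwf'
      have hfin2 := Submodule.finrank_mono hPS'
      cases hq2 : Nat.beq (Nat.succ cnt) m with
      | true =>
        have := Nat.eq_of_beq_eq_true hq2
        omega
      | false =>
        rw [hq2] at h
        have hne : Nat.succ cnt ≠ m := by
          intro h3
          rw [h3, Nat.beq_refl] at hq2
          exact absurd hq2 (by simp)
        refine ih' _ (Nat.succ cnt) hwf' hPS' ?_ (by omega) h
        rw [hlen, hcnt]

/-- **Soundness of the rank check**: the span of the rows has dimension at least `m`. -/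
theorem rank_finrank [Fact p.Prime] (hP : Par p W k) {m L : ℕ}
    (hb : 2 ^ k + m * 2 ^ (2 * k) ≤ 2 ^ W) (rows : List ℕ)
    (hrows : ∀ x ∈ rows, ∀ i, slot W x i < 2 ^ k)
    (h : rankChk p W k n L rows m = true) :
    m ≤ Module.finrank (ZMod p)
      (Submodule.span (ZMod p) {v : Fin n → ZMod p | ∃ x ∈ rows, v = vec p W n x}) := by
  rcases Nat.eq_zero_or_pos m with hm | hm
  · rw [hm]; exact Nat.zero_le _
  · exact go_spec hP hb _ _ L rows
      (fun x hx => ⟨hrows x hx, Submodule.subset_span ⟨x, hx, rfl⟩⟩) PL.nil 0 trivial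
      bot_le rfl hm h

/-- **Soundness of the rank check**: `m` of the rows are linearly independent. -/
theorem rank_sound [Fact p.Prime] (hP : Par p W k) {m L : ℕ}
    (hb : 2 ^ k + m * 2 ^ (2 * k) ≤ 2 ^ W) (rows : List ℕ)
    (hrows : ∀ x ∈ rows, ∀ i, slot W x i < 2 ^ k)
    (h : rankChk p W k n L rows m = true) :
    ∃ f : Fin m → Fin rows.length, Function.Injective f ∧
      LinearIndependent (ZMod p) (fun i : Fin m => vec p W n (rows.get (f i))) := by
  classical
  have h1 := rank_finrank hP hb rows hrows h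
  set A : Set (Fin n → ZMod p) := {v | ∃ x ∈ rows, v = vec p W n x} with hA
  obtain ⟨b, hbA, hbs, hbi⟩ := exists_linearIndependent (ZMod p) A
  have hfin : b.Finite := by
    have := hbi.setFinite
    exact this
  have hcard : m ≤ hfin.toFinset.card := by
    have h2 : Module.finrank (ZMod p) (Submodule.span (ZMod p) b) = hfin.toFinset.card := by
      have := hfin.fintype
      rw [finrank_span_set_eq_card hbi]
      congr 1
      ext x
      rw [Set.mem_toFinset, hfin.mem_toFinset]
    rw [← h2, hbs]; exact h1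
  have hcard' : Fintype.card (Fin m) ≤ Fintype.card hfin.toFinset := by
    rw [Fintype.card_fin, Fintype.card_coe]; exact hcard
  obtain ⟨g⟩ := Function.Embedding.nonempty_of_card_le hcard'
  have hch : ∀ i : Fin m, ∃ t : Fin rows.length, vec p W n (rows.get t) = (g i : Fin n → ZMod p) := by
    intro i
    obtain ⟨x, hx, hxv⟩ := hbA (hfin.mem_toFinset.1 (g i).2)
    obtain ⟨t, ht⟩ := List.get_of_mem hx
    exact ⟨t, by rw [ht, hxv]⟩
  choose f hf using hch
  refine ⟨f, ?_, ?_⟩
  · intro i i' hii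
    apply g.injective
    apply Subtype.ext
    rw [← hf i, ← hf i', hii]
  · have h3 : (fun i : Fin m => vec p W n (rows.get (f i)))
        = (fun x : b => (x : Fin n → ZMod p)) ∘
          (fun i => ⟨(g i : Fin n → ZMod p), hfin.mem_toFinset.1 (g i).2⟩) := by
      funext i
      exact hf i
    rw [h3]
    refine hbi.comp _ (fun i i' hii => ?_)
    apply g.injective
    apply Subtype.ext
    exact congrArg (fun x : b => (x : Fin n → ZMod p)) hii

/-- the same with the residues of all slots -/
theorem rank_sound_nat [Fact p.Prime] (hP : Par p W k) {m L : ℕ}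
    (hb : 2 ^ k + m * 2 ^ (2 * k) ≤ 2 ^ W) (rows : List ℕ)
    (hrows : ∀ x ∈ rows, ∀ i, slot W x i < 2 ^ k)
    (h : rankChk p W k n L rows m = true) :
    ∃ f : Fin m → Fin rows.length, Function.Injective f ∧
      LinearIndependent (ZMod p) (fun i : Fin m => fun j : ℕ =>
        (slot W (rows.get (f i)) j : ZMod p)) := by
  obtain ⟨f, hf, hli⟩ := rank_sound hP hb rows hrows h
  refine ⟨f, hf, ?_⟩
  refine LinearIndependent.of_comp
    (LinearMap.funLeft (ZMod p) (ZMod p) (fun j : Fin n => (j : ℕ))) ?_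
  exact hli

/-- vectors of a submodule with functionals whose values are the packed rows -/
theorem le_finrank_of_rankChk [Fact p.Prime] (hP : Par p W k) {m L : ℕ}
    (hb : 2 ^ k + m * 2 ^ (2 * k) ≤ 2 ^ W) (rows : List ℕ)
    (hrows : ∀ x ∈ rows, ∀ i, slot W x i < 2 ^ k)
    (h : rankChk p W k n L rows m = true)
    {V : Type*} [AddCommGroup V] [Module (ZMod p) V] (D : Submodule (ZMod p) V)
    [Module.Finite (ZMod p) D] (y : Fin rows.length → V) (hy : ∀ i, y i ∈ D)
    (φ : Fin n → (V →ₗ[ZMod p] ZMod p))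
    (hφ : ∀ i j, φ j (y i) = (slot W (rows.get i) j : ZMod p)) :
    m ≤ Module.finrank (ZMod p) D := by
  obtain ⟨f, hf, hli⟩ := rank_sound hP hb rows hrows h
  have h1 : LinearIndependent (ZMod p) (fun i : Fin m => y (f i)) := by
    refine LinearIndependent.of_comp (LinearMap.pi φ) ?_
    have h2 : (LinearMap.pi φ) ∘ (fun i : Fin m => y (f i))
        = fun i : Fin m => vec p W n (rows.get (f i)) := by
      funext i j
      exact hφ _ _
    rw [h2]; exact hli
  have h2 : LinearIndependent (ZMod p) (fun i : Fin m => (⟨y (f i), hy _⟩ : D)) := by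
    refine LinearIndependent.of_comp D.subtype ?_
    exact h1
  have h3 := h2.fintype_card_le_finrank
  rwa [Fintype.card_fin] at h3

end

end Crest.Agent.R187.SN.Rank
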