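import Mathlib
import Crest.Agent.R187.SN.Block
import Crest.Agent.R187.SN.Rank
import Crest.Agent.R187.SN.DFin

/-!
# Row 187, PLAN S, block E5: the check of one record of the top level and its soundness

`chkRec R = true`, together with the properties of the tables used, gives
`R.m ≤ finrank (ZMod 127) (Spec.D (ZMod 127) 6 7 (shp R.key))`.
-/

set_option autoImplicit false

namespace Crest.Agent.R187.SN.Top

open Crest.Agent.R187.SN Crest.Agent.R187.SN.Spec Crest.Agent.R187.SN.Gen
open Crest.Agent.R187.SN.Kern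

attribute [local irreducible] mkT

/-! ### kernel functions -/

/-- evaluate `n` before it is used -/
noncomputable def force {α : Type} (n : ℕ) (f : ℕ → α) : α :=
  Nat.rec (motive := fun _ => α) (f 0) (fun m _ => f (Nat.succ m)) n

lemma force_eq {α : Type} (n : ℕ) (f : ℕ → α) : force n f = f n := by cases n <;> rfl

/-- `buildQ` with evaluated tables, continuation passing -/
noncomputable def buildF (Q : List (ℕ × ℕ)) : (List (ℕ × ℕ) → Bool) → Bool :=
  List.rec (motive := fun _ => (List (ℕ × ℕ) → Bool) → Bool) (fun c => c [])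
    (fun e _ ih c => Prod.rec (motive := fun _ => Bool)
      (fun w key => force (mkT key) (fun T => ih (fun L => c ((w, T) :: L)))) e) Q

lemma buildF_eq (Q : List (ℕ × ℕ)) : ∀ (c : List (ℕ × ℕ) → Bool), buildF Q c = c (buildQ Q) := by
  induction Q with
  | nil => intro c; rfl
  | cons e Q ih =>
    intro c
    obtain ⟨w, key⟩ := e
    show force (mkT key) (fun T => buildF Q (fun L => c ((w, T) :: L))) = _
    rw [force_eq, ih]
    rfl

/-- quadrature check with given tables -/
noncomputable def quadF (kk kl a : ℕ) (Q QT : List (ℕ × ℕ)) : Bool :=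
  andB (antiChk kk) (andB (hsChk kk kl a) (andB (allHS kk a Q) (andB (Nat.ble (dg0 kk + a) 42)
    (dfs (Nat.mul 8 (Nat.add (dg0 kk) 5)) (rowsOf kk kl) a QT true))))

lemma quadF_eq (kk kl a : ℕ) (Q : List (ℕ × ℕ)) : quadF kk kl a Q (buildQ Q) = quadChk kk kl a Q :=
  rfl

/-- all blocks of a source -/
noncomputable def blocksF (Q : List (ℕ × ℕ)) (n : ℕ) (V : VE) (cols : List WT) :
    (List (ℕ × ℕ) → Bool) → Bool :=
  List.rec (motive := fun _ => (List (ℕ × ℕ) → Bool) → Bool) (fun c => c [])
    (fun w _ ih c => WT.rec (motive := fun _ => Bool)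
      (fun _ nw We => force (blkN Q n nw V We) (fun B => ih (fun L => c ((B, nw) :: L)))) w) cols

/-- the list of the blocks -/
noncomputable def blocksL (Q : List (ℕ × ℕ)) (n : ℕ) (V : VE) (cols : List WT) : List (ℕ × ℕ) :=
  cols.map (fun w => (blkN Q n w.n V w.ent, w.n))

lemma blocksF_eq (Q : List (ℕ × ℕ)) (n : ℕ) (V : VE) (cols : List WT) :
    ∀ (c : List (ℕ × ℕ) → Bool), blocksF Q n V cols c = c (blocksL Q n V cols) := by
  induction cols with
  | nil => intro c; rfl
  | cons w cols ih =>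
    intro c
    obtain ⟨k, nw, We⟩ := w
    show force (blkN Q n nw V We) (fun B => blocksF Q n V cols (fun L => c ((B, nw) :: L))) = _
    rw [force_eq, ih]
    rfl

/-- one row of the matrix: the blocks side by side; `sh = 24 * 33 * r` -/
noncomputable def rowR (sh : ℕ) (L : List (ℕ × ℕ)) : ℕ :=
  List.rec (motive := fun _ => ℕ) 0 (fun e _ ih => Prod.rec (motive := fun _ => ℕ)
    (fun B nw => Nat.add (Nat.mod (Nat.shiftRight B sh) (Nat.pow 2 (Nat.mul 24 nw)))
      (Nat.shiftLeft ih (Nat.mul 24 nw))) e) L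

/-- rows `0, …, n-1`, continuation passing -/
noncomputable def rowsF (L : List (ℕ × ℕ)) (n : ℕ) : List ℕ → (List ℕ → Bool) → Bool :=
  Nat.rec (motive := fun _ => List ℕ → (List ℕ → Bool) → Bool) (fun acc c => c acc)
    (fun i ih acc c => force (rowR (Nat.mul 24 (Nat.mul 33 i)) L) (fun x => ih (x :: acc) c)) n

/-- the rows -/
noncomputable def rowsL (L : List (ℕ × ℕ)) (n : ℕ) (acc : List ℕ) : List ℕ :=
  (List.range n).map (fun i => rowR (Nat.mul 24 (Nat.mul 33 i)) L) ++ acc

lemma rowsF_eq (L : List (ℕ × ℕ)) (n : ℕ) : ∀ (acc : List ℕ) (c : List ℕ → Bool),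
    rowsF L n acc c = c (rowsL L n acc) := by
  induction n with
  | zero => intro acc c; rfl
  | succ i ih =>
    intro acc c
    show force (rowR (Nat.mul 24 (Nat.mul 33 i)) L) (fun x => rowsF L i (x :: acc) c) = _
    rw [force_eq, ih]
    congr 1
    unfold rowsL
    rw [List.range_succ, List.map_append, List.append_assoc]
    rfl

/-- all sources -/
noncomputable def srcF (kl : ℕ) (cols : List WT) (fin : List ℕ → Bool) (src : List Src) :
    List ℕ → Bool :=
  List.rec (motive := fun _ => List ℕ → Bool) fin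
    (fun s _ ih acc => Src.rec (motive := fun _ => Bool)
      (fun tab quad => VT.rec (motive := fun _ => Bool)
        (fun kk n V => buildF quad (fun Q => andB (quadF kk kl 6 quad Q)
          (blocksF Q n V cols (fun L => rowsF L n acc ih)))) tab) s) src

/-- all columns are horizontal strips below `λ` -/
noncomputable def colsHS (kl : ℕ) (cols : List WT) : Bool :=
  List.rec (motive := fun _ => Bool) true (fun w _ ih => andB (hsChk (WT.key w) kl 7) ih) cols

/-- number of columns -/
noncomputable def ncols (cols : List WT) : ℕ :=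
  List.rec (motive := fun _ => ℕ) 0 (fun w _ ih => Nat.add (WT.n w) ih) cols

/-- **the check of one record** -/
noncomputable def chkRec (R : Rec) : Bool :=
  Rec.rec (motive := fun _ => Bool)
    (fun key m src cols => andB (Nat.ble m 1000) (andB (colsHS key cols)
      (srcF key cols (fun rows => Rank.rankChk 127 24 7 (ncols cols) 9 rows m) src []))) R

/-! ### slots of a row -/

lemma rowR_cons (sh B nw : ℕ) (L : List (ℕ × ℕ)) : rowR sh ((B, nw) :: L)
    = Nat.add (Nat.mod (Nat.shiftRight B sh) (Nat.pow 2 (Nat.mul 24 nw)))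
      (Nat.shiftLeft (rowR sh L) (Nat.mul 24 nw)) := rfl

lemma slot_rowR_cons (r B nw : ℕ) (L : List (ℕ × ℕ)) (j : ℕ) :
    slot 24 (rowR (Nat.mul 24 (Nat.mul 33 r)) ((B, nw) :: L)) j
      = if j < nw then slot 24 B (33 * r + j)
        else slot 24 (rowR (Nat.mul 24 (Nat.mul 33 r)) L) (j - nw) := by
  have h1 : ∀ j, slot 24 (Nat.mod (Nat.shiftRight B (Nat.mul 24 (Nat.mul 33 r)))
      (Nat.pow 2 (Nat.mul 24 nw))) j = if j < nw then slot 24 B (33 * r + j) else 0 := by
    intro j
    rw [slot_mod, slot_shr]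
    rfl
  have h2 : ∀ j, slot 24 (Nat.shiftLeft (rowR (Nat.mul 24 (Nat.mul 33 r)) L) (Nat.mul 24 nw)) j
      = if nw ≤ j then slot 24 (rowR (Nat.mul 24 (Nat.mul 33 r)) L) (j - nw) else 0 := by
    intro j
    rw [slot_shl (by norm_num)]
  rw [rowR_cons, slot_add (by norm_num), h1, h2]
  · by_cases h : j < nw
    · rw [if_pos h, if_neg (by omega), if_pos h, add_zero]
    · rw [if_neg h, if_pos (by omega), if_neg h, zero_add]
  · intro j
    rw [h1, h2]
    by_cases h : j < nw
    · rw [if_pos h, if_neg (by omega), add_zero]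
      exact slot_lt _ _ _
    · rw [if_neg h, if_pos (by omega), zero_add]
      exact slot_lt _ _ _

/-! ### the meaning of the rows -/

section

variable {mm : Sh → ℕ} {v : Sh → ℕ → List Sh → ZMod 127} {pat : Sh → ℕ → List Sh}

/-- the evaluation point of column `j` -/
noncomputable def evalPt (pat : Sh → ℕ → List Sh) : List WT → ℕ → List Sh
  | [], _ => []
  | w :: t, j => if j < w.n then shp w.key :: pat (shp w.key) j else evalPt pat t (j - w.n)

lemma blkN_lt (Q : List (ℕ × ℕ)) {n c : ℕ} (hc : c ≤ 33) (V : VE) (W : WE) (j : ℕ) :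
    slot 24 (blkN Q n c V W) j < 2 ^ 7 :=
  (good_red par127 (by norm_num) hc _ j).1

lemma rowR_lt (Q : List (ℕ × ℕ)) (n r : ℕ) (V : VE) (cols : List WT) (hc : ∀ w ∈ cols, w.n ≤ 33) :
    ∀ j, slot 24 (rowR (Nat.mul 24 (Nat.mul 33 r)) (blocksL Q n V cols)) j < 2 ^ 7 := by
  induction cols with
  | nil =>
    intro j
    show slot 24 0 j < 2 ^ 7
    rw [slot_zero]
    norm_num
  | cons w cols ih =>
    intro j
    show slot 24 (rowR (Nat.mul 24 (Nat.mul 33 r))
      ((blkN Q n w.n V w.ent, w.n) :: blocksL Q n V cols)) j < 2 ^ 7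
    rw [slot_rowR_cons]
    split_ifs
    · exact blkN_lt Q (hc w List.mem_cons_self) _ _ _
    · exact ih (fun w' hw' => hc w' (List.mem_cons_of_mem _ hw')) _

lemma rowR_value {kk kl : ℕ} {Q : List (ℕ × ℕ)} (hq : quadChk kk kl 6 Q = true)
    {V : VT} (hV : V.Good) (cols : List WT) (hcols : ∀ w ∈ cols, w.Good mm ∧ HasW v mm 7 pat w)
    (hHS : ∀ w ∈ cols, HS (shp w.key) (shp kl) 7)
    {r : ℕ} (hr : r < V.n) (x : List Sh → ZMod 127)
    (hx : ∀ κ' m, x (κ' :: m) = ∑ l ∈ Finset.range (mm κ'), en (vget V.ent κ') r l * v κ' l m) :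
    ∀ j < ncols cols, Mop (ZMod 127) 7 6 (shp kk) (shp kl) x (evalPt pat cols j)
      = ((slot 24 (rowR (Nat.mul 24 (Nat.mul 33 r)) (blocksL (buildQ Q) V.n V.ent cols)) j : ℕ)
        : ZMod 127) := by
  induction cols with
  | nil => intro j hj; exact absurd hj (Nat.not_lt_zero _)
  | cons w cols ih =>
    intro j hj
    show _ = ((slot 24 (rowR (Nat.mul 24 (Nat.mul 33 r))
      ((blkN (buildQ Q) V.n w.n V.ent w.ent, w.n) :: blocksL (buildQ Q) V.n V.ent cols)) j : ℕ)
        : ZMod 127)
    rw [slot_rowR_cons]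
    obtain ⟨hw1, hw2⟩ := hcols w List.mem_cons_self
    by_cases h : j < w.n
    · rw [if_pos h]
      show Mop (ZMod 127) 7 6 (shp kk) (shp kl) x
        (if j < w.n then shp w.key :: pat (shp w.key) j else evalPt pat cols (j - w.n)) = _
      rw [if_pos h]
      exact mop_value hq hV hw1 hw2 V.n hr h x hx (hHS w List.mem_cons_self)
    · rw [if_neg h]
      show Mop (ZMod 127) 7 6 (shp kk) (shp kl) x
        (if j < w.n then shp w.key :: pat (shp w.key) j else evalPt pat cols (j - w.n)) = _
      rw [if_neg h]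
      refine ih (fun w' hw' => hcols w' (List.mem_cons_of_mem _ hw'))
        (fun w' hw' => hHS w' (List.mem_cons_of_mem _ hw')) _ ?_
      have h1 : ncols (w :: cols) = w.n + ncols cols := rfl
      omega

end

/-! ### unwinding the check -/

lemma srcF_sound {kl : ℕ} {cols : List WT} {fin : List ℕ → Bool} (src : List Src) :
    ∀ acc, srcF kl cols fin src acc = true →
      (∀ s ∈ src, quadChk s.tab.key kl 6 s.quad = true) ∧
      ∃ rows, fin rows = true ∧ ∀ x ∈ rows, x ∈ acc ∨ ∃ s ∈ src, ∃ r < s.tab.n,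
        x = rowR (Nat.mul 24 (Nat.mul 33 r))
          (blocksL (buildQ s.quad) s.tab.n s.tab.ent cols) := by
  induction src with
  | nil =>
    intro acc h
    refine ⟨fun s hs => by simp at hs, acc, h, fun x hx => Or.inl hx⟩
  | cons s src ih =>
    intro acc h
    obtain ⟨⟨kk, n, V⟩, quad⟩ := s
    have h1 : srcF kl cols fin (⟨⟨kk, n, V⟩, quad⟩ :: src) acc
        = buildF quad (fun Q => andB (quadF kk kl 6 quad Q)
          (blocksF Q n V cols (fun L => rowsF L n acc (srcF kl cols fin src)))) := rfl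
    rw [h1, buildF_eq, quadF_eq, andB_eq, blocksF_eq, rowsF_eq] at h
    obtain ⟨h2, h3⟩ := h
    obtain ⟨h4, rows, h5, h6⟩ := ih _ h3
    refine ⟨?_, rows, h5, ?_⟩
    · intro s hs
      rcases List.mem_cons.1 hs with rfl | hs
      · exact h2
      · exact h4 s hs
    · intro x hx
      rcases h6 x hx with h7 | ⟨s, hs, r, hr, h7⟩
      · unfold rowsL at h7
        rcases List.mem_append.1 h7 with h8 | h8
        · rw [List.mem_map] at h8
          obtain ⟨i, hi, rfl⟩ := h8
          exact Or.inr ⟨_, List.mem_cons_self, i, List.mem_range.1 hi, rfl⟩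
        · exact Or.inl h8
      · exact Or.inr ⟨s, List.mem_cons_of_mem _ hs, r, hr, h7⟩

lemma colsHS_sound {kl : ℕ} {cols : List WT} (h : colsHS kl cols = true) :
    ∀ w ∈ cols, HS (shp w.key) (shp kl) 7 := by
  induction cols with
  | nil => intro w hw; simp at hw
  | cons w0 cols ih =>
    have h1 : colsHS kl (w0 :: cols) = andB (hsChk w0.key kl 7) (colsHS kl cols) := rfl
    rw [h1, andB_eq] at h
    intro w hw
    rcases List.mem_cons.1 hw with rfl | hw
    · exact hsChk_sound h.1
    · exact ih h.2 w hw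

/-! ### the rank step -/

lemma finrank_of_rank {n m L : ℕ} (hm : m ≤ 1000) (rows : List ℕ)
    (hrows : ∀ x ∈ rows, ∀ i, slot 24 x i < 2 ^ 7)
    (h : Rank.rankChk 127 24 7 n L rows m = true) (b : ℕ) (lam : Sh) (φ : ℕ → List Sh)
    (hx : ∀ x ∈ rows, ∃ y ∈ Spec.D (ZMod 127) 6 b lam, ∀ j < n,
      y (φ j) = ((slot 24 x j : ℕ) : ZMod 127)) :
    m ≤ Module.finrank (ZMod 127) (Spec.D (ZMod 127) 6 b lam) := by
  have := DFin.D_finite (K := ZMod 127) 6 b lam
  have h1 := Rank.rank_finrank (p := 127) par127 (m := m) (by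
    calc 2 ^ 7 + m * 2 ^ (2 * 7) ≤ 2 ^ 7 + 1000 * 2 ^ (2 * 7) :=
          Nat.add_le_add_left (Nat.mul_le_mul_right _ hm) _
      _ ≤ 2 ^ 24 := by norm_num) rows hrows h
  refine h1.trans ?_
  let Φ : (List Sh → ZMod 127) →ₗ[ZMod 127] (Fin n → ZMod 127) :=
    LinearMap.pi (fun j => LinearMap.proj (φ j))
  have h2 : Submodule.span (ZMod 127)
      {u : Fin n → ZMod 127 | ∃ x ∈ rows, u = Rank.vec 127 24 n x}
      ≤ (Spec.D (ZMod 127) 6 b lam).map Φ := by
    rw [Submodule.span_le]
    rintro u ⟨x, hxr, rfl⟩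
    obtain ⟨y, hy, hj⟩ := hx x hxr
    refine ⟨y, hy, ?_⟩
    funext j
    exact hj j j.2
  exact (Submodule.finrank_mono h2).trans (Submodule.finrank_map_le Φ _)

/-! ### the theorem -/

/-- the property of all source tables, iterated conjunction -/
def AllSrc (P : VT → Prop) : List Src → Prop
  | [] => True
  | s :: t => P s.tab ∧ AllSrc P t

/-- the property of all column tables, iterated conjunction -/
def AllCol (P : WT → Prop) : List WT → Prop
  | [] => True
  | w :: t => P w ∧ AllCol P t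

lemma AllSrc.mem {P : VT → Prop} {L : List Src} (h : AllSrc P L) : ∀ s ∈ L, P s.tab := by
  induction L with
  | nil => intro s hs; simp at hs
  | cons s0 t ih =>
    intro s hs
    rcases List.mem_cons.1 hs with rfl | hs
    · exact h.1
    · exact ih h.2 s hs

lemma AllCol.mem {P : WT → Prop} {L : List WT} (h : AllCol P L) : ∀ w ∈ L, P w := by
  induction L with
  | nil => intro s hs; simp at hs
  | cons s0 t ih =>
    intro s hs
    rcases List.mem_cons.1 hs with rfl | hs
    · exact h.1
    · exact ih h.2 s hs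

/-- **soundness of the records of the top level** (general form) -/
theorem chkRec_sound {mm : Sh → ℕ} {v : Sh → ℕ → List Sh → ZMod 127} {pat : Sh → ℕ → List Sh}
    (R : Rec) (hV : AllSrc (fun t => t.Good ∧ HasV v mm 6 t) R.src)
    (hW : AllCol (fun w => w.Good mm ∧ HasW v mm 7 pat w) R.cols) (h : chkRec R = true) :
    R.m ≤ Module.finrank (ZMod 127) (Spec.D (ZMod 127) 6 7 (shp R.key)) := by
  obtain ⟨key, m, src, cols⟩ := R
  have h1 : chkRec ⟨key, m, src, cols⟩ = andB (Nat.ble m 1000) (andB (colsHS key cols)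
      (srcF key cols (fun rows => Rank.rankChk 127 24 7 (ncols cols) 9 rows m) src [])) := rfl
  rw [h1, andB_eq, andB_eq, Nat.ble_eq] at h
  obtain ⟨hm, hc, hs⟩ := h
  obtain ⟨hq, rows, hrk, hrows⟩ := srcF_sound src [] hs
  have hHS := colsHS_sound hc
  have hcol := AllCol.mem hW
  have hsrc := AllSrc.mem hV
  have hrows' : ∀ x ∈ rows, ∃ s ∈ src, ∃ r < s.tab.n,
        x = rowR (Nat.mul 24 (Nat.mul 33 r))
          (blocksL (buildQ s.quad) s.tab.n s.tab.ent cols) := by
    intro x hx
    rcases hrows x hx with h2 | h2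
    · simp at h2
    · exact h2
  refine finrank_of_rank hm rows ?_ hrk 7 (shp key) (evalPt pat cols) ?_
  · intro x hx
    obtain ⟨s, _, r, _, rfl⟩ := hrows' x hx
    exact rowR_lt _ _ _ _ _ (fun w hw => (hcol w hw).1.hn)
  · intro x hx
    obtain ⟨s, hs, r, hr, rfl⟩ := hrows' x hx
    obtain ⟨hVg, xs, hxs⟩ := hsrc s hs
    obtain ⟨hD, hxr⟩ := hxs r hr
    have hqs := hq s hs
    have hHSk : HS (shp s.tab.key) (shp key) 6 := by
      unfold quadChk at hqs
      rw [andB_eq, andB_eq] at hqs
      exact hsChk_sound hqs.2.1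
    refine ⟨Mop (ZMod 127) 7 6 (shp s.tab.key) (shp key) (xs r), ?_, ?_⟩
    · exact Submodule.subset_span ⟨_, hHSk, _, hD, rfl⟩
    · exact rowR_value hqs hVg cols hcol hHS hr (xs r) hxr

end Crest.Agent.R187.SN.Top
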