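import Crest.Agent.R187.SN.FwdKs
import Crest.Agent.R187.SN.Top

/-!
# Row 187, PLAN S, block E3: the forward step with iterated conjunctions
-/

set_option autoImplicit false

namespace Crest.Agent.R187.SN.Fwd

open Crest.Agent.R187.SN Crest.Agent.R187.SN.Spec Crest.Agent.R187.SN.Img
open Crest.Agent.R187.SN.Top Crest.Agent.R187.SN.Kern

/-- the property of all source tables, iterated conjunction -/
def AllFSrc (P : VT → Prop) : List FSrc → Prop
  | [] => True
  | s :: t => P s.tab ∧ AllFSrc P t

lemma AllFSrc.mem {P : VT → Prop} {L : List FSrc} (h : AllFSrc P L) : ∀ s ∈ L, P s.tab := by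
  induction L with
  | nil => intro s hs; simp at hs
  | cons s0 t ih =>
    intro s hs
    rcases List.mem_cons.1 hs with rfl | hs
    · exact h.1
    · exact ih h.2 s hs

/-- **soundness of the forward step** (conjunction form) -/
theorem fwd_sound' {T : Tab (ZMod 127)} {M : Sh → Sh → ℕ → ℕ → ZMod 127} {b : ℕ}
    (hM : RelAll T M 5 b) {ks : List ℕ} (hks : KsOk T (b + 1) ks) (f : Fwd)
    (hsrc : AllFSrc (Has6 T b) f.src) (hws : AllCol (WtOk T M b) f.ws)
    (h : fwdChk (b + 1) ks f = true) : Has6 T (b + 1) f.out :=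
  fwd_sound hM hks hws.mem hsrc.mem h

end Crest.Agent.R187.SN.Fwd
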