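import Crest.Agent.R187.SN.Kern

/-!
# Row 187: kernel check that one packed matrix is the transpose of another one
-/

set_option autoImplicit false

namespace Crest.Agent.R187.SN.Tr

open Crest.Agent.R187.SN.Kern

/-- conjunction that does not evaluate the second argument if the first is `false` -/
def andb (a b : Bool) : Bool := Bool.rec (motive := fun _ => Bool) false b a

lemma andb_eq {a b : Bool} : andb a b = true ↔ a = true ∧ b = true := by
  cases a <;> cases b <;> simp [andb]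

/-- compare row `i` (given shifted: `x` starts at `(i, 0)`, `y` at `(0, i)`) for `c` columns;
`wx` = bits of a slot of `x`, `wy` = bits of a row of `y` -/
def trRow (mx my wx wy : ℕ) (c : ℕ) : ℕ → ℕ → Bool :=
  Nat.rec (motive := fun _ => ℕ → ℕ → Bool) (fun _ _ => true)
    (fun _ ih x y => andb (Nat.beq (Nat.land x mx) (Nat.land y my))
      (ih (Nat.shiftRight x wx) (Nat.shiftRight y wy))) c

/-- all rows; `rx` = bits of a row of `x`, `ry` = bits of a slot of `y` -/
def trAll (mx my wx wy rx ry c : ℕ) (r : ℕ) : ℕ → ℕ → Bool :=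
  Nat.rec (motive := fun _ => ℕ → ℕ → Bool) (fun _ _ => true)
    (fun _ ih x y => andb (trRow mx my wx wy c x y)
      (ih (Nat.shiftRight x rx) (Nat.shiftRight y ry))) r

/-- `x` is `r × c` with slots of `Wx` bits and stride `Sx`, `y` is `c × r` with slots of `Wy` bits
and stride `Sy` -/
def trChk (Wx Sx Wy Sy r c x y : ℕ) : Bool :=
  trAll (Nat.sub (Nat.pow 2 Wx) 1) (Nat.sub (Nat.pow 2 Wy) 1) Wx (Nat.mul Wy Sy) (Nat.mul Wx Sx) Wy
    c r x y

lemma trRow_sound (Wx Wy Sy : ℕ) (c : ℕ) : ∀ (x y : ℕ),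
    trRow (2 ^ Wx - 1) (2 ^ Wy - 1) Wx (Nat.mul Wy Sy) c x y = true →
    ∀ j < c, slot Wx x j = slot Wy y (Sy * j) := by
  induction c with
  | zero => intro x y _ j hj; omega
  | succ c ih =>
    intro x y h j hj
    have h1 : trRow (2 ^ Wx - 1) (2 ^ Wy - 1) Wx (Nat.mul Wy Sy) (c + 1) x y
      = andb (Nat.beq (Nat.land x (2 ^ Wx - 1)) (Nat.land y (2 ^ Wy - 1)))
        (trRow (2 ^ Wx - 1) (2 ^ Wy - 1) Wx (Nat.mul Wy Sy) c
          (Nat.shiftRight x Wx) (Nat.shiftRight y (Nat.mul Wy Sy))) := rfl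
    rw [h1, andb_eq] at h
    obtain ⟨h2, h3⟩ := h
    rcases j with _ | j
    · have h4 : Nat.land x (2 ^ Wx - 1) = Nat.land y (2 ^ Wy - 1) := Nat.eq_of_beq_eq_true h2
      have h5 : ∀ W z : ℕ, slot W z 0 = Nat.land z (2 ^ W - 1) := by
        intro W z
        rw [slot_def, pow_zero, Nat.div_one]
        exact (Nat.and_two_pow_sub_one_eq_mod _ _).symm
      rw [mul_zero, h5, h5, h4]
    · have h4 := ih _ _ h3 j (by omega)
      have h5 := slot_shr (W := Wx) x 1 j
      have h6 := slot_shr (W := Wy) y Sy (Sy * j)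
      have h7 : Nat.mul Wx 1 = Wx := Nat.mul_one Wx
      rw [h7] at h5
      rw [h5, h6] at h4
      have h8 : Sy * (j + 1) = Sy + Sy * j := by ring
      rw [h8, ← h4, add_comm]

lemma trAll_sound (Wx Sx Wy Sy c : ℕ) (r : ℕ) : ∀ (x y : ℕ),
    trAll (2 ^ Wx - 1) (2 ^ Wy - 1) Wx (Nat.mul Wy Sy) (Nat.mul Wx Sx) Wy c r x y = true →
    ∀ i < r, ∀ j < c, slot Wx x (Sx * i + j) = slot Wy y (Sy * j + i) := by
  induction r with
  | zero => intro x y _ i hi; omega
  | succ r ih =>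
    intro x y h i hi j hj
    have h1 : trAll (2 ^ Wx - 1) (2 ^ Wy - 1) Wx (Nat.mul Wy Sy) (Nat.mul Wx Sx) Wy c (r + 1) x y
      = andb (trRow (2 ^ Wx - 1) (2 ^ Wy - 1) Wx (Nat.mul Wy Sy) c x y)
        (trAll (2 ^ Wx - 1) (2 ^ Wy - 1) Wx (Nat.mul Wy Sy) (Nat.mul Wx Sx) Wy c r
          (Nat.shiftRight x (Nat.mul Wx Sx)) (Nat.shiftRight y Wy)) := rfl
    rw [h1, andb_eq] at h
    obtain ⟨h2, h3⟩ := h
    rcases i with _ | i
    · have h4 := trRow_sound Wx Wy Sy c x y h2 j hj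
      rw [mul_zero, zero_add, add_zero]; exact h4
    · have h4 := ih _ _ h3 i (by omega) j hj
      have h5 := slot_shr (W := Wx) x Sx (Sx * i + j)
      have h6 := slot_shr (W := Wy) y 1 (Sy * j + i)
      have h7 : Nat.mul Wy 1 = Wy := Nat.mul_one Wy
      rw [h7] at h6
      rw [h5, h6] at h4
      have h8 : Sx * (i + 1) + j = Sx + (Sx * i + j) := by ring
      have h9 : Sy * j + (i + 1) = 1 + (Sy * j + i) := by ring
      rw [h8, h9, h4]

theorem trChk_sound {Wx Sx Wy Sy r c x y : ℕ} (h : trChk Wx Sx Wy Sy r c x y = true) :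
    ∀ i < r, ∀ j < c, slot Wx x (Sx * i + j) = slot Wy y (Sy * j + i) :=
  trAll_sound Wx Sx Wy Sy c r x y h

end Crest.Agent.R187.SN.Tr
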