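import Crest.Agent.R187.SN.PivK
import Crest.Agent.R187.SN.Tr
import Crest.Agent.R187.SN.Count2
import Crest.Agent.R187.SN.TD.Base

/-!
# Row 187, PLAN S, blocks E3/E4: kernel check of the `W` tables against the relation tables
-/

set_option autoImplicit false

namespace Crest.Agent.R187.SN.WChk

open Crest.Agent.R187.SN Crest.Agent.R187.SN.Spec Crest.Agent.R187.SN.Kern
open Crest.Agent.R187.SN.KKey Crest.Agent.R187.SN.KD Crest.Agent.R187.SN.Top
open Crest.Agent.R187.SN.PivK
open Crest.Agent.R187.SN.Tr (trChk trChk_sound)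

/-! ### keys: base 64 to base 128 -/

/-- digit `r` (from the right) -/
def d64 (k r : ℕ) : ℕ := Nat.mod (Nat.shiftRight k (Nat.mul 6 r)) 64

/-- base 64 key ↦ base 128 key -/
def cv (k : ℕ) : ℕ :=
  Nat.add (d64 k 0) (Nat.mul 128 (Nat.add (d64 k 1) (Nat.mul 128 (Nat.add (d64 k 2)
    (Nat.mul 128 (Nat.add (d64 k 3) (Nat.mul 128 (Nat.add (d64 k 4) (Nat.mul 128 (d64 k 5))))))))))

lemma d64_eq (k r : ℕ) : d64 k r = k / 64 ^ r % 64 := by
  show k >>> (6 * r) % 64 = _
  rw [Nat.shiftRight_eq_div_pow, pow_mul]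
  norm_num

lemma shp_lt (k : ℕ) (i : Fin 6) : shp k i < 64 := Nat.mod_lt _ (by norm_num)

lemma cv_eq (k : ℕ) : cv k = ky (shp k) := by
  rw [ky_eq]
  show d64 k 0 + 128 * (d64 k 1 + 128 * (d64 k 2 + 128 * (d64 k 3 + 128 * (d64 k 4 +
    128 * d64 k 5)))) = _
  simp only [d64_eq]
  rfl

lemma sh7_cv (k : ℕ) : sh7 (cv k) = shp k := by
  rw [cv_eq, sh7_ky (fun i => (shp_lt k i).trans (by norm_num))]

/-! ### lookups -/

/-- multiplicity of the shape with key `k` in an index list -/
noncomputable def lkM (k : ℕ) (L : List IE) : ℕ :=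
  List.rec (motive := fun _ => ℕ) 0
    (fun e _ ih => Bool.rec (motive := fun _ => ℕ) ih (IE.m e) (Nat.beq (IE.key e) k)) L

lemma lkM_cons (k : ℕ) (e : IE) (L : List IE) :
    lkM k (e :: L) = Bool.rec (motive := fun _ => ℕ) (lkM k L) e.m (Nat.beq e.key k) := rfl

lemma lkM_cons_ne {k : ℕ} {e : IE} (L : List IE) (h : e.key ≠ k) : lkM k (e :: L) = lkM k L := by
  rw [lkM_cons]
  cases h2 : Nat.beq e.key k with
  | false => rfl
  | true => exact absurd (Nat.eq_of_beq_eq_true h2) h

/-- drop the entries with larger keys -/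
noncomputable def dropW (k : ℕ) (L : List IE) : List IE :=
  List.rec (motive := fun _ => List IE) []
    (fun e t ih => Bool.rec (motive := fun _ => List IE) (List.cons e t) ih
      (Nat.ble (Nat.succ k) (IE.key e))) L

lemma lkM_dropW {k k' : ℕ} (h : k' ≤ k) (L : List IE) : lkM k' (dropW k L) = lkM k' L := by
  induction L with
  | nil => rfl
  | cons e L ih =>
    have h1 : dropW k (e :: L) = Bool.rec (motive := fun _ => List IE) (e :: L) (dropW k L)
      (Nat.ble (Nat.succ k) e.key) := rfl
    rw [h1]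
    cases h2 : Nat.ble (Nat.succ k) e.key with
    | false => rfl
    | true =>
      have h3 : k + 1 ≤ e.key := Nat.le_of_ble_eq_true h2
      show lkM k' (dropW k L) = _
      rw [ih, lkM_cons_ne L (by omega)]

/-- evaluate the list first -/
noncomputable def forceL (L : List IE) (f : List IE → Bool) : Bool :=
  List.rec (motive := fun _ => Bool) (f []) (fun e t _ => f (e :: t)) L

lemma forceL_eq (L : List IE) (f : List IE → Bool) : forceL L f = f L := by cases L <;> rfl

/-! ### the check -/

/-- property of all entries -/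
def AllW (P : ℕ → ℕ → ℕ → ℕ → Prop) : WE → Prop
  | .nil => True
  | .cons key cs K x t => P key cs K x ∧ AllW P t

/-- one entry: `k` = converted key, `L` = rest of the index list of the level of `κ'` -/
noncomputable def weOne (nb : ℕ → IE → ℕ) (e' : IE) (n k K x : ℕ) (L : List IE) : Bool :=
  andb (Nat.beq (lkM k L) K) (Nat.rec (motive := fun _ => Bool) true
    (fun _ _ => force (nb k e') (fun y => trChk 24 33 24 33 K n x y)) K)

/-- all entries -/
noncomputable def weChk (nb : ℕ → IE → ℕ) (e' : IE) (n : ℕ) (E : WE) : ℕ → List IE → Bool :=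
  WE.rec (motive := fun _ => ℕ → List IE → Bool) (fun _ _ => true)
    (fun key _ K x _ ih bd L => force (cv key) (fun k => forceL (dropW k L) (fun L' =>
      andb (Nat.ble k bd) (andb (weOne nb e' n k K x L') (ih k L'))))) E

lemma weChk_sound {nb : ℕ → IE → ℕ} {e' : IE} {n : ℕ} {LC : List IE} (E : WE) :
    ∀ (bd : ℕ) (L : List IE), (∀ k' ≤ bd, lkM k' L = lkM k' LC) → weChk nb e' n E bd L = true →
    AllW (fun key _ K x => K = lkM (cv key) LC ∧ ∀ l < K, ∀ c < n,
      slot 24 x (33 * l + c) = slot 24 (nb (cv key) e') (33 * c + l)) E := by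
  induction E with
  | nil => intro _ _ _ _; trivial
  | cons key cs K x E ih =>
    intro bd L hL h
    have h1 : weChk nb e' n (.cons key cs K x E) bd L = force (cv key) (fun k =>
      forceL (dropW k L) (fun L' => andb (Nat.ble k bd) (andb (weOne nb e' n k K x L')
        (weChk nb e' n E k L')))) := rfl
    rw [h1, force_eq, forceL_eq, andb_eq, andb_eq] at h
    obtain ⟨h2, h3, h4⟩ := h
    have hb : cv key ≤ bd := Nat.le_of_ble_eq_true h2
    have hL' : ∀ k' ≤ cv key, lkM k' (dropW (cv key) L) = lkM k' LC := fun k' hk' => by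
      rw [lkM_dropW hk', hL k' (hk'.trans hb)]
    unfold weOne at h3
    rw [andb_eq] at h3
    obtain ⟨h5, h6⟩ := h3
    refine ⟨⟨?_, ?_⟩, ih _ _ hL' h4⟩
    · rw [← Nat.eq_of_beq_eq_true h5, hL' _ le_rfl]
    · intro l hl c hc
      cases K with
      | zero => omega
      | succ K =>
        have h7 : force (nb (cv key) e') (fun y => trChk 24 33 24 33 (K + 1) n x y) = true := h6
        rw [force_eq] at h7
        exact trChk_sound h7 l hl c hc

/-- check of one table: `LC`, `LD` = index lists of the levels of `κ'`, `λ'` -/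
noncomputable def wtChk (nb : ℕ → IE → ℕ) (LC LD : List IE) (t : WT) : Bool :=
  force (cv (WT.key t)) (fun k => findE k (fun e' => andb (Nat.beq (IE.m e') (WT.n t))
    (weChk nb e' (WT.n t) (WT.ent t) 4398046511104 LC)) LD)

theorem wtChk_sound {nb : ℕ → IE → ℕ} {LC LD : List IE} {t : WT} (h : wtChk nb LC LD t = true)
    :
    ∃ e' ∈ LD, e'.key = cv t.key ∧ e'.m = t.n ∧
      AllW (fun key _ K x => K = lkM (cv key) LC ∧ ∀ l < K, ∀ c < t.n,
        slot 24 x (33 * l + c) = slot 24 (nb (cv key) e') (33 * c + l)) t.ent := by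
  unfold wtChk at h
  rw [force_eq] at h
  obtain ⟨e', he', hk, h1⟩ := findE_sound h
  rw [andb_eq] at h1
  exact ⟨e', he', hk, Nat.eq_of_beq_eq_true h1.1, weChk_sound _ _ _ (fun _ _ => rfl) h1.2⟩

/-- a list of tables -/
noncomputable def wtAll (nb : ℕ → IE → ℕ) (LC LD : List IE) (L : List WT) : Bool :=
  List.rec (motive := fun _ => Bool) true (fun t _ ih => andb (wtChk nb LC LD t) ih) L

lemma wtAll_mem {nb : ℕ → IE → ℕ} {LC LD : List IE} {L : List WT}
    (h : wtAll nb LC LD L = true) : ∀ t ∈ L, wtChk nb LC LD t = true := by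
  induction L with
  | nil => intro t ht; simp at ht
  | cons t L ih =>
    have h1 : wtAll nb LC LD (t :: L) = andb (wtChk nb LC LD t) (wtAll nb LC LD L) := rfl
    rw [h1, andb_eq] at h
    intro t' ht'
    rcases List.mem_cons.mp ht' with rfl | h2
    · exact h.1
    · exact ih h.2 t' h2

end Crest.Agent.R187.SN.WChk
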