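import Crest.Agent.R187.SN.Fwd
import Crest.Agent.R187.SN.WChk
import Crest.Agent.R187.SN.KRel
import Crest.Agent.R187.SN.Block

/-!
# Row 187, PLAN S, block E3: index lists, base case, bridge to `HasV`
-/

set_option autoImplicit false

namespace Crest.Agent.R187.SN.Fwd

open Crest.Agent.R187.SN Crest.Agent.R187.SN.Spec Crest.Agent.R187.SN.Img
open Crest.Agent.R187.SN.Top Crest.Agent.R187.SN.Kern

/-! ### index lists -/

/-- base 64 keys `ks` (strictly decreasing, first `< B`) of the index list `L` (base 128 keys) -/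
noncomputable def ksChk (ks : List ℕ) : ℕ → List KD.IE → Bool :=
  List.rec (motive := fun _ => ℕ → List KD.IE → Bool)
    (fun _ L => List.rec (motive := fun _ => Bool) true (fun _ _ _ => false) L)
    (fun k _ ih B L => andB (Nat.ble (Nat.succ k) B) (List.rec (motive := fun _ => Bool) false
      (fun e L' _ => andB (Nat.beq (WChk.cv k) (KD.IE.key e)) (ih k L')) L)) ks

theorem ksChk_sound (ks : List ℕ) : ∀ (B : ℕ) (L : List KD.IE), ksChk ks B L = true →
    ks.Pairwise (fun x y => y < x) ∧ (∀ k ∈ ks, k < B) ∧ ks.map WChk.cv = L.map KD.IE.key := by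
  induction ks with
  | nil =>
    intro B L h
    cases L with
    | nil => simp
    | cons e L => exact absurd h (by simp [ksChk])
  | cons k ks ih =>
    intro B L h
    cases L with
    | nil =>
      have h1 : ksChk (k :: ks) B [] = andB (Nat.ble (Nat.succ k) B) false := rfl
      rw [h1, andB_eq] at h
      exact absurd h.2 (by simp)
    | cons e L =>
      have h1 : ksChk (k :: ks) B (e :: L) = andB (Nat.ble (Nat.succ k) B)
        (andB (Nat.beq (WChk.cv k) (KD.IE.key e)) (ksChk ks k L)) := rfl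
      rw [h1, andB_eq, andB_eq, Nat.ble_eq] at h
      obtain ⟨h2, h3, h4⟩ := h
      obtain ⟨h5, h6, h7⟩ := ih k L h4
      refine ⟨List.pairwise_cons.2 ⟨h6, h5⟩, ?_, ?_⟩
      · intro k' hk'
        rcases List.mem_cons.1 hk' with rfl | h8
        · exact h2
        · exact (h6 k' h8).trans h2
      · rw [List.map_cons, List.map_cons, h7, Nat.eq_of_beq_eq_true h3]

theorem ksOk_of_chk {T : Tab (ZMod 127)} {b s tot : ℕ} {ks : List ℕ} {L : List KD.IE}
    (hL : KRel.IxOK s tot L) (hT : ∀ lam, T.m 5 b lam = KRel.mOf L lam)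
    (h : ksChk ks 68719476736 L = true) : KsOk T b ks := by
  obtain ⟨h1, h2, h3⟩ := ksChk_sound ks _ L h
  refine ⟨h1, h2, fun κ' hκ => ?_⟩
  rw [hT] at hκ
  obtain ⟨h4, h5, _⟩ := hL.look_pos hκ
  have h6 : (KRel.look L (KRel.kyo κ')).key ∈ ks.map WChk.cv := by
    rw [h3]; exact List.mem_map_of_mem h4
  rw [List.mem_map] at h6
  obtain ⟨k, hk, hk2⟩ := h6
  exact ⟨k, hk, by rw [← WChk.sh7_cv, hk2, h5]⟩

/-! ### base case -/

theorem shp_zero : shp 0 = 0 := by
  funext i
  simp [shp]

theorem vec_zero {T : Tab (ZMod 127)} (h0 : ∀ a ≤ 5, ∀ lam, T.m a 0 lam = if lam = 0 then 1 else 0)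
    (hV : ∀ a < 5, T.V (a + 1) 0 0 0 0 0 = 1) : ∀ a ≤ 5, vec T 0 a 0 0 = x0 (ZMod 127) a := by
  intro a
  induction a with
  | zero =>
    intro _
    funext l
    simp [vec, x0]
  | succ a ih =>
    intro ha
    have ih' := ih (by omega)
    funext l
    cases l with
    | nil => simp [vec, x0]
    | cons lam' l' =>
      rw [vec_cons, h0 a (by omega)]
      by_cases h : lam' = 0
      · subst h
        rw [if_pos rfl, Finset.sum_range_one, hV a (by omega), one_mul, ih']
        unfold x0
        rw [List.replicate_succ]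
        simp
      · rw [if_neg h, Finset.sum_range_zero]
        unfold x0
        rw [if_neg]
        rw [List.replicate_succ]
        intro h2
        rw [List.cons.injEq] at h2
        exact h h2.1

/-- the table of level `(6, 0)` -/
theorem has6_zero {T : Tab (ZMod 127)}
    (h0 : ∀ a ≤ 5, ∀ lam, T.m a 0 lam = if lam = 0 then 1 else 0)
    (hV : ∀ a < 5, T.V (a + 1) 0 0 0 0 0 = 1) :
    Has6 T 0 ⟨0, 1, VE.cons 0 1 VE.nil⟩ := by
  have hs : ∀ n, slot 24 1 n < 2 ^ 7 := by
    intro n
    rcases Nat.eq_zero_or_pos n with rfl | hn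
    · rw [slot_def]; norm_num
    · rw [slot_zero_of_lt]
      · norm_num
      · calc 1 < 2 ^ 24 := by norm_num
          _ ≤ 2 ^ (24 * n) := Nat.pow_le_pow_right (by norm_num) (by omega)
  refine ⟨⟨?_, ?_, ⟨hs, trivial⟩⟩, fun _ => x0 (ZMod 127) 6, ?_⟩
  · simp [vkeys]
  · simp [vkeys]
  · intro r hr
    have hr0 : r = 0 := by
      have h1 : r < 1 := hr
      omega
    subst hr0
    refine ⟨?_, ?_, ?_⟩
    · show x0 (ZMod 127) 6 ∈ Spec.D (ZMod 127) 6 0 (shp 0)
      rw [shp_zero]
      unfold Spec.D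
      rw [if_pos rfl]
      exact Submodule.mem_span_singleton_self _
    · simp [x0]
    · intro κ' l'
      rw [h0 5 le_rfl]
      by_cases h : κ' = 0
      · subst h
        rw [if_pos rfl, Finset.sum_range_one, vec_zero h0 hV 5 le_rfl]
        have h1 : vx (VE.cons 0 1 VE.nil) 0 = 1 := by rw [vx_cons, shp_zero, if_pos rfl]
        show _ = ((slot 24 (vx (VE.cons 0 1 VE.nil) 0) (33 * 0 + 0) : ℕ) : ZMod 127) * _
        rw [h1]
        have h2 : slot 24 1 (33 * 0 + 0) = 1 := by rw [slot_def]; norm_num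
        rw [h2, Nat.cast_one, one_mul]
        unfold x0
        rw [List.replicate_succ]
        simp
      · rw [if_neg h, Finset.sum_range_zero]
        show (if (κ' :: l') = List.replicate 6 0 then (1 : ZMod 127) else 0) = 0
        rw [if_neg]
        rw [List.replicate_succ]
        intro h2
        rw [List.cons.injEq] at h2
        exact h h2.1

/-! ### bridge to helper395's predicate -/

theorem vget_eq_vx (e : VE) (κ' : Sh) : vget e κ' = vx e κ' := by
  induction e with
  | nil => rfl
  | cons key x t ih => rw [vget_cons, vx_cons, ih]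

theorem Has6.hasV {T : Tab (ZMod 127)} {b : ℕ} {t : VT} (h : Has6 T b t) :
    HasV (fun κ' l => vec T b 5 κ' l) (T.m 5 b) b t := by
  obtain ⟨_, x, hx⟩ := h
  refine ⟨x, fun r hr => ⟨(hx r hr).1, fun κ' m => ?_⟩⟩
  rw [(hx r hr).2.2 κ' m]
  refine Finset.sum_congr rfl (fun l _ => ?_)
  rw [vget_eq_vx]
  rfl

end Crest.Agent.R187.SN.Fwd
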