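import Crest.Agent.R187.SN.Kern
import Crest.Agent.R187.SN.Gen

/-!
# Row 187, PLAN S, block E2: shapes as base-128 keys, kernel tests on keys

`key = ∑ λ_i * 128^(5-i)`, all digits `< 64` (so bit 6 of every digit is a free guard bit).
* `hsk κ λ` : interlacing test (`HS` up to the size condition);
* `allS κ n P` : `P` holds for all horizontal `n`-strips over `κ` (enumeration, complete);
* `pcL (gt λ) (cl κ' λ')` : the scalar `pc λ κ' λ' = psi λ κ' λ'` mod `p`.
-/

set_option autoImplicit false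

namespace Crest.Agent.R187.SN.KKey

open Crest.Agent.R187.SN Crest.Agent.R187.SN.Spec Crest.Agent.R187.SN.Kern
open Crest.Agent.R187.SN.Gen

/-! ### keys -/

/-- the shape of a key -/
def sh7 (k : ℕ) : Sh := fun i => slot 7 k (5 - (i : ℕ))

/-- the key of a shape -/
def ky (lam : Sh) : ℕ := ∑ i : Fin 6, lam i * 128 ^ (5 - (i : ℕ))

theorem slot7 (k r : ℕ) : slot 7 k r = k / 128 ^ r % 128 := slot_def 7 k r

theorem ky_eq (lam : Sh) : ky lam = lam 5 + 128 * (lam 4 + 128 * (lam 3 + 128 * (lam 2 + 128 *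
    (lam 1 + 128 * lam 0)))) := by
  unfold ky
  rw [Fin.sum_univ_six]
  norm_num
  ring

/-- valid keys: six digits `< 64` -/
def Val (k : ℕ) : Prop := k < 128 ^ 6 ∧ ∀ i, sh7 k i < 64

theorem slot_ky {lam : Sh} (h : ∀ i, lam i < 128) (i : Fin 6) :
    slot 7 (ky lam) (5 - (i : ℕ)) = lam i := by
  have h0 := h 0; have h1 := h 1; have h2 := h 2; have h3 := h 3; have h4 := h 4; have h5 := h 5
  have c0 : slot 7 (ky lam) 5 = lam 0 := by rw [slot7, ky_eq]; norm_num; omega
  have c1 : slot 7 (ky lam) 4 = lam 1 := by rw [slot7, ky_eq]; norm_num; omega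
  have c2 : slot 7 (ky lam) 3 = lam 2 := by rw [slot7, ky_eq]; norm_num; omega
  have c3 : slot 7 (ky lam) 2 = lam 3 := by rw [slot7, ky_eq]; norm_num; omega
  have c4 : slot 7 (ky lam) 1 = lam 4 := by rw [slot7, ky_eq]; norm_num; omega
  have c5 : slot 7 (ky lam) 0 = lam 5 := by rw [slot7, ky_eq]; norm_num; omega
  fin_cases i
  exacts [c0, c1, c2, c3, c4, c5]

theorem sh7_ky {lam : Sh} (h : ∀ i, lam i < 128) : sh7 (ky lam) = lam :=
  funext (fun i => slot_ky h i)

theorem ky_sh7 {k : ℕ} (h : k < 128 ^ 6) : ky (sh7 k) = k := by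
  rw [ky_eq]
  simp only [sh7, slot7]
  norm_num at h ⊢
  omega

theorem ky_lt {lam : Sh} (h : ∀ i, lam i < 128) : ky lam < 128 ^ 6 := by
  rw [ky_eq]
  have h0 := h 0; have h1 := h 1; have h2 := h 2; have h3 := h 3; have h4 := h 4; have h5 := h 5
  norm_num
  omega

theorem val_ky {lam : Sh} (h : ∀ i, lam i < 64) : Val (ky lam) :=
  ⟨ky_lt (fun i => (h i).trans (by norm_num)), fun i => by
    rw [sh7_ky (fun i => (h i).trans (by norm_num))]; exact h i⟩

theorem slot7_high {k : ℕ} (h : k < 128 ^ 6) {r : ℕ} (hr : 6 ≤ r) : slot 7 k r = 0 := by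
  apply slot_zero_of_lt
  calc k < 128 ^ 6 := h
    _ = 2 ^ (7 * 6) := by norm_num
    _ ≤ 2 ^ (7 * r) := Nat.pow_le_pow_right (by norm_num) (by omega)

theorem Val.slot_lt {k : ℕ} (h : Val k) (r : ℕ) : slot 7 k r < 64 := by
  rcases Nat.lt_or_ge r 6 with hr | hr
  · have h1 := h.2 ⟨5 - r, by omega⟩
    have h2 : 5 - (5 - r) = r := by omega
    simpa [sh7, h2] using h1
  · rw [slot7_high h.1 hr]; norm_num

theorem Val.slot_high {k : ℕ} (h : Val k) {r : ℕ} (hr : 6 ≤ r) : slot 7 k r = 0 :=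
  slot7_high h.1 hr

/-! ### digitwise comparison -/

/-- `y ≤ x` digitwise (`H` = guard bits of the compared digits) -/
def geb (H x y : ℕ) : Bool := Nat.beq (Nat.land (Nat.sub (Nat.add x H) y) H) H

theorem slot_guard (n r : ℕ) (hn : 0 < n) :
    slot 7 (Nat.mul 64 (ones 7 n)) r = if r < n then 64 else 0 := by
  have h : Nat.mul 64 (ones 7 n) = blk 7 n 1 n 64 := by
    show 64 * ones 7 n = 64 * (ones (7 * n) 1 * ones 7 n)
    have : ones (7 * n) 1 = 1 := by
      rw [ones_eq (by omega)]; simp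
    rw [this, one_mul]
  rw [h, slot_blk (by norm_num) hn le_rfl (by norm_num)]
  congr 1
  rw [Nat.lt_one_iff, Nat.div_eq_zero_iff]
  apply propext
  constructor
  · rintro ⟨h1 | h1, _⟩
    · omega
    · exact h1
  · intro h1
    exact ⟨Or.inr h1, Nat.mod_lt _ hn⟩

theorem ge_iff {n x y H : ℕ} (hn : 0 < n) (hH : H = Nat.mul 64 (ones 7 n))
    (hx : ∀ r, slot 7 x r < 64) (hy : ∀ r, slot 7 y r < 64) (hy0 : ∀ r, n ≤ r → slot 7 y r = 0) :
    geb H x y = true ↔ ∀ r < n, slot 7 y r ≤ slot 7 x r := by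
  have hs1 : ∀ r, slot 7 (Nat.add x H) r = slot 7 x r + if r < n then 64 else 0 := by
    intro r
    rw [slot_add (by norm_num), hH, slot_guard n r hn]
    intro j
    rw [hH, slot_guard n j hn]
    have := hx j
    split_ifs <;> omega
  have hs2 : ∀ r, slot 7 (Nat.sub (Nat.add x H) y) r
      = slot 7 x r + (if r < n then 64 else 0) - slot 7 y r := by
    intro r
    rw [slot_sub (by norm_num), hs1]
    intro j
    rw [hs1]
    have := hy j
    split_ifs with h
    · omega
    · rw [hy0 j (not_lt.1 h)]; omega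
  have hs3 : ∀ r, slot 7 (Nat.land (Nat.sub (Nat.add x H) y) H) r
      = if r < n then Nat.land (slot 7 x r + 64 - slot 7 y r) 64 else 0 := by
    intro r
    rw [slot_land, hs2, hH, slot_guard n r hn]
    split_ifs
    · rfl
    · exact Nat.and_zero _
  have hbit : ∀ u < 64, ∀ v < 64, (Nat.land (u + 64 - v) 64 = 64 ↔ v ≤ u) := by
    decide +kernel
  unfold geb
  constructor
  · intro h0 r hr
    have h := Nat.eq_of_beq_eq_true h0
    have h1 := hs3 r
    rw [h, hH, slot_guard n r hn, if_pos hr, if_pos hr] at h1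
    exact (hbit _ (hx r) _ (hy r)).1 h1.symm
  · intro h
    have h2 : Nat.land (Nat.sub (Nat.add x H) y) H = H := by
      refine ext_slot (W := 7) (by norm_num) (fun r => ?_)
      rw [hs3]
      conv_rhs => rw [hH, slot_guard n r hn]
      split_ifs with hr
      · exact (hbit _ (hx r) _ (hy r)).2 (h r hr)
      · rfl
    rw [h2]
    exact Nat.beq_refl H

/-- guard bits of six / five digits -/
def H6 : ℕ := 0x20408102040
def H5 : ℕ := 0x408102040

theorem H6_eq : H6 = Nat.mul 64 (ones 7 6) := by decide +kernel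
theorem H5_eq : H5 = Nat.mul 64 (ones 7 5) := by decide +kernel

/-- rows `1..5` of a key -/
def low (k : ℕ) : ℕ := Nat.mod k 34359738368

/-- rows `0..4` of a key (shifted down by one digit) -/
def up (k : ℕ) : ℕ := Nat.shiftRight k 7

theorem slot_low (k r : ℕ) : slot 7 (low k) r = if r < 5 then slot 7 k r else 0 :=
  slot_mod k 5 r

theorem slot_up (k r : ℕ) : slot 7 (up k) r = slot 7 k (1 + r) := slot_shr k 1 r

theorem ge6_iff {x y : ℕ} (hx : Val x) (hy : Val y) :
    geb H6 x y = true ↔ ∀ i, sh7 y i ≤ sh7 x i := by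
  rw [ge_iff (by norm_num) H6_eq hx.slot_lt hy.slot_lt (fun r hr => hy.slot_high hr)]
  constructor
  · intro h i
    exact h (5 - (i : ℕ)) (by omega)
  · intro h r hr
    have h1 := h ⟨5 - r, by omega⟩
    have h2 : 5 - (5 - r) = r := by omega
    simpa [sh7, h2] using h1

/-- comparison of the rows `1..5` -/
theorem ge5_low_iff {x y : ℕ} (hx : Val x) (hy : Val y) :
    geb H5 (low x) (low y) = true ↔ ∀ i : Fin 6, i ≠ 0 → sh7 y i ≤ sh7 x i := by
  rw [ge_iff (by norm_num) H5_eq]
  · constructor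
    · intro h i hi
      have hi' : (i : ℕ) ≠ 0 := fun h0 => hi (Fin.ext h0)
      have h1 := h (5 - (i : ℕ)) (by omega)
      rw [slot_low, slot_low, if_pos (by omega), if_pos (by omega)] at h1
      exact h1
    · intro h r hr
      have h1 := h ⟨5 - r, by omega⟩ (by
        intro h0
        have := congrArg Fin.val h0
        simp at this
        omega)
      have h2 : 5 - (5 - r) = r := by omega
      rw [slot_low, slot_low, if_pos hr, if_pos hr]
      simpa [sh7, h2] using h1
  · intro r; rw [slot_low]; split_ifs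
    · exact hx.slot_lt r
    · norm_num
  · intro r; rw [slot_low]; split_ifs
    · exact hy.slot_lt r
    · norm_num
  · intro r hr; rw [slot_low, if_neg (by omega)]

/-- shifted comparison: `y_{i+1} ≤ x_i` -/
theorem ge5_up_iff {x y : ℕ} (hx : Val x) (hy : Val y) :
    geb H5 (up x) (low y) = true ↔ ∀ i : Fin 5, sh7 y i.succ ≤ sh7 x i.castSucc := by
  rw [ge_iff (by norm_num) H5_eq]
  · constructor
    · intro h i
      have h1 := h (4 - (i : ℕ)) (by omega)
      rw [slot_low, slot_up, if_pos (by omega)] at h1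
      have h2 : 5 - ((i.succ : Fin 6) : ℕ) = 4 - (i : ℕ) := by
        rw [Fin.val_succ]; omega
      have h3 : 5 - ((i.castSucc : Fin 6) : ℕ) = 1 + (4 - (i : ℕ)) := by
        rw [Fin.val_castSucc]; omega
      show slot 7 y _ ≤ slot 7 x _
      rw [h2, h3]; exact h1
    · intro h r hr
      have h1 := h ⟨4 - r, by omega⟩
      have h2 : 5 - ((Fin.succ ⟨4 - r, by omega⟩ : Fin 6) : ℕ) = r := by
        rw [Fin.val_succ]; simp; omega
      have h3 : 5 - ((Fin.castSucc ⟨4 - r, by omega⟩ : Fin 6) : ℕ) = 1 + r := by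
        rw [Fin.val_castSucc]; simp; omega
      have h4 : slot 7 y (5 - ((Fin.succ ⟨4 - r, by omega⟩ : Fin 6) : ℕ))
        ≤ slot 7 x (5 - ((Fin.castSucc ⟨4 - r, by omega⟩ : Fin 6) : ℕ)) := h1
      rw [h2, h3] at h4
      rw [slot_low, slot_up, if_pos hr]
      exact h4
  · intro r; rw [slot_up]; exact hx.slot_lt _
  · intro r; rw [slot_low]; split_ifs
    · exact hy.slot_lt r
    · norm_num
  · intro r hr; rw [slot_low, if_neg (by omega)]

/-- interlacing test: `λ / κ` is a horizontal strip (of unspecified size) -/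
def hsk (k l : ℕ) : Bool := and (geb H6 l k) (geb H5 (up k) (low l))

theorem HS_iff {κ lam : Sh} {n : ℕ} : HS κ lam n ↔
    (∀ i, κ i ≤ lam i) ∧ (∀ i : Fin 5, lam i.succ ≤ κ i.castSucc) ∧ ∑ i, lam i = ∑ i, κ i + n := by
  constructor
  · rintro ⟨h1, h2, h3⟩
    exact ⟨h1, fun i => h2 _ _ (Fin.castSucc_lt_succ), h3⟩
  · rintro ⟨h1, h2, h3⟩
    refine ⟨h1, fun i j hij => ?_, h3⟩
    have a0 := h2 0; have a1 := h2 1; have a2 := h2 2; have a3 := h2 3; have a4 := h2 4
    have b0 := h1 0; have b1 := h1 1; have b2 := h1 2; have b3 := h1 3; have b4 := h1 4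
    have b5 := h1 5
    simp only [Fin.isValue, Fin.succ_zero_eq_one, Fin.castSucc_zero, Fin.succ_one_eq_two,
      Fin.castSucc_one] at a0 a1
    have a2' : lam 3 ≤ κ 2 := a2
    have a3' : lam 4 ≤ κ 3 := a3
    have a4' : lam 5 ≤ κ 4 := a4
    fin_cases i <;> fin_cases j <;> simp at hij ⊢ <;> omega

theorem hsk_iff {k l n : ℕ} (hk : Val k) (hl : Val l)
    (hs : ∑ i, sh7 l i = ∑ i, sh7 k i + n) : hsk k l = true ↔ HS (sh7 k) (sh7 l) n := by
  unfold hsk
  have h1 := ge6_iff hl hk
  have h2 := ge5_up_iff hk hl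
  rw [Bool.and_eq_true, h1, h2, HS_iff]
  exact ⟨fun h => ⟨h.1, h.2, hs⟩, fun h => ⟨h.1, h.2.1⟩⟩

/-! ### enumeration of the horizontal strips over a shape -/

/-- `P g` for all `g < n` -/
def allN (P : ℕ → Bool) (n : ℕ) : Bool := Nat.rec true (fun g ih => and (P g) ih) n

theorem allN_iff (P : ℕ → Bool) (n : ℕ) : allN P n = true ↔ ∀ g < n, P g = true := by
  induction n with
  | zero => simp [allN]
  | succ n ih =>
    have h : allN P (n + 1) = and (P n) (allN P n) := rfl
    rw [h, Bool.and_eq_true, ih]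
    constructor
    · rintro ⟨h1, h2⟩ g hg
      rcases Nat.lt_succ_iff_lt_or_eq.1 hg with h3 | h3
      · exact h2 g h3
      · rw [h3]; exact h1
    · intro h1
      exact ⟨h1 n (Nat.lt_succ_self n), fun g hg => h1 g (hg.trans (Nat.lt_succ_self n))⟩

/-- cap of digit `r ≤ 4` -/
def cap (k r : ℕ) : ℕ := Nat.sub (slot 7 k (Nat.succ r)) (slot 7 k r)

/-- all choices of the digit increments `g_{t-1}, …, g_0` (caps) and the rest into digit `5` -/
def allT (k : ℕ) (P : ℕ → Bool) (t : ℕ) : ℕ → ℕ → Bool :=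
  Nat.rec (fun n acc => P (Nat.add acc (Nat.mul n 34359738368)))
    (fun t ih n acc => allN (fun g =>
      cond (Nat.ble g n) (ih (Nat.sub n g) (Nat.add acc (Nat.mul g (Nat.pow 128 t)))) true)
      (Nat.succ (cap k t))) t

theorem allT_spec (k : ℕ) (P : ℕ → Bool) : ∀ (t n acc : ℕ), allT k P t n acc = true →
    ∀ g : ℕ → ℕ, (∀ r < t, g r ≤ cap k r) → ∑ r ∈ Finset.range t, g r ≤ n →
    P (acc + ∑ r ∈ Finset.range t, g r * 128 ^ r + (n - ∑ r ∈ Finset.range t, g r)
      * 34359738368) = true := by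
  intro t
  induction t with
  | zero =>
    intro n acc h g _ _
    have h' : P (acc + n * 34359738368) = true := h
    simpa using h'
  | succ t ih =>
    intro n acc h g hg hn
    have h0 : allT k P (t + 1) n acc = allN (fun g =>
      cond (Nat.ble g n) (allT k P t (Nat.sub n g) (Nat.add acc (Nat.mul g (Nat.pow 128 t)))) true)
      (Nat.succ (cap k t)) := rfl
    rw [h0, allN_iff] at h
    rw [Finset.sum_range_succ] at hn
    have h1 := h (g t) (Nat.lt_succ_of_le (hg t (Nat.lt_succ_self t)))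
    have h2 : Nat.ble (g t) n = true := by rw [Nat.ble_eq]; omega
    rw [h2] at h1
    have h3 := ih (n - g t) (acc + g t * 128 ^ t) h1 g (fun r hr => hg r (hr.trans
      (Nat.lt_succ_self t))) (by omega)
    rw [Finset.sum_range_succ, Finset.sum_range_succ]
    have e1 : n - g t - ∑ r ∈ Finset.range t, g r = n - (∑ r ∈ Finset.range t, g r + g t) := by
      omega
    rw [e1] at h3
    have e2 : acc + g t * 128 ^ t + ∑ r ∈ Finset.range t, g r * 128 ^ r
        = acc + (∑ r ∈ Finset.range t, g r * 128 ^ r + g t * 128 ^ t) := by ring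
    rw [e2] at h3
    exact h3

/-- `P` holds for the keys of all horizontal `n`-strips over `k` -/
def allS (k n : ℕ) (P : ℕ → Bool) : Bool := allT k P 5 n k

theorem allS_spec {k n : ℕ} {P : ℕ → Bool} (hk : Val k) (h : allS k n P = true) {lam : Sh}
    (hl : HS (sh7 k) lam n) : P (ky lam) = true := by
  have h1 := HS_iff.1 hl
  obtain ⟨a1, a2, a3⟩ := h1
  have key := allT_spec k P 5 n k h (fun r => if hr : r ≤ 4 then
      lam ⟨5 - r, by omega⟩ - sh7 k ⟨5 - r, by omega⟩ else 0) (fun r hr => by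
    have hr4 : r ≤ 4 := by omega
    simp only [dif_pos hr4]
    have b := a2 ⟨4 - r, by omega⟩
    have c1 : (Fin.succ ⟨4 - r, by omega⟩ : Fin 6) = ⟨5 - r, by omega⟩ := by
      apply Fin.ext; simp; omega
    have c2 : sh7 k (Fin.castSucc ⟨4 - r, by omega⟩) = slot 7 k (r + 1) := by
      show slot 7 k (5 - (4 - r)) = _
      congr 1; omega
    rw [c1, c2] at b
    have c3 : sh7 k ⟨5 - r, by omega⟩ = slot 7 k r := by
      show slot 7 k (5 - (5 - r)) = _
      congr 1; omega
    rw [c3]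
    show _ ≤ slot 7 k (r + 1) - slot 7 k r
    omega)
  rw [Fin.sum_univ_six, Fin.sum_univ_six] at a3
  have b0 := a1 0; have b1 := a1 1; have b2 := a1 2; have b3 := a1 3; have b4 := a1 4
  have b5 := a1 5
  simp only [Finset.sum_range_succ, Finset.sum_range_zero] at key
  norm_num at key
  have e5 : (⟨5, by omega⟩ : Fin 6) = 5 := rfl
  have e4 : (⟨4, by omega⟩ : Fin 6) = 4 := rfl
  have e3 : (⟨3, by omega⟩ : Fin 6) = 3 := rfl
  have e2 : (⟨2, by omega⟩ : Fin 6) = 2 := rfl
  have e1 : (⟨1, by omega⟩ : Fin 6) = 1 := rfl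
  simp only [e5, e4, e3, e2, e1] at key
  have hk6 := ky_sh7 hk.1
  rw [ky_eq] at hk6
  have hfin := key (by omega)
  have e : k + (lam 5 - sh7 k 5 + (lam 4 - sh7 k 4) * 128 + (lam 3 - sh7 k 3) * 16384
      + (lam 2 - sh7 k 2) * 2097152 + (lam 1 - sh7 k 1) * 268435456)
      + (n - (lam 5 - sh7 k 5 + (lam 4 - sh7 k 4) + (lam 3 - sh7 k 3) + (lam 2 - sh7 k 2)
        + (lam 1 - sh7 k 1))) * 34359738368 = ky lam := by
    rw [ky_eq]
    omega
  rw [← e]
  exact hfin

end Crest.Agent.R187.SN.KKey
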