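import Crest.Agent.R187.SN.Piv
import Crest.Agent.R187.SN.KKey
import Crest.Agent.R187.SN.KD.Base

/-!
# Row 187, PLAN S, block E4: kernel check of the pivot tables
-/

set_option autoImplicit false
set_option exponentiation.threshold 1000

namespace Crest.Agent.R187.SN.PivK

open Crest.Agent.R187.SN Crest.Agent.R187.SN.Spec Crest.Agent.R187.SN.Kern
open Crest.Agent.R187.SN.KKey Crest.Agent.R187.SN.KD Crest.Agent.R187.SN.Img
open Crest.Agent.R187.SN.Piv

/-- conjunction that does not evaluate the second argument if the first is `false` -/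
def andb (a b : Bool) : Bool := Bool.rec (motive := fun _ => Bool) false b a

lemma andb_eq {a b : Bool} : andb a b = true ↔ a = true ∧ b = true := by
  cases a <;> cases b <;> simp [andb]

/-- apply the test `f` to the entry of `L` with key `k` (`false` if there is none) -/
noncomputable def findE (k : ℕ) (f : IE → Bool) (L : List IE) : Bool :=
  List.rec (motive := fun _ => Bool) false
    (fun e _ ih => Bool.rec (motive := fun _ => Bool) ih (f e) (Nat.beq (IE.key e) k)) L

lemma findE_sound {k : ℕ} {f : IE → Bool} {L : List IE} (h : findE k f L = true) :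
    ∃ e ∈ L, e.key = k ∧ f e = true := by
  induction L with
  | nil => exact absurd h (by simp [findE])
  | cons e L ih =>
    have h1 : findE k f (e :: L) = Bool.rec (motive := fun _ => Bool) (findE k f L) (f e)
      (Nat.beq e.key k) := rfl
    rw [h1] at h
    cases h2 : Nat.beq e.key k with
    | false =>
      rw [h2] at h
      obtain ⟨e', he', h3⟩ := ih h
      exact ⟨e', List.mem_cons_of_mem _ he', h3⟩
    | true =>
      rw [h2] at h
      exact ⟨e, List.mem_cons_self, Nat.eq_of_beq_eq_true h2, h⟩

/-- test of one pivot: row `e.off + j` of `v` is the unit vector number `c` -/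
noncomputable def pivOne (v lam j c : ℕ) (e : IE) : Bool :=
  andb (Nat.blt j (IE.m e)) (andb (hsk (IE.key e) lam)
    (Nat.beq (Nat.mod (Nat.shiftRight v (Nat.mul 792 (Nat.add (IE.off e) j))) (Nat.pow 2 792))
      (Nat.shiftLeft 1 (Nat.mul 24 c))))

/-- test of a pivot list, from number `c` on; there must be exactly `m` pivots -/
noncomputable def pivList (v lam m : ℕ) (LA : List IE) (P : PE) : ℕ → Bool :=
  PE.rec (motive := fun _ => ℕ → Bool) (fun c => Nat.beq c m)
    (fun key j _ ih c => andb (findE key (pivOne v lam j c) LA) (ih (Nat.succ c))) P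

/-- the `n`-th pivot -/
noncomputable def getP (P : PE) : ℕ → ℕ × ℕ :=
  PE.rec (motive := fun _ => ℕ → ℕ × ℕ) (fun _ => (0, 0))
    (fun key j _ ih n => Nat.rec (motive := fun _ => ℕ × ℕ) (key, j) (fun k _ => ih k) n) P

lemma pivList_sound {v lam m : ℕ} {LA : List IE} {P : PE} : ∀ c, pivList v lam m LA P c = true →
    ∀ n, c + n < m → ∃ e ∈ LA, e.key = (getP P n).1 ∧ pivOne v lam (getP P n).2 (c + n) e = true := by
  induction P with
  | nil =>
    intro c h n hn
    have h1 : c = m := Nat.eq_of_beq_eq_true h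
    omega
  | cons key j P ih =>
    intro c h n hn
    have h1 : pivList v lam m LA (.cons key j P) c
      = andb (findE key (pivOne v lam j c) LA) (pivList v lam m LA P (c + 1)) := rfl
    rw [h1, andb_eq] at h
    rcases n with _ | n
    · exact findE_sound h.1
    · have h2 := ih (c + 1) h.2 n (by omega)
      have h3 : c + 1 + n = c + (n + 1) := by ring
      rw [h3] at h2
      exact h2

/-- search in a tree of pivot lists -/
noncomputable def findP (k : ℕ) (t : PTr) : PE :=
  PTr.rec (motive := fun _ => PE) .nil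
    (fun key val _ _ il ir => Bool.rec (motive := fun _ => PE)
      (Bool.rec (motive := fun _ => PE) ir il (Nat.blt k key)) val (Nat.beq k key)) t

/-- evaluate the number first (kernel: call by value) -/
noncomputable def force (n : ℕ) (f : ℕ → Bool) : Bool :=
  Nat.rec (motive := fun _ => Bool) (f 0) (fun m _ => f (Nat.succ m)) n

lemma force_eq (n : ℕ) (f : ℕ → Bool) : force n f = f n := by cases n <;> rfl

/-- the check for all shapes of a list -/
noncomputable def pivAll (vt : ℕ → ℕ) (LA : List IE) (t : PTr) (L : List IE) : Bool :=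
  List.rec (motive := fun _ => Bool) true
    (fun e _ ih => andb (force (vt (IE.key e)) (fun v =>
      pivList v (IE.key e) (IE.m e) LA (findP (IE.key e) t) 0)) ih) L

lemma pivAll_mem {vt : ℕ → ℕ} {LA : List IE} {t : PTr} {L : List IE}
    (h : pivAll vt LA t L = true) : ∀ e ∈ L,
      pivList (vt e.key) e.key e.m LA (findP e.key t) 0 = true := by
  induction L with
  | nil => intro e he; simp at he
  | cons e L ih =>
    have h1 : pivAll vt LA t (e :: L)
      = andb (force (vt e.key) (fun v => pivList v e.key e.m LA (findP e.key t) 0))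
        (pivAll vt LA t L) := rfl
    rw [h1, andb_eq, force_eq] at h
    intro e' he'
    rcases List.mem_cons.mp he' with rfl | h2
    · exact h.1
    · exact ih h.2 e' h2

/-- the pivot function of a family of trees -/
noncomputable def pivF (t : ℕ → PTr) (a : ℕ) (lam : Sh) (c : ℕ) : Sh × ℕ :=
  (sh7 (getP (findP (ky lam) (t a)) c).1, (getP (findP (ky lam) (t a)) c).2)

theorem isPiv_of_chk [Fact (Nat.Prime 127)] {T : Tab (ZMod 127)} {a b : ℕ} {t : ℕ → PTr} {LA LD : List IE} {vt : ℕ → ℕ}
    (hA : ∀ e ∈ LA, T.m a b (sh7 e.key) = e.m)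
    (hD : ∀ lam, 0 < T.m (a + 1) b lam → ∃ e ∈ LD, e.key = ky lam ∧ sh7 e.key = lam ∧
      e.m = T.m (a + 1) b lam ∧ e.m ≤ 33)
    (hH : ∀ e ∈ LA, ∀ e' ∈ LD, hsk e.key e'.key = true → HS (sh7 e.key) (sh7 e'.key) b)
    (hV : ∀ e ∈ LA, ∀ e' ∈ LD, HS (sh7 e.key) (sh7 e'.key) b → ∀ j < e'.m, ∀ q < e.m,
      T.V (a + 1) b (sh7 e'.key) (sh7 e.key) j q
        = (slot 24 (vt e'.key) (33 * (e.off + q) + j) : ZMod 127))
    (h : pivAll vt LA (t (a + 1)) LD = true) : IsPiv T (pivF t) a b := by
  intro lam c hc
  obtain ⟨e', he', hk, hsh, hm, hle⟩ := hD lam (by omega)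
  have h1 := pivList_sound 0 (pivAll_mem h e' he') c (by omega)
  obtain ⟨e, he, hek, h2⟩ := h1
  unfold pivOne at h2
  rw [andb_eq, andb_eq] at h2
  obtain ⟨h3, h4, h5⟩ := h2
  have h3' : (getP (findP e'.key (t (a + 1))) c).2 < e.m := by
    have : Nat.ble (Nat.succ (getP (findP e'.key (t (a + 1))) c).2) e.m = true := h3
    exact Nat.le_of_ble_eq_true this
  have h5' := Nat.eq_of_beq_eq_true h5
  have hp1 : (pivF t (a + 1) lam c).1 = sh7 e.key := by
    unfold pivF
    rw [← hk, hek]
  have hp2 : (pivF t (a + 1) lam c).2 = (getP (findP e'.key (t (a + 1))) c).2 := by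
    unfold pivF
    rw [← hk]
  have hHS := hH e he e' he' h4
  refine ⟨?_, ?_⟩
  · rw [hp1, hp2, hA e he]; exact h3'
  · intro j hj
    rw [hp1, hp2, ← hsh, hV e he e' he' hHS j (by omega) _ h3']
    set q := (getP (findP e'.key (t (a + 1))) c).2
    have hW : (0 : ℕ) < 24 := by norm_num
    -- the row
    have e1 : Nat.mul 792 (Nat.add e.off q) = Nat.mul 24 (33 * (e.off + q)) := by
      show 792 * (e.off + q) = 24 * (33 * (e.off + q)); ring
    have e2 : Nat.pow 2 792 = Nat.pow 2 (Nat.mul 24 33) := rfl
    rw [e1, e2] at h5'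
    have h6 := slot_mod (W := 24) (Nat.shiftRight (vt e'.key) (Nat.mul 24 (33 * (e.off + q)))) 33 j
    rw [if_pos (by omega), slot_shr, h5', slot_shl hW] at h6
    rw [← h6]
    have h1s : ∀ n, slot 24 1 n = if n = 0 then 1 else 0 := by
      intro n
      split_ifs with h0
      · subst h0; rw [slot_def, pow_zero, Nat.div_one]; norm_num
      · apply slot_zero_of_lt
        have : 24 * 1 ≤ 24 * n := Nat.mul_le_mul_left _ (by omega)
        calc 1 < 2 ^ (24 * 1) := by norm_num
          _ ≤ 2 ^ (24 * n) := Nat.pow_le_pow_right (by norm_num) this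
    rw [zero_add, h1s]
    by_cases hjc : j = c
    · subst hjc; simp
    · rw [if_neg hjc]
      by_cases hcj : c ≤ j
      · rw [if_pos hcj, if_neg (by omega), Nat.cast_zero]
      · rw [if_neg hcj, Nat.cast_zero]

end Crest.Agent.R187.SN.PivK
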