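import Crest.Agent.R187.SN.FwdI
import Crest.Agent.R187.SN.TDef
import Crest.Agent.R187.SN.TD.KsChk
import Crest.Agent.R187.SN.TD.X4

/-!
# Row 187, PLAN S, block E3: the concrete tables
-/

set_option autoImplicit false

namespace Crest.Agent.R187.SN.Inst

open Crest.Agent.R187.SN Crest.Agent.R187.SN.Spec Crest.Agent.R187.SN.Kern
open Crest.Agent.R187.SN.KKey Crest.Agent.R187.SN.KD Crest.Agent.R187.SN.KE
open Crest.Agent.R187.SN.KRel Crest.Agent.R187.SN.KDec Crest.Agent.R187.SN.Img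
open Crest.Agent.R187.SN.Top Crest.Agent.R187.SN.Fwd

/-! ### index lists of the levels `(5, b)` -/

theorem ks1_ok : KsOk T 1 ks1 := ksOk_of_chk ixOK_5_1 (fun _ => rfl) ks1_chk
theorem ks2_ok : KsOk T 2 ks2 := ksOk_of_chk ixOK_5_2 (fun _ => rfl) ks2_chk
theorem ks3_ok : KsOk T 3 ks3 := ksOk_of_chk ixOK_5_3 (fun _ => rfl) ks3_chk
theorem ks4_ok : KsOk T 4 ks4 := ksOk_of_chk ixOK_5_4 (fun _ => rfl) ks4_chk
theorem ks5_ok : KsOk T 5 ks5 := ksOk_of_chk ixOK_5_5 (fun _ => rfl) ks5_chk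
theorem ks6_ok : KsOk T 6 ks6 := ksOk_of_chk ixOK_5_6 (fun _ => rfl) ks6_chk

/-! ### base case -/

theorem kyo_zero : kyo (0 : Sh) = 0 := by
  rw [kyo_of (fun i => by norm_num), ky_eq]; rfl

theorem m_b0 (a : ℕ) (ha : a ≤ 5) (lam : Sh) : T.m a 0 lam = if lam = 0 then 1 else 0 := by
  have h0 : ixF a 0 = [IE.mk 0 1 0] := by interval_cases a <;> rfl
  rw [T_m, h0, mOf, look_cons, look_nil]
  by_cases h : lam = 0
  · rw [if_pos h, h, kyo_zero]; rfl
  · rw [if_neg h]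
    have h2 : ¬ (0 = kyo lam) := by
      intro h3
      apply h
      have h4 : sh7 (kyo lam) = lam := sh7_kyo (by rw [← h3]; norm_num)
      rw [← h4, ← h3]
      funext i
      exact slot_zero 7 _
    rw [if_neg h2]

theorem V_b0 (a : ℕ) (ha : a < 5) : T.V (a + 1) 0 0 0 0 0 = 1 := by
  have h1 : slot 24 (vtF (a + 1) 0 0) (33 * ((look (ixF a 0) 0).off + 0) + 0) = 1 := by
    interval_cases a <;> decide +kernel
  rw [T_V, if_pos (by decide), kyo_zero, h1, Nat.cast_one]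

theorem V0_0_ok : Has6 T 0 V0_0 := has6_zero m_b0 V_b0

end Crest.Agent.R187.SN.Inst
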