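import Crest.Agent.R187.SN.Jucys
import Crest.Agent.R187.SN.Link

/-!
# Row 187, PLAN S, block (C1): the group-algebra half of the recursion
-/

set_option autoImplicit false

namespace Crest.Agent.R187.SN.Ins

open Equiv Crest.Agent.R187.SN

variable {r : ℕ} {K : Type*} [Field K]

/-! ### generators -/

/-- adjacent transposition of `Fin N` -/
def sN (N k : ℕ) : Perm (Fin N) :=
  if h : k + 1 < N then swap ⟨k, by omega⟩ ⟨k + 1, h⟩ else 1

lemma sN_succ (n k : ℕ) : sN (n + 1) k = Cox.s n k := by
  unfold sN Cox.s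
  by_cases h : k < n
  · rw [dif_pos h, dif_pos (by omega)]
  · rw [dif_neg h, dif_neg (by omega)]

lemma sN_of_le {N k : ℕ} (h : N ≤ k + 1) : sN N k = 1 := by
  unfold sN
  rw [dif_neg (by omega)]

lemma closure_sN (N : ℕ) : Submonoid.closure (Set.range (sN N)) = ⊤ := by
  cases N with
  | zero =>
    rw [eq_top_iff]
    intro g _
    have : g = 1 := Subsingleton.elim _ _
    rw [this]
    exact Submonoid.one_mem _
  | succ n =>
    rw [eq_top_iff, ← Perm.mclosure_swap_castSucc_succ n]
    apply Submonoid.closure_mono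
    rintro _ ⟨i, rfl⟩
    exact ⟨i, by rw [sN_succ, Cox.s_eq]⟩

/-- induction on adjacent transpositions -/
lemma gen_induction {N : ℕ} {P : Perm (Fin N) → Prop} (h1 : P 1)
    (hs : ∀ k g, k + 1 < N → P g → P (sN N k * g)) (g : Perm (Fin N)) : P g := by
  have hg : g ∈ Submonoid.closure (Set.range (sN N)) := by
    rw [closure_sN]
    trivial
  induction hg using Submonoid.closure_induction_left with
  | one => exact h1
  | mul_left x hx y _ ih =>
    obtain ⟨k, rfl⟩ := hx
    by_cases hk : k + 1 < N
    · exact hs k y hk ih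
    · rw [sN_of_le (by omega), one_mul]
      exact ih

/-! ### the representation for all `N` -/

/-- `rho` for all `N` -/
noncomputable def rh {B : ℕ} (hK : HK K B) {κ : Fin r → ℕ} :
    {N : ℕ} → (hB : Bd B κ N) → Perm (Fin N) →* Module.End K (V K κ N)
  | 0, _ => 1
  | _ + 1, hB => rho hK hB

lemma rh_succ {B : ℕ} (hK : HK K B) {κ : Fin r → ℕ} {n : ℕ} (hB : Bd B κ (n + 1)) :
    rh hK hB = rho hK hB := rfl

lemma rh_s {B : ℕ} (hK : HK K B) {κ : Fin r → ℕ} {N : ℕ} (hB : Bd B κ N) (k : ℕ)
    (hk : k + 1 < N) : rh hK hB (sN N k) = TV κ N k := by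
  cases N with
  | zero => omega
  | succ n => rw [sN_succ, rh_succ, rho_s hK hB k (by omega)]

/-- extension to the group algebra -/
noncomputable def rhA {B : ℕ} (hK : HK K B) {κ : Fin r → ℕ} {N : ℕ} (hB : Bd B κ N) :
    MonoidAlgebra K (Perm (Fin N)) →ₐ[K] Module.End K (V K κ N) :=
  MonoidAlgebra.lift K _ _ (rh hK hB)

lemma rhA_succ {B : ℕ} (hK : HK K B) {κ : Fin r → ℕ} {n : ℕ} (hB : Bd B κ (n + 1)) :
    rhA hK hB = rhoA hK hB := rfl

lemma rhA_single {B : ℕ} (hK : HK K B) {κ : Fin r → ℕ} {N : ℕ} (hB : Bd B κ N)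
    (g : Perm (Fin N)) (c : K) : rhA hK hB (MonoidAlgebra.single g c) = c • rh hK hB g := by
  unfold rhA
  rw [MonoidAlgebra.lift_single]

/-! ### embeddings -/

/-- the letters `q, …, q+m-1` -/
def embF (q : ℕ) {m N : ℕ} (h : q + m ≤ N) : Fin m ↪ Fin N :=
  ⟨fun i => ⟨q + i, by omega⟩, by
    intro i j hij
    simp only [Fin.mk.injEq] at hij
    ext
    omega⟩

@[simp] lemma embF_val (q : ℕ) {m N : ℕ} (h : q + m ≤ N) (i : Fin m) :
    (embF q h i : ℕ) = q + i := rfl

/-- `Perm (Fin m)` acting on the letters `q, …, q+m-1` -/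
noncomputable def emb (q : ℕ) {m N : ℕ} (h : q + m ≤ N) : Perm (Fin m) →* Perm (Fin N) :=
  Perm.viaEmbeddingHom (embF q h)

lemma emb_in (q : ℕ) {m N : ℕ} (h : q + m ≤ N) (g : Perm (Fin m)) (i : Fin m) :
    emb q h g (embF q h i) = embF q h (g i) := by
  unfold emb
  rw [Perm.viaEmbeddingHom_apply, Perm.viaEmbedding_apply]

lemma emb_out (q : ℕ) {m N : ℕ} (h : q + m ≤ N) (g : Perm (Fin m)) (k : Fin N)
    (hk : (k : ℕ) < q ∨ q + m ≤ k) : emb q h g k = k := by
  unfold emb
  rw [Perm.viaEmbeddingHom_apply, Perm.viaEmbedding_apply_of_notMem]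
  rintro ⟨i, hi⟩
  have := congrArg Fin.val hi
  rw [embF_val] at this
  omega

/-- every letter is inside or outside -/
lemma in_or_out (q : ℕ) {m N : ℕ} (h : q + m ≤ N) (k : Fin N) :
    (∃ i : Fin m, k = embF q h i) ∨ ((k : ℕ) < q ∨ q + m ≤ k) := by
  by_cases hk : (k : ℕ) < q ∨ q + m ≤ k
  · exact Or.inr hk
  · left
    push Not at hk
    exact ⟨⟨k - q, by omega⟩, by ext; simp; omega⟩

lemma emb_swap (q : ℕ) {m N : ℕ} (h : q + m ≤ N) (i j : Fin m) :
    emb q h (swap i j) = swap (embF q h i) (embF q h j) := by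
  ext k
  rcases in_or_out q h k with ⟨l, rfl⟩ | hk
  · rw [emb_in, swap_apply_def, swap_apply_def]
    simp only [EmbeddingLike.apply_eq_iff_eq]
    split_ifs <;> rfl
  · rw [emb_out q h _ k hk, swap_apply_of_ne_of_ne]
    · intro h'
      have := congrArg Fin.val h'
      rw [embF_val] at this
      omega
    · intro h'
      have := congrArg Fin.val h'
      rw [embF_val] at this
      omega

lemma emb_sN (q : ℕ) {m N : ℕ} (h : q + m ≤ N) (k : ℕ) (hk : k + 1 < m) :
    emb q h (sN m k) = sN N (q + k) := by
  unfold sN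
  rw [dif_pos hk, dif_pos (by omega), emb_swap]
  rfl

lemma emb_emb (q : ℕ) {m N : ℕ} (h : q + m ≤ N) (q' : ℕ) {m' : ℕ} (h' : q' + m' ≤ m)
    (g : Perm (Fin m')) : emb q h (emb q' h' g) = emb (q + q') (by omega) g := by
  ext k
  rcases in_or_out (q + q') (show q + q' + m' ≤ N by omega) k with ⟨l, rfl⟩ | hk
  · have e1 : ∀ l : Fin m', embF (q + q') (show q + q' + m' ≤ N by omega) l
        = embF q h (embF q' h' l) := by
      intro l; ext; simp; omega
    rw [emb_in, e1, emb_in, emb_in, e1]
  · rw [emb_out (q + q') _ g k hk]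
    rcases in_or_out q h k with ⟨l, rfl⟩ | hk2
    · rw [embF_val] at hk
      rw [emb_in, emb_out q' h' g l (by omega)]
    · rw [emb_out q h _ k hk2]

/-- permutations of disjoint sets of letters commute -/
lemma emb_comm (q : ℕ) {m N : ℕ} (h : q + m ≤ N) (q' : ℕ) {m' : ℕ} (h' : q' + m' ≤ N)
    (hd : q + m ≤ q') (g : Perm (Fin m)) (g' : Perm (Fin m')) :
    emb q h g * emb q' h' g' = emb q' h' g' * emb q h g := by
  ext k
  rw [Perm.mul_apply, Perm.mul_apply]
  rcases in_or_out q h k with ⟨l, rfl⟩ | hk
  · rw [emb_in, emb_out q' h' g' _ (by rw [embF_val]; omega), emb_in,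
      emb_out q' h' g' _ (by rw [embF_val]; omega)]
  · rw [emb_out q h g k hk]
    rcases in_or_out q' h' k with ⟨l, rfl⟩ | hk2
    · rw [emb_in, emb_out q h g _ (by rw [embF_val]; omega)]
    · rw [emb_out q' h' g' k hk2, emb_out q h g k hk]

/-! ### the append rules -/

/-- the middle slice -/
def mid {κ : Fin r → ℕ} {N : ℕ} (m : ℕ) (x y : List (Fin r))
    (h : x.length + m + y.length = N) : V K κ N →ₗ[K] V K (sh κ x) m where
  toFun f := ⟨fun u => (f : List (Fin r) → K) (x ++ (u ++ y)), by
    intro u hu
    apply f.2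
    rintro ⟨h1, h2⟩
    apply hu
    rw [lat_append, lat_append] at h1
    refine ⟨h1.2.1, ?_⟩
    simp only [List.length_append] at h2
    omega⟩
  map_add' f g := rfl
  map_smul' c f := rfl

@[simp] lemma mid_coe {κ : Fin r → ℕ} {N : ℕ} (m : ℕ) (x y : List (Fin r))
    (h : x.length + m + y.length = N) (f : V K κ N) (u : List (Fin r)) :
    ((mid m x y h f : V K (sh κ x) m) : List (Fin r) → K) u
      = (f : List (Fin r) → K) (x ++ (u ++ y)) := rfl

lemma mid_TV {κ : Fin r → ℕ} {N : ℕ} (m : ℕ) (x y : List (Fin r))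
    (h : x.length + m + y.length = N) (k : ℕ) (hk : k + 1 < m) (f : V K κ N) :
    mid m x y h (TV κ N (x.length + k) f) = TV (sh κ x) m k (mid m x y h f) := by
  apply Subtype.ext
  funext u
  by_cases hu : u.length = m
  · rw [mid_coe, TV_coe, T_append_right, T_append_left _ _ _ _ _ (by omega)]
    rfl
  · rw [(mid m x y h (TV κ N (x.length + k) f)).2 u (fun h' => hu h'.2),
      (TV (sh κ x) m k (mid m x y h f)).2 u (fun h' => hu h'.2)]

lemma Bd.mid {B : ℕ} {κ : Fin r → ℕ} {N : ℕ} (hB : Bd B κ N) {m : ℕ} {x : List (Fin r)}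
    (h : x.length + m ≤ N) : Bd B (sh κ x) m := by
  induction x generalizing κ N with
  | nil =>
    intro a
    have := hB a
    simp only [List.length_nil] at h
    simp only [sh]
    omega
  | cons a t ih =>
    obtain ⟨N', rfl⟩ : ∃ N', N = N' + 1 := ⟨N - 1, by simp at h; omega⟩
    exact ih (hB.add a) (by simp only [List.length_cons] at h; omega)

lemma mid_rh {B : ℕ} (hK : HK K B) {κ : Fin r → ℕ} {N : ℕ} (hB : Bd B κ N) (m : ℕ)
    (x y : List (Fin r)) (h : x.length + m + y.length = N) (h' : x.length + m ≤ N)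
    (hB' : Bd B (sh κ x) m) (g : Perm (Fin m)) (f : V K κ N) :
    mid m x y h (rh hK hB (emb x.length h' g) f) = rh hK hB' g (mid m x y h f) := by
  induction g using gen_induction generalizing f with
  | h1 => simp
  | hs k g hk ih =>
    rw [map_mul, map_mul, map_mul, emb_sN _ _ _ hk, rh_s hK hB _ (by omega), rh_s hK hB' _ hk,
      Module.End.mul_apply, Module.End.mul_apply, mid_TV m x y h k hk, ih]

/-! ### the group algebra -/

/-- embedding of group algebras -/
noncomputable def embA (K : Type*) [Field K] (q : ℕ) {m N : ℕ} (h : q + m ≤ N) :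
    MonoidAlgebra K (Perm (Fin m)) →ₐ[K] MonoidAlgebra K (Perm (Fin N)) :=
  MonoidAlgebra.lift K _ _ ((MonoidAlgebra.of K _).comp (emb q h))

lemma embA_single (q : ℕ) {m N : ℕ} (h : q + m ≤ N) (g : Perm (Fin m)) (c : K) :
    embA K q h (MonoidAlgebra.single g c) = MonoidAlgebra.single (emb q h g) c := by
  unfold embA
  rw [MonoidAlgebra.lift_single, MonoidHom.comp_apply, MonoidAlgebra.of_apply,
    MonoidAlgebra.smul_single, smul_eq_mul, mul_one]

lemma alg_induction {G : Type*} [Group G] {P : MonoidAlgebra K G → Prop}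
    (h0 : P 0) (ha : ∀ x y, P x → P y → P (x + y))
    (hs : ∀ (g : G) (c : K), P (MonoidAlgebra.single g c)) (x : MonoidAlgebra K G) : P x := by
  induction x using MonoidAlgebra.induction_linear with
  | zero => exact h0
  | add x y hx hy => exact ha x y hx hy
  | single g c => exact hs g c

lemma embA_embA (q : ℕ) {m N : ℕ} (h : q + m ≤ N) (q' : ℕ) {m' : ℕ} (h' : q' + m' ≤ m)
    (x : MonoidAlgebra K (Perm (Fin m'))) :
    embA K q h (embA K q' h' x) = embA K (q + q') (by omega) x := by
  induction x using alg_induction with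
  | h0 => simp
  | ha x y hx hy => rw [map_add, map_add, map_add, hx, hy]
  | hs g c => rw [embA_single, embA_single, embA_single, emb_emb]

lemma embA_comm (q : ℕ) {m N : ℕ} (h : q + m ≤ N) (q' : ℕ) {m' : ℕ} (h' : q' + m' ≤ N)
    (hd : q + m ≤ q') (x : MonoidAlgebra K (Perm (Fin m)))
    (y : MonoidAlgebra K (Perm (Fin m'))) :
    embA K q h x * embA K q' h' y = embA K q' h' y * embA K q h x := by
  induction x using alg_induction with
  | h0 => simp
  | ha x x' hx hx' => rw [map_add, add_mul, mul_add, hx, hx']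
  | hs g c =>
    induction y using alg_induction with
    | h0 => simp
    | ha y y' hy hy' => rw [map_add, add_mul, mul_add, hy, hy']
    | hs g' c' =>
      rw [embA_single, embA_single, MonoidAlgebra.single_mul_single,
        MonoidAlgebra.single_mul_single, emb_comm q h q' h' hd, mul_comm c c']

lemma mid_rhA {B : ℕ} (hK : HK K B) {κ : Fin r → ℕ} {N : ℕ} (hB : Bd B κ N) (m : ℕ)
    (x y : List (Fin r)) (h : x.length + m + y.length = N) {q : ℕ} (hq : x.length = q)
    (h' : q + m ≤ N)
    (hB' : Bd B (sh κ x) m) (g : MonoidAlgebra K (Perm (Fin m))) (f : V K κ N) :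
    mid m x y h (rhA hK hB (embA K q h' g) f) = rhA hK hB' g (mid m x y h f) := by
  subst hq
  induction g using alg_induction with
  | h0 => simp
  | ha g g' hg hg' => rw [map_add, map_add, map_add, LinearMap.add_apply, LinearMap.add_apply,
      map_add, hg, hg']
  | hs g c =>
    rw [embA_single, rhA_single, rhA_single, LinearMap.smul_apply, LinearMap.smul_apply, map_smul,
      mid_rh]

/-! ### fixed vectors -/

lemma coA_add_coC (κ : Fin r → ℕ) (i : ℕ) (w : List (Fin r)) :
    coA K κ i w + coC K κ i w = 1 := by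
  induction i generalizing κ w with
  | zero =>
    rcases w with _ | ⟨a, _ | ⟨b, t⟩⟩
    · simp [coA, coC]
    · simp [coA, coC]
    · unfold coA coC
      split_ifs
      · simp
      · ring
  | succ i ih =>
    rcases w with _ | ⟨a, t⟩
    · simp [coA, coC]
    · unfold coA coC
      exact ih _ _

/-- symmetric functions are fixed -/
lemma T_sym (κ : Fin r → ℕ) (i : ℕ) {f : List (Fin r) → K} (hf : ∀ w, f (sw i w) = f w) :
    T κ i f = f := by
  funext w
  rw [T_apply, hf, ← add_mul, coA_add_coC, one_mul]

/-- fixed functions are symmetric -/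
lemma sym_of_T {B : ℕ} (hK : HK K B) (i : ℕ) {κ : Fin r → ℕ} {n : ℕ} (hB : Bd B κ n)
    {f : List (Fin r) → K} (hf : f ∈ V K κ n) (hT : T κ i f = f) (w : List (Fin r)) :
    f (sw i w) = f w := by
  induction i generalizing κ n f w with
  | zero =>
    rcases w with _ | ⟨a, _ | ⟨b, t⟩⟩
    · rfl
    · rfl
    · by_cases hab : a = b
      · subst hab
        rfl
      · show f (b :: a :: t) = f (a :: b :: t)
        by_cases hκ : Antitone κ
        swap
        · rw [hf _ (fun h => hκ h.1.anti), hf _ (fun h => hκ h.1.anti)]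
        by_cases hn : t.length + 2 = n
        swap
        · rw [hf _ (fun h => hn (by simpa using h.2)), hf _ (fun h => hn (by simpa using h.2))]
        have hd : (((ct κ b - ct κ a : ℤ) : K)) ≠ 0 :=
          hK.int (ct_ne hκ hab) (by have := abs_ct_sub hB a b; omega)
        have h2 : (2 : K) ≠ 0 := by
          have := hK 2 (by norm_num) (by have := hB a; omega)
          exact_mod_cast this
        have e1 := congrFun hT (a :: b :: t)
        have e2 := congrFun hT (b :: a :: t)
        rw [T_zero_ne κ _ hab] at e1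
        rw [T_zero_ne κ _ (Ne.symm hab)] at e2
        have e3 : (((ct κ a - ct κ b : ℤ) : K)) = -(((ct κ b - ct κ a : ℤ) : K)) := by
          push_cast; ring
        rw [e3] at e2
        set d := (((ct κ b - ct κ a : ℤ) : K))
        set p := f (a :: b :: t)
        set q := f (b :: a :: t)
        have e4 : (d - 1) * (q - p) = 0 := by
          field_simp at e1
          linear_combination e1
        rcases mul_eq_zero.1 e4 with h5 | h5
        · have hd1 : d = 1 := by linear_combination h5
          rw [hd1] at e2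
          have e6 : (2 : K) * (q - p) = 0 := by
            have : ((-1 : K))⁻¹ = -1 := by norm_num
            rw [this] at e2
            linear_combination -e2
          rcases mul_eq_zero.1 e6 with h7 | h7
          · exact absurd h7 h2
          · linear_combination h7
        · linear_combination h5
  | succ i ih =>
    rcases w with _ | ⟨a, t⟩
    · rfl
    · show f (a :: sw i t) = f (a :: t)
      rcases n with _ | n
      · rw [hf _ (fun h => by simpa using h.2), hf _ (fun h => by simpa using h.2)]
      · refine ih (hB.add a) (V_cons hf a) ?_ t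
        funext u
        have := congrFun hT (a :: u)
        rw [T_succ] at this
        exact this

lemma rh_fixed {B : ℕ} (hK : HK K B) {κ : Fin r → ℕ} {N : ℕ} (hB : Bd B κ N) (f : V K κ N)
    (hf : ∀ i w, (f : List (Fin r) → K) (sw i w) = (f : List (Fin r) → K) w)
    (g : Perm (Fin N)) : rh hK hB g f = f := by
  induction g using gen_induction with
  | h1 => simp
  | hs k g hk ih =>
    rw [map_mul, Module.End.mul_apply, ih, rh_s hK hB k hk]
    apply Subtype.ext
    rw [TV_coe]
    exact T_sym κ k (hf k)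

lemma sw_of_le {α : Type*} (i : ℕ) (w : List α) (h : w.length ≤ i + 1) : sw i w = w := by
  induction i generalizing w with
  | zero =>
    rcases w with _ | ⟨a, _ | ⟨b, t⟩⟩
    · rfl
    · rfl
    · simp at h
  | succ i ih =>
    rcases w with _ | ⟨a, t⟩
    · rfl
    · show a :: sw i t = a :: t
      rw [ih t (by simpa using h)]

lemma sym_of_rh {B : ℕ} (hK : HK K B) {κ : Fin r → ℕ} {N : ℕ} (hB : Bd B κ N) (f : V K κ N)
    (hf : ∀ g : Perm (Fin N), rh hK hB g f = f) (i : ℕ) (w : List (Fin r)) :
    (f : List (Fin r) → K) (sw i w) = (f : List (Fin r) → K) w := by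
  by_cases hi : i + 1 < N
  · apply sym_of_T hK i hB f.2
    have h1 := hf (sN N i)
    rw [rh_s hK hB i hi] at h1
    have h2 := congrArg (Subtype.val) h1
    rwa [TV_coe] at h2
  · by_cases hw : w.length = N
    · rw [sw_of_le i w (by omega)]
    · rw [f.2 w (fun h => hw h.2), f.2 (sw i w) (fun h => hw (by rw [← h.2, length_sw]))]

lemma sw_append {α : Type*} (p : List α) (a b : α) (t : List α) :
    sw p.length (p ++ a :: b :: t) = p ++ b :: a :: t := by
  induction p with
  | nil => rfl
  | cons c p ih =>
    show c :: sw p.length (p ++ a :: b :: t) = c :: (p ++ b :: a :: t)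
    rw [ih]

/-- symmetric functions depend only on the multiset of letters -/
lemma perm_of_sym {α β : Type*} {f : List α → β} (hf : ∀ i w, f (sw i w) = f w) {v v' : List α}
    (h : v.Perm v') : f v = f v' := by
  have key : ∀ p : List α, f (p ++ v) = f (p ++ v') := by
    induction h with
    | nil => intro p; rfl
    | cons a _ ih =>
      intro p
      have := ih (p ++ [a])
      simpa using this
    | swap a b t =>
      intro p
      rw [← sw_append, hf]
    | trans _ _ ih1 ih2 =>
      intro p
      rw [ih1, ih2]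
  exact key []

lemma sh_apply (κ : Fin r → ℕ) (w : List (Fin r)) (i : Fin r) :
    sh κ w i = κ i + w.count i := by
  induction w generalizing κ with
  | nil => simp [sh]
  | cons a t ih =>
    rw [sh, ih]
    by_cases h : a = i
    · subst h
      rw [add_same, List.count_cons_self]
      omega
    · rw [add_ne κ (Ne.symm h), List.count_cons_of_ne h]

lemma perm_of_sh {κ : Fin r → ℕ} {v v' : List (Fin r)} (h : sh κ v = sh κ v') : v.Perm v' := by
  rw [List.perm_iff_count]
  intro i
  have := congrFun h i
  rw [sh_apply, sh_apply] at this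
  omega

lemma sum_sh (κ : Fin r → ℕ) (w : List (Fin r)) : ∑ i, sh κ w i = ∑ i, κ i + w.length := by
  induction w generalizing κ with
  | nil => simp [sh]
  | cons a t ih =>
    rw [sh, ih, List.length_cons]
    have : ∑ i, add κ a i = ∑ i, κ i + 1 := by
      unfold add
      rw [Finset.sum_update_of_mem (Finset.mem_univ a)]
      have h1 : ∑ i, κ i = κ a + ∑ i ∈ Finset.univ \ {a}, κ i := by
        rw [Finset.sdiff_singleton_eq_erase, Finset.add_sum_erase _ _ (Finset.mem_univ a)]
      omega
    omega

/-! ### strips -/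

/-- horizontal strip (no size condition) -/
def Hz (κ τ : Fin r → ℕ) : Prop :=
  (∀ i, κ i ≤ τ i) ∧ ∀ i j : Fin r, i < j → τ j ≤ κ i

instance (κ τ : Fin r → ℕ) : Decidable (Hz κ τ) := by unfold Hz; infer_instance

lemma Hz.anti {κ τ : Fin r → ℕ} (h : Hz κ τ) : Antitone κ := by
  intro i j hij
  rcases eq_or_lt_of_le hij with rfl | h1
  · exact le_rfl
  · exact (h.1 j).trans (h.2 i j h1)

lemma le_sh (κ : Fin r → ℕ) (w : List (Fin r)) (i : Fin r) : κ i ≤ sh κ w i := by
  rw [sh_apply]
  omega

lemma Hz.lat {κ τ : Fin r → ℕ} (h : Hz κ τ) {y : List (Fin r)} (hy : sh κ y = τ) : Lat κ y := by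
  induction y generalizing κ with
  | nil => exact h.anti
  | cons a t ih =>
    refine ⟨h.anti, ih ⟨fun i => ?_, fun i j hij => ?_⟩ hy⟩
    · rw [← hy]
      exact le_sh _ _ _
    · refine (h.2 i j hij).trans ?_
      by_cases hi : i = a
      · subst hi
        rw [add_same]
        omega
      · rw [add_ne κ hi]

/-- the strip vector -/
def str (K : Type*) [Field K] (κ τ : Fin r → ℕ) : List (Fin r) → K :=
  fun y => if Hz κ τ ∧ sh κ y = τ then 1 else 0

lemma str_sw (κ τ : Fin r → ℕ) (i : ℕ) (w : List (Fin r)) : str K κ τ (sw i w) = str K κ τ w := by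
  unfold str
  rw [sh_sw]

lemma str_zero {κ τ : Fin r → ℕ} {y : List (Fin r)} (h : ¬ (Hz κ τ ∧ sh κ y = τ)) :
    str K κ τ y = 0 := if_neg h

/-- sorted filling of a strip -/
def srt (κ τ : Fin r → ℕ) : List (Fin r) :=
  (List.finRange r).flatMap (fun i => List.replicate (τ i - κ i) i)

lemma count_srt (κ τ : Fin r → ℕ) (i : Fin r) : (srt κ τ).count i = τ i - κ i := by
  unfold srt
  rw [List.count_flatMap]
  have : ((List.finRange r).map (fun j => (List.replicate (τ j - κ j) j).count i)).sum
      = ∑ j, (List.replicate (τ j - κ j) j).count i := by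
    rw [← List.ofFn_eq_map, List.sum_ofFn]
  show ((List.finRange r).map (fun j => (List.replicate (τ j - κ j) j).count i)).sum = _
  rw [this, Finset.sum_eq_single i]
  · simp
  · intro j _ hj
    rw [List.count_replicate]
    simp [hj]
  · simp

lemma sh_srt {κ τ : Fin r → ℕ} (h : ∀ i, κ i ≤ τ i) : sh κ (srt κ τ) = τ := by
  funext i
  rw [sh_apply, count_srt]
  have := h i
  omega

/-- invariant vectors are strips -/
lemma inv_strip {B : ℕ} (hK : HK K B) {κ : Fin r → ℕ} {N : ℕ} (hB : Bd B κ N) (f : V K κ N)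
    (hf : ∀ g : Perm (Fin N), rh hK hB g f = f) (v : List (Fin r)) :
    (f : List (Fin r) → K) v
      = (f : List (Fin r) → K) (srt κ (sh κ v)) * str K κ (sh κ v) v := by
  have hs := sym_of_rh hK hB f hf
  have h1 : (f : List (Fin r) → K) (srt κ (sh κ v)) = (f : List (Fin r) → K) v := by
    apply perm_of_sym hs
    apply perm_of_sh (κ := κ)
    exact sh_srt (fun i => le_sh κ v i)
  rw [h1]
  by_cases h0 : (f : List (Fin r) → K) v = 0
  · rw [h0, zero_mul]
  · have hz : Hz κ (sh κ v) := by
      refine ⟨fun i => le_sh κ v i, fun i j hij => ?_⟩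
      -- move all letters `j` to the front
      have h2 : v.Perm (List.replicate (v.count j) j ++ v.filter (fun c => c ≠ j)) := by
        rw [List.perm_iff_count]
        intro c
        rw [List.count_append, List.count_replicate]
        by_cases hc : c = j
        · subst hc
          have : List.count c (List.filter (fun c_1 => decide (c_1 ≠ c)) v) = 0 :=
            List.count_eq_zero.2 (by simp)
          rw [this]
          simp
        · rw [List.count_filter (by simpa using hc)]
          simp [Ne.symm hc]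
      have h3 := perm_of_sym hs h2
      have h4 : (f : List (Fin r) → K) (List.replicate (v.count j) j ++
          v.filter (fun c => c ≠ j)) ≠ 0 := by rwa [← h3]
      have h5 : Lat κ (List.replicate (v.count j) j ++ v.filter (fun c => c ≠ j)) := by
        by_contra hcon
        exact h4 (f.2 _ (fun h => hcon h.1))
      have h6 := ((lat_append _ _ _).1 h5).1.sh_anti
      have h7 := h6 hij.le
      rw [sh_apply, sh_apply, List.count_replicate_self, List.count_replicate] at h7
      rw [sh_apply]
      simpa [hij.ne'] using h7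
    unfold str
    rw [if_pos ⟨hz, rfl⟩, mul_one]

end Crest.Agent.R187.SN.Ins
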