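import Crest.Agent.R187.SN.Insert

/-!
# Row 187, PLAN S, block (C1): column insertion preserves the range of `E`
-/

set_option autoImplicit false

namespace Crest.Agent.R187.SN.Ins

open Equiv Crest.Agent.R187.SN

variable {r : ℕ} {K : Type*} [Field K]

/-! ### cycles and block swaps -/

/-- `s_i s_{i+1} ⋯ s_{i+m-1}` -/
def cycP (N : ℕ) : ℕ → ℕ → Perm (Fin N)
  | _, 0 => 1
  | i, m + 1 => sN N i * cycP N (i + 1) m

/-- block swap -/
def bsP (N m : ℕ) : ℕ → ℕ → Perm (Fin N)
  | _, 0 => 1
  | i, q + 1 => bsP N m (i + 1) q * cycP N i m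

lemma sN_val (N k : ℕ) (hk : k + 1 < N) (x : Fin N) :
    (sN N k x : ℕ) = if (x : ℕ) = k then k + 1 else if (x : ℕ) = k + 1 then k else x := by
  unfold sN
  rw [dif_pos hk, swap_apply_def]
  simp only [Fin.ext_iff]
  split_ifs <;> rfl

lemma cycP_val (N : ℕ) (m : ℕ) : ∀ (i : ℕ) (_ : i + m < N) (x : Fin N),
    (cycP N i m x : ℕ) = if (x : ℕ) < i then (x : ℕ) else if (x : ℕ) < i + m then (x : ℕ) + 1
      else if (x : ℕ) = i + m then i else x := by
  induction m with
  | zero =>
    intro i _ x
    simp only [cycP, Perm.one_apply]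
    split_ifs <;> omega
  | succ m ih =>
    intro i h x
    simp only [cycP, Perm.mul_apply]
    rw [sN_val N i (by omega), ih (i + 1) (by omega) x]
    split_ifs <;> omega

lemma bsP_val (N m : ℕ) (hm : 0 < m) (q : ℕ) : ∀ (i : ℕ) (_ : i + m + q ≤ N) (x : Fin N),
    (bsP N m i q x : ℕ) = if (x : ℕ) < i then (x : ℕ) else if (x : ℕ) < i + m then (x : ℕ) + q
      else if (x : ℕ) < i + m + q then (x : ℕ) - m else x := by
  induction q with
  | zero =>
    intro i _ x
    simp only [bsP, Perm.one_apply]
    split_ifs <;> omega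
  | succ q ih =>
    intro i h x
    simp only [bsP, Perm.mul_apply]
    rw [ih (i + 1) (by omega), cycP_val N m i (by omega)]
    split_ifs <;> omega

lemma emb_cycP (q : ℕ) {M N : ℕ} (h : q + M ≤ N) (m : ℕ) : ∀ (i : ℕ) (_ : i + m < M),
    emb q h (cycP M i m) = cycP N (q + i) m := by
  induction m with
  | zero => intro i _; simp [cycP]
  | succ m ih =>
    intro i hi
    simp only [cycP]
    rw [map_mul, emb_sN q h i (by omega), ih (i + 1) (by omega)]
    rfl

lemma emb_bsP (q : ℕ) {M N : ℕ} (h : q + M ≤ N) (m : ℕ) (q' : ℕ) :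
    ∀ (i : ℕ) (_ : i + m + q' ≤ M), emb q h (bsP M m i q') = bsP N m (q + i) q' := by
  induction q' with
  | zero => intro i _; simp [bsP]
  | succ q' ih =>
    intro i hi
    simp only [bsP]
    rw [map_mul, ih (i + 1) (by omega), emb_cycP q h m i (by omega)]
    rfl

/-! ### splitting permutations -/

lemma emb_injective (q : ℕ) {m N : ℕ} (h : q + m ≤ N) : Function.Injective (emb q h) :=
  Perm.viaEmbeddingHom_injective _

/-- a permutation preserving the first `q` letters is a product -/
lemma split {q m N : ℕ} (h : q + m = N) (g : Perm (Fin N))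
    (hg : ∀ x : Fin N, (x : ℕ) < q → (g x : ℕ) < q) :
    ∃ (g1 : Perm (Fin q)) (g2 : Perm (Fin m)),
      g = emb 0 (show 0 + q ≤ N by omega) g1 * emb q (show q + m ≤ N by omega) g2 := by
  have h1 : ∀ i : Fin q, (g (embF 0 (show 0 + q ≤ N by omega) i) : ℕ) < q := fun i =>
    hg _ (by rw [embF_val]; omega)
  let f1 : Fin q → Fin q := fun i => ⟨g (embF 0 (show 0 + q ≤ N by omega) i), h1 i⟩
  have f1i : Function.Injective f1 := by
    intro i j hij
    have h2 : g (embF 0 (show 0 + q ≤ N by omega) i)
        = g (embF 0 (show 0 + q ≤ N by omega) j) := by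
      have h9 := congrArg Fin.val hij
      simp only [f1] at h9
      exact Fin.ext h9
    exact (embF 0 _).injective (g.injective h2)
  have f1b : Function.Bijective f1 := Finite.injective_iff_bijective.1 f1i
  -- the complement is preserved
  have hc : ∀ x : Fin N, q ≤ (x : ℕ) → q ≤ (g x : ℕ) := by
    intro x hx
    by_contra hcon
    push Not at hcon
    obtain ⟨i, hi⟩ := f1b.2 ⟨g x, hcon⟩
    have h3 : g (embF 0 (show 0 + q ≤ N by omega) i) = g x := by
      have h9 := congrArg Fin.val hi
      simp only [f1] at h9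
      exact Fin.ext h9
    have h4 := congrArg Fin.val (g.injective h3)
    rw [embF_val] at h4
    have := i.2
    omega
  have h2 : ∀ i : Fin m, (g (embF q (show q + m ≤ N by omega) i) : ℕ) - q < m := fun i => by
    have h5 := (g (embF q (show q + m ≤ N by omega) i)).2
    have h6 := i.2
    omega
  let f2 : Fin m → Fin m := fun i => ⟨g (embF q (show q + m ≤ N by omega) i) - q, h2 i⟩
  have f2i : Function.Injective f2 := by
    intro i j hij
    have h5 := hc (embF q (show q + m ≤ N by omega) i) (by rw [embF_val]; omega)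
    have h6 := hc (embF q (show q + m ≤ N by omega) j) (by rw [embF_val]; omega)
    have h7 : g (embF q (show q + m ≤ N by omega) i)
        = g (embF q (show q + m ≤ N by omega) j) := by
      ext
      have h8 := congrArg Fin.val hij
      simp only [f2] at h8
      omega
    exact (embF q _).injective (g.injective h7)
  have f2b : Function.Bijective f2 := Finite.injective_iff_bijective.1 f2i
  refine ⟨Equiv.ofBijective f1 f1b, Equiv.ofBijective f2 f2b, ?_⟩
  ext x
  rw [Perm.mul_apply]
  rcases in_or_out q (show q + m ≤ N by omega) x with ⟨i, rfl⟩ | hx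
  · rw [emb_in, emb_out 0 _ _ _ (by rw [embF_val]; omega), embF_val]
    have h5 := hc (embF q (show q + m ≤ N by omega) i) (by rw [embF_val]; omega)
    simp only [Equiv.ofBijective_apply, f2]
    omega
  · rw [emb_out q _ _ x hx]
    rcases in_or_out 0 (show 0 + q ≤ N by omega) x with ⟨i, rfl⟩ | hx2
    · rw [emb_in, embF_val]
      simp only [Equiv.ofBijective_apply, f1]
      omega
    · omega

/-! ### sums -/

/-- the sum of all permutations -/
noncomputable def allS (K : Type*) [Field K] (m : ℕ) : MonoidAlgebra K (Perm (Fin m)) :=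
  ∑ g : Perm (Fin m), MonoidAlgebra.single g 1

/-- coset sum of `S_{m+1} / S_m` on the first `m+1` letters -/
noncomputable def csum (K : Type*) [Field K] (N m : ℕ) : MonoidAlgebra K (Perm (Fin N)) :=
  ∑ k ∈ Finset.range (m + 1), MonoidAlgebra.single (cycP N k (m - k)) 1

lemma embA_csum (q : ℕ) {M N : ℕ} (h : q + M ≤ N) (m : ℕ) (hm : m < M) :
    embA K q h (csum K M m)
      = ∑ k ∈ Finset.range (m + 1), MonoidAlgebra.single (cycP N (q + k) (m - k)) 1 := by
  unfold csum
  rw [map_sum]
  refine Finset.sum_congr rfl fun k hk => ?_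
  rw [Finset.mem_range] at hk
  rw [embA_single, emb_cycP q h _ k (by omega)]

lemma csum_mul (m : ℕ) : csum K (m + 1) m * embA K 0 (show 0 + m ≤ m + 1 by omega) (allS K m)
    = allS K (m + 1) := by
  let F : Fin (m + 1) × Perm (Fin m) → Perm (Fin (m + 1)) := fun p =>
    cycP (m + 1) p.1 (m - p.1) * emb 0 (show 0 + m ≤ m + 1 by omega) p.2
  have hF : Function.Bijective F := by
    rw [Fintype.bijective_iff_injective_and_card]
    constructor
    · rintro ⟨k, h⟩ ⟨k', h'⟩ hh
      have h1 : ∀ (k : Fin (m + 1)) (h : Perm (Fin m)), (F (k, h) (Fin.last m) : ℕ) = k := by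
        intro k h
        simp only [F, Perm.mul_apply]
        rw [emb_out 0 _ _ _ (by right; simp), cycP_val _ _ _ (by omega)]
        have := k.2
        simp only [Fin.val_last]
        split_ifs <;> omega
      have h2 : k = k' := by
        ext
        rw [← h1 k h, ← h1 k' h', hh]
      subst h2
      have h3 : emb 0 (show 0 + m ≤ m + 1 by omega) h = emb 0 (show 0 + m ≤ m + 1 by omega) h' :=
        mul_left_cancel hh
      rw [emb_injective _ _ h3]
    · rw [Fintype.card_prod, Fintype.card_fin, Fintype.card_perm, Fintype.card_perm,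
        Fintype.card_fin, Fintype.card_fin, Nat.factorial_succ]
  unfold csum allS
  rw [map_sum, Finset.sum_mul_sum, Finset.sum_range (fun k => ∑ j, MonoidAlgebra.single
    (cycP (m + 1) k (m - k)) (1 : K) * embA K 0 (show 0 + m ≤ m + 1 by omega)
      (MonoidAlgebra.single j 1)), ← Fintype.sum_prod_type' (fun (k : Fin (m + 1))
      (j : Perm (Fin m)) => MonoidAlgebra.single (cycP (m + 1) k (m - k)) (1 : K) *
        embA K 0 (show 0 + m ≤ m + 1 by omega) (MonoidAlgebra.single j 1))]
  refine Fintype.sum_bijective F hF _ _ fun p => ?_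
  rw [embA_single, MonoidAlgebra.single_mul_single, mul_one]

lemma single_mul_allS (m : ℕ) (g : Perm (Fin m)) :
    MonoidAlgebra.single g (1 : K) * allS K m = allS K m := by
  unfold allS
  rw [Finset.mul_sum]
  refine Fintype.sum_equiv (Equiv.mulLeft g) _ _ fun h => ?_
  rw [MonoidAlgebra.single_mul_single, mul_one, Equiv.coe_mulLeft]

/-- conjugation of embedded algebras -/
lemma conj_embA (q q' : ℕ) {m N : ℕ} (h : q + m ≤ N) (h' : q' + m ≤ N) (s : Perm (Fin N))
    (hs : ∀ i : Fin m, s (embF q h i) = embF q' h' i) (x : MonoidAlgebra K (Perm (Fin m))) :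
    MonoidAlgebra.single s (1 : K) * embA K q h x
      = embA K q' h' x * MonoidAlgebra.single s (1 : K) := by
  induction x using alg_induction with
  | h0 => simp
  | ha x y hx hy => rw [map_add, map_add, mul_add, add_mul, hx, hy]
  | hs g c =>
    rw [embA_single, embA_single, MonoidAlgebra.single_mul_single,
      MonoidAlgebra.single_mul_single, mul_one, one_mul]
    congr 1
    ext x
    rw [Perm.mul_apply, Perm.mul_apply]
    rcases in_or_out q h x with ⟨i, rfl⟩ | hx
    · rw [emb_in, hs, hs, emb_in]
    · rw [emb_out q h g x hx]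
      rcases in_or_out q' h' (s x) with ⟨i, hi⟩ | hx2
      · exfalso
        rw [← hs] at hi
        have := congrArg Fin.val (s.injective hi)
        rw [embF_val] at this
        omega
      · rw [emb_out q' h' g _ hx2]

/-! ### rows -/

section rows

open Link

/-- row-major numbering -/
abbrev eE (a b : ℕ) : Fin a × Fin b ≃ Fin (a * b) := finProdFinEquiv

lemma mem_row {a b : ℕ} {g : Perm (Fin (a * b))} :
    g ∈ rowSub (eE a b) ↔ ∀ x : Fin (a * b), (g x : ℕ) / b = (x : ℕ) / b := by
  rw [mem_rowSub]
  refine forall_congr' fun x => ?_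
  rw [Fin.ext_iff]
  rfl

lemma mem_col {a b : ℕ} {g : Perm (Fin (a * b))} :
    g ∈ colSub (eE a b) ↔ ∀ x : Fin (a * b), (g x : ℕ) % b = (x : ℕ) % b := by
  rw [mem_colSub]
  refine forall_congr' fun x => ?_
  rw [Fin.ext_iff]
  rfl

lemma hL (a b : ℕ) : 0 + a * b ≤ (a + 1) * b := by rw [Nat.add_one_mul]; omega

lemma hR (a b : ℕ) : a * b + b ≤ (a + 1) * b := by rw [Nat.add_one_mul]

/-- rows of the big grid -/
lemma ysum_row (a b : ℕ) (hb : 0 < b) :
    ysum K (rowSub (eE (a + 1) b))
      = embA K 0 (hL a b) (ysum K (rowSub (eE a b))) * embA K (a * b) (hR a b) (allS K b) := by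
  classical
  have e0 : (a + 1) * b = a * b + b := Nat.add_one_mul a b
  have key : ∀ j < b, (a * b + j) / b = a := fun j hj => by
    rw [Nat.mul_comm a b, Nat.mul_add_div hb, Nat.div_eq_of_lt hj, add_zero]
  unfold ysum allS
  rw [← Finset.sum_filter, ← Finset.sum_filter, map_sum, map_sum, Finset.sum_mul_sum,
    ← Finset.sum_product']
  symm
  refine Finset.sum_nbij (fun p : Perm (Fin (a * b)) × Perm (Fin b) =>
    emb 0 (hL a b) p.1 * emb (a * b) (hR a b) p.2) ?_ ?_ ?_ ?_
  · rintro ⟨g, h⟩ hp
    rw [Finset.mem_product, Finset.mem_filter] at hp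
    rw [Finset.mem_filter]
    refine ⟨Finset.mem_univ _, ?_⟩
    have hg := mem_row.1 hp.1.2
    rw [mem_row]
    intro x
    rw [Perm.mul_apply]
    rcases in_or_out (a * b) (hR a b) x with ⟨i, rfl⟩ | hx
    · rw [emb_in, emb_out 0 _ _ _ (by rw [embF_val]; omega), embF_val, embF_val]
      rw [key _ (h i).2, key _ i.2]
    · rw [emb_out (a * b) _ _ x hx]
      rcases in_or_out 0 (hL a b) x with ⟨i, rfl⟩ | hx2
      · rw [emb_in, embF_val, embF_val, zero_add, zero_add]
        exact hg i
      · rw [emb_out 0 _ _ x hx2]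
  · rintro ⟨g, h⟩ _ ⟨g', h'⟩ _ hh
    have hh' : emb 0 (hL a b) g * emb (a * b) (hR a b) h
        = emb 0 (hL a b) g' * emb (a * b) (hR a b) h' := hh
    have h1 : ∀ (g : Perm (Fin (a * b))) (h : Perm (Fin b)) (i : Fin b),
        ((emb 0 (hL a b) g * emb (a * b) (hR a b) h) (embF (a * b) (hR a b) i) : ℕ)
          = a * b + h i := by
      intro g h i
      rw [Perm.mul_apply, emb_in, emb_out 0 _ _ _ (by rw [embF_val]; omega), embF_val]
    have h2 : h = h' := by
      ext i
      have h3 := h1 g h i
      rw [hh', h1 g' h' i] at h3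
      omega
    subst h2
    rw [Prod.mk.injEq]
    exact ⟨emb_injective _ _ (mul_right_cancel hh'), rfl⟩
  · intro g hg
    rw [Finset.mem_coe, Finset.mem_filter, mem_row] at hg
    obtain ⟨g1, g2, h12⟩ := split (q := a * b) (m := b) e0.symm g (by
      intro x hx
      have h1 := hg.2 x
      have h2 : (x : ℕ) / b < a := (Nat.div_lt_iff_lt_mul hb).2 hx
      rw [← h1] at h2
      exact (Nat.div_lt_iff_lt_mul hb).1 h2)
    refine ⟨(g1, g2), ?_, h12.symm⟩
    rw [Finset.mem_coe, Finset.mem_product, Finset.mem_filter]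
    refine ⟨⟨Finset.mem_univ _, ?_⟩, Finset.mem_univ _⟩
    rw [mem_row]
    intro i
    have h1 := hg.2 (embF 0 (hL a b) i)
    rw [h12, Perm.mul_apply, emb_out (a * b) _ _ _ (by
      have := i.2
      rw [embF_val]; omega), emb_in, embF_val, embF_val, zero_add, zero_add] at h1
    exact h1
  · rintro ⟨g, h⟩ _
    rw [embA_single, embA_single, MonoidAlgebra.single_mul_single, mul_one]

lemma hR' (a b : ℕ) : a * b + (b + 1 + a) ≤ (a + 1) * (b + 1) := by
  have : (a + 1) * (b + 1) = a * b + (b + 1 + a) := by ring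
  omega

/-- the local operator: the first new letter joins the last row (coset sum), the other `a` new
letters move in front of the block of `b+1` letters -/
noncomputable def loc (K : Type*) [Field K] (a b : ℕ) :
    MonoidAlgebra K (Perm (Fin (b + 1 + a))) :=
  MonoidAlgebra.single (bsP (b + 1 + a) (b + 1) 0 a) 1 * csum K (b + 1 + a) b

/-- column insertion in the group algebra -/
noncomputable def G (K : Type*) [Field K] :
    (a b : ℕ) → MonoidAlgebra K (Perm (Fin (a * (b + 1))))
  | 0, _ => 1
  | a + 1, b => embA K 0 (hL a (b + 1)) (G K a b) * embA K (a * b) (hR' a b) (loc K a b)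

/-- distribution of the new column -/
noncomputable def dist : (a b : ℕ) → Perm (Fin (a * (b + 1)))
  | 0, _ => 1
  | a + 1, b => emb 0 (hL a (b + 1)) (dist a b) *
      emb (a * b) (hR' a b) (bsP (b + 1 + a) (b + 1) 0 a)

lemma hM (a b : ℕ) : 0 + a * b ≤ a * (b + 1) := by
  have : a * (b + 1) = a * b + a := by ring
  omega

lemma hN (a b : ℕ) : a * b + a ≤ a * (b + 1) := by
  have : a * (b + 1) = a * b + a := by ring
  omega

lemma G_row (b : ℕ) (hb : 0 < b) : ∀ a : ℕ,
    G K a b * embA K 0 (hM a b) (ysum K (rowSub (eE a b)))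
      = ysum K (rowSub (eE a (b + 1))) * MonoidAlgebra.single (dist a b) 1
  | 0 => by
    have h1 : ∀ (m : ℕ), IsEmpty (Fin (0 * m)) := fun m => by
      rw [Nat.zero_mul]; infer_instance
    have h2 := h1 b
    have h3 := h1 (b + 1)
    have h4 : ∀ (m : ℕ) [IsEmpty (Fin (0 * m))], ysum K (rowSub (eE 0 m)) = 1 := by
      intro m _
      have h5 : ∀ g : Perm (Fin (0 * m)), g = 1 := fun g => Subsingleton.elim _ _
      unfold ysum
      rw [Fintype.sum_eq_single (1 : Perm (Fin (0 * m))) (fun g hg => absurd (h5 g) hg),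
        if_pos (Subgroup.one_mem _)]
      rfl
    rw [h4 b, h4 (b + 1), map_one]
    rfl
  | a + 1 => by
    have ih := G_row b hb a
    rw [ysum_row a b hb, ysum_row a (b + 1) (by omega), map_mul, embA_embA, embA_embA]
    -- block of the last row, inside the last `b+1+a` letters
    have e1 : embA K (0 + a * b) (show 0 + a * b + b ≤ (a + 1) * (b + 1) by
          have := hR' a b; omega) (allS K b)
        = embA K (a * b) (hR' a b) (embA K 0 (show 0 + b ≤ b + 1 + a by omega) (allS K b)) := by
      rw [embA_embA]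
      congr 1; simp
    have e2 : csum K (b + 1 + a) b * embA K 0 (show 0 + b ≤ b + 1 + a by omega) (allS K b)
        = embA K 0 (show 0 + (b + 1) ≤ b + 1 + a by omega) (allS K (b + 1)) := by
      have h1 : csum K (b + 1 + a) b
          = embA K 0 (show 0 + (b + 1) ≤ b + 1 + a by omega) (csum K (b + 1) b) := by
        rw [embA_csum 0 _ b (by omega)]
        unfold csum
        simp
      have h2 : embA K 0 (show 0 + b ≤ b + 1 + a by omega) (allS K b)
          = embA K 0 (show 0 + (b + 1) ≤ b + 1 + a by omega)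
            (embA K 0 (show 0 + b ≤ b + 1 by omega) (allS K b)) := by
        rw [embA_embA]
      rw [h1, h2, ← map_mul, csum_mul]
    have e3 : MonoidAlgebra.single (bsP (b + 1 + a) (b + 1) 0 a) (1 : K) *
        embA K 0 (show 0 + (b + 1) ≤ b + 1 + a by omega) (allS K (b + 1))
        = embA K a (show a + (b + 1) ≤ b + 1 + a by omega) (allS K (b + 1)) *
          MonoidAlgebra.single (bsP (b + 1 + a) (b + 1) 0 a) (1 : K) := by
      apply conj_embA
      intro i
      ext
      have := i.2
      rw [bsP_val _ _ (by omega) _ _ (by omega), embF_val, embF_val]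
      split_ifs <;> omega
    have e4 : loc K a b * embA K 0 (show 0 + b ≤ b + 1 + a by omega) (allS K b)
        = embA K a (show a + (b + 1) ≤ b + 1 + a by omega) (allS K (b + 1)) *
          MonoidAlgebra.single (bsP (b + 1 + a) (b + 1) 0 a) (1 : K) := by
      unfold loc
      rw [mul_assoc, e2, e3]
    have e5 : embA K (0 + 0) (show 0 + 0 + a * b ≤ (a + 1) * (b + 1) by
          have := hR' a b; omega) (ysum K (rowSub (eE a b)))
        = embA K 0 (hL a (b + 1)) (embA K 0 (hM a b) (ysum K (rowSub (eE a b)))) := by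
      rw [embA_embA]
    have e6 := embA_comm (K := K) 0 (show 0 + a * b ≤ (a + 1) * (b + 1) by
          have := hR' a b; omega) (a * b) (hR' a b) (by omega) (ysum K (rowSub (eE a b)))
          (loc K a b)
    have e7 : embA K (a * b) (hR' a b) (embA K a (show a + (b + 1) ≤ b + 1 + a by omega)
        (allS K (b + 1))) = embA K (a * (b + 1)) (hR a (b + 1)) (allS K (b + 1)) := by
      rw [embA_embA]
      congr 1
    have e8 := embA_comm (K := K) 0 (hL a (b + 1)) (a * (b + 1)) (hR a (b + 1)) (by omega)
      (MonoidAlgebra.single (dist a b) (1 : K)) (allS K (b + 1))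
    rw [e1]
    show embA K 0 (hL a (b + 1)) (G K a b) * embA K (a * b) (hR' a b) (loc K a b) *
      (embA K (0 + 0) _ (ysum K (rowSub (eE a b))) * _) = _
    calc embA K 0 (hL a (b + 1)) (G K a b) * embA K (a * b) (hR' a b) (loc K a b) *
        (embA K (0 + 0) (show 0 + 0 + a * b ≤ (a + 1) * (b + 1) by
          have := hR' a b; omega) (ysum K (rowSub (eE a b))) *
          embA K (a * b) (hR' a b) (embA K 0 (show 0 + b ≤ b + 1 + a by omega) (allS K b)))
        = embA K 0 (hL a (b + 1)) (G K a b) * (embA K (a * b) (hR' a b) (loc K a b) *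
        embA K 0 (show 0 + a * b ≤ (a + 1) * (b + 1) by
          have := hR' a b; omega) (ysum K (rowSub (eE a b)))) *
          embA K (a * b) (hR' a b) (embA K 0 (show 0 + b ≤ b + 1 + a by omega) (allS K b)) := by
          simp only [mul_assoc]
      _ = embA K 0 (hL a (b + 1)) (G K a b) * embA K 0 (hL a (b + 1))
            (embA K 0 (hM a b) (ysum K (rowSub (eE a b)))) *
          (embA K (a * b) (hR' a b) (loc K a b) *
          embA K (a * b) (hR' a b) (embA K 0 (show 0 + b ≤ b + 1 + a by omega) (allS K b))) := by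
          rw [← e6, ← e5]
          simp only [mul_assoc]
      _ = embA K 0 (hL a (b + 1)) (G K a b * embA K 0 (hM a b) (ysum K (rowSub (eE a b)))) *
          embA K (a * b) (hR' a b) (loc K a b *
            embA K 0 (show 0 + b ≤ b + 1 + a by omega) (allS K b)) := by
          rw [map_mul, map_mul]
      _ = (embA K 0 (hL a (b + 1)) (ysum K (rowSub (eE a (b + 1)))) *
            embA K 0 (hL a (b + 1)) (MonoidAlgebra.single (dist a b) 1)) *
          (embA K (a * (b + 1)) (hR a (b + 1)) (allS K (b + 1)) *
            embA K (a * b) (hR' a b)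
              (MonoidAlgebra.single (bsP (b + 1 + a) (b + 1) 0 a) (1 : K))) := by
          rw [ih, e4, map_mul, map_mul, e7]
      _ = embA K 0 (hL a (b + 1)) (ysum K (rowSub (eE a (b + 1)))) *
            (embA K 0 (hL a (b + 1)) (MonoidAlgebra.single (dist a b) 1) *
          embA K (a * (b + 1)) (hR a (b + 1)) (allS K (b + 1))) *
            embA K (a * b) (hR' a b)
              (MonoidAlgebra.single (bsP (b + 1 + a) (b + 1) 0 a) (1 : K)) := by
          simp only [mul_assoc]
      _ = embA K 0 (hL a (b + 1)) (ysum K (rowSub (eE a (b + 1)))) *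
            embA K (a * (b + 1)) (hR a (b + 1)) (allS K (b + 1)) *
            MonoidAlgebra.single (dist (a + 1) b) 1 := by
          rw [e8, embA_single, embA_single]
          simp only [mul_assoc]
          rw [MonoidAlgebra.single_mul_single, mul_one]
          rfl

end rows

end Crest.Agent.R187.SN.Ins
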