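import Crest.Agent.R187.SN.Insert2

/-!
# Row 187, PLAN S, block (C1): column insertion preserves the range of `E` (conclusion)
-/

set_option autoImplicit false

namespace Crest.Agent.R187.SN.Ins

open Equiv Crest.Agent.R187.SN Link

variable {r : ℕ} {K : Type*} [Field K]

/-! ### columns -/

lemma dist_col (b : ℕ) : ∀ (a : ℕ) (x : Fin (a * (b + 1))),
    (dist a b x : ℕ) % (b + 1) = if (x : ℕ) < a * b then (x : ℕ) % b else b
  | 0, x => by
    have := x.2
    simp at this
  | a + 1, x => by
    have ih := dist_col b a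
    have e0 : a * (b + 1) = a * b + a := by ring
    have e1 : (a + 1) * b = a * b + b := by ring
    rw [dist, Perm.mul_apply]
    rcases in_or_out (a * b) (hR' a b) x with ⟨i, rfl⟩ | hx
    · rw [emb_in]
      by_cases hi : (i : ℕ) < b + 1
      · rw [emb_out 0 (hL a (b + 1)) _ _ (by
          right
          rw [embF_val, bsP_val _ _ (by omega) _ _ (by omega)]
          split_ifs <;> omega), embF_val, embF_val, bsP_val _ _ (by omega) _ _ (by omega),
          if_neg (by omega), if_pos (by omega)]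
        have e2 : a * b + (i + a) = (b + 1) * a + i := by ring
        rw [e2, Nat.mul_add_mod, Nat.mod_eq_of_lt hi]
        by_cases hi2 : (i : ℕ) < b
        · rw [if_pos (by omega), Nat.mul_comm a b, Nat.mul_add_mod, Nat.mod_eq_of_lt hi2]
        · rw [if_neg (by omega)]
          omega
      · have hi3 := i.2
        have h1 : (embF (a * b) (hR' a b) (bsP (b + 1 + a) (b + 1) 0 a i) : ℕ)
            = a * b + (i - (b + 1)) := by
          rw [embF_val, bsP_val _ _ (by omega) _ _ (by omega), if_neg (by omega),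
            if_neg (by omega), if_pos (by omega)]
        rcases in_or_out 0 (hL a (b + 1)) (embF (a * b) (hR' a b)
          (bsP (b + 1 + a) (b + 1) 0 a i)) with ⟨j, hj⟩ | hout
        · have h2 := congrArg Fin.val hj
          rw [h1, embF_val] at h2
          rw [hj, emb_in, embF_val, embF_val, zero_add, ih j, if_neg (by omega),
            if_neg (by omega)]
        · rw [h1] at hout
          omega
    · rw [emb_out (a * b) _ _ x hx]
      have hx3 := x.2
      have hx4 := hR' a b
      have e5 : (a + 1) * (b + 1) = a * b + (b + 1 + a) := by ring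
      rcases in_or_out 0 (hL a (b + 1)) x with ⟨j, rfl⟩ | hout
      · rw [embF_val] at hx hx3
        rw [emb_in, embF_val, embF_val, zero_add, zero_add, ih j, if_pos (by omega),
          if_pos (by omega)]
      · omega

/-! ### projections and strips -/

/-- initial slice -/
def ini {κ : Fin r → ℕ} {N : ℕ} (m : ℕ) (y : List (Fin r)) (h : m + y.length = N) :
    V K κ N →ₗ[K] V K κ m :=
  mid m [] y (by simpa using h)

lemma ini_coe {κ : Fin r → ℕ} {N : ℕ} (m : ℕ) (y : List (Fin r)) (h : m + y.length = N)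
    (f : V K κ N) (u : List (Fin r)) :
    ((ini m y h f : V K κ m) : List (Fin r) → K) u = (f : List (Fin r) → K) (u ++ y) := rfl

lemma ini_rh {B : ℕ} (hK : HK K B) {κ : Fin r → ℕ} {N : ℕ} (hB : Bd B κ N) (m : ℕ)
    (y : List (Fin r)) (h : m + y.length = N) (h' : 0 + m ≤ N)
    (hB' : Bd B κ m) (g : Perm (Fin m)) (f : V K κ N) :
    ini m y h (rh hK hB (emb 0 h' g) f) = rh hK hB' g (ini m y h f) :=
  mid_rh hK hB m [] y (by simpa using h) h' hB' g f

lemma ini_rhA {B : ℕ} (hK : HK K B) {κ : Fin r → ℕ} {N : ℕ} (hB : Bd B κ N) (m : ℕ)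
    (y : List (Fin r)) (h : m + y.length = N) (h' : 0 + m ≤ N)
    (hB' : Bd B κ m) (g : MonoidAlgebra K (Perm (Fin m))) (f : V K κ N) :
    ini m y h (rhA hK hB (embA K 0 h' g) f) = rhA hK hB' g (ini m y h f) :=
  mid_rhA hK hB m [] y (by simpa using h) rfl h' hB' g f

/-- projection to a final shape -/
def Pj {κ0 : Fin r → ℕ} {N : ℕ} (τ : Fin r → ℕ) : V K κ0 N →ₗ[K] V K κ0 N where
  toFun x := ⟨fun w => if sh κ0 w = τ then (x : List (Fin r) → K) w else 0, by
    intro w hw
    show (if sh κ0 w = τ then (x : List (Fin r) → K) w else 0) = 0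
    rw [x.2 w hw, ite_self]⟩
  map_add' x y := by
    apply Subtype.ext
    funext w
    show (if sh κ0 w = τ then ((x : List (Fin r) → K) w + (y : List (Fin r) → K) w) else 0)
      = (if sh κ0 w = τ then (x : List (Fin r) → K) w else 0)
        + (if sh κ0 w = τ then (y : List (Fin r) → K) w else 0)
    split_ifs
    · rfl
    · rw [add_zero]
  map_smul' c x := by
    apply Subtype.ext
    funext w
    show (if sh κ0 w = τ then (c * (x : List (Fin r) → K) w) else 0)
      = c * (if sh κ0 w = τ then (x : List (Fin r) → K) w else 0)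
    split_ifs
    · rfl
    · rw [mul_zero]

lemma Pj_coe {κ0 : Fin r → ℕ} {N : ℕ} (τ : Fin r → ℕ) (x : V K κ0 N) (w : List (Fin r)) :
    (Pj τ x : List (Fin r) → K) w = if sh κ0 w = τ then (x : List (Fin r) → K) w else 0 := rfl

lemma Pj_rh {B : ℕ} (hK : HK K B) {κ : Fin r → ℕ} {N : ℕ} (hB : Bd B κ N) (τ : Fin r → ℕ)
    (g : Perm (Fin N)) (f : V K κ N) : Pj τ (rh hK hB g f) = rh hK hB g (Pj τ f) := by
  induction g using gen_induction generalizing f with
  | h1 => simp
  | hs k g hk ih =>
    rw [map_mul, Module.End.mul_apply, Module.End.mul_apply, rh_s hK hB k hk, ← ih]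
    apply Subtype.ext
    funext w
    rw [Pj_coe, TV_coe, TV_coe, T_apply, T_apply, Pj_coe, Pj_coe, sh_sw]
    split_ifs
    · rfl
    · rw [mul_zero, mul_zero, add_zero]

lemma Pj_rhA {B : ℕ} (hK : HK K B) {κ : Fin r → ℕ} {N : ℕ} (hB : Bd B κ N) (τ : Fin r → ℕ)
    (g : MonoidAlgebra K (Perm (Fin N))) (f : V K κ N) :
    Pj τ (rhA hK hB g f) = rhA hK hB g (Pj τ f) := by
  induction g using alg_induction with
  | h0 => simp
  | ha g g' hg hg' => rw [map_add, LinearMap.add_apply, LinearMap.add_apply, map_add, hg, hg']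
  | hs g c => rw [rhA_single, LinearMap.smul_apply, LinearMap.smul_apply, map_smul, Pj_rh]

/-- append a strip -/
def Z (N1 N : ℕ) (κ τ : Fin r → ℕ) : V K (0 : Fin r → ℕ) N1 →ₗ[K] V K (0 : Fin r → ℕ) N where
  toFun x := ⟨fun w => if w.length = N ∧ sh 0 (w.take N1) = κ then
      (x : List (Fin r) → K) (w.take N1) * str K κ τ (w.drop N1) else 0, by
    intro w hw
    show (if w.length = N ∧ sh 0 (w.take N1) = κ then
      (x : List (Fin r) → K) (w.take N1) * str K κ τ (w.drop N1) else 0) = 0
    by_cases h1 : w.length = N ∧ sh 0 (w.take N1) = κ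
    · rw [if_pos h1]
      by_cases h2 : (x : List (Fin r) → K) (w.take N1) = 0
      · rw [h2, zero_mul]
      · have h3 : Lat 0 (w.take N1) := by
          by_contra hcon
          exact h2 (x.2 _ (fun h => hcon h.1))
        rw [str_zero, mul_zero]
        rintro ⟨h4, h5⟩
        apply hw
        refine ⟨?_, h1.1⟩
        have h6 := (lat_append 0 (w.take N1) (w.drop N1)).2 ⟨h3, by
          rw [h1.2]
          exact h4.lat h5⟩
        rwa [List.take_append_drop] at h6
    · exact if_neg h1⟩
  map_add' x y := by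
    apply Subtype.ext
    funext w
    show (if w.length = N ∧ sh 0 (w.take N1) = κ then
      ((x : List (Fin r) → K) (w.take N1) + (y : List (Fin r) → K) (w.take N1)) *
        str K κ τ (w.drop N1) else 0)
      = (if w.length = N ∧ sh 0 (w.take N1) = κ then
      (x : List (Fin r) → K) (w.take N1) * str K κ τ (w.drop N1) else 0) +
      (if w.length = N ∧ sh 0 (w.take N1) = κ then
      (y : List (Fin r) → K) (w.take N1) * str K κ τ (w.drop N1) else 0)
    split_ifs
    · rw [add_mul]
    · rw [add_zero]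
  map_smul' c x := by
    apply Subtype.ext
    funext w
    show (if w.length = N ∧ sh 0 (w.take N1) = κ then
      (c * (x : List (Fin r) → K) (w.take N1)) * str K κ τ (w.drop N1) else 0)
      = c * (if w.length = N ∧ sh 0 (w.take N1) = κ then
      (x : List (Fin r) → K) (w.take N1) * str K κ τ (w.drop N1) else 0)
    split_ifs
    · rw [mul_assoc]
    · rw [mul_zero]

lemma Z_coe (N1 N : ℕ) (κ τ : Fin r → ℕ) (x : V K (0 : Fin r → ℕ) N1) (w : List (Fin r)) :
    (Z N1 N κ τ x : List (Fin r) → K) w = if w.length = N ∧ sh 0 (w.take N1) = κ then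
      (x : List (Fin r) → K) (w.take N1) * str K κ τ (w.drop N1) else 0 := rfl

lemma Z_append (N1 N : ℕ) (κ τ : Fin r → ℕ) (x : V K (0 : Fin r → ℕ) N1) (u y : List (Fin r))
    (hu : u.length = N1) (huy : u.length + y.length = N) :
    (Z N1 N κ τ x : List (Fin r) → K) (u ++ y)
      = if sh 0 u = κ then (x : List (Fin r) → K) u * str K κ τ y else 0 := by
  rw [Z_coe, List.length_append, List.take_append_of_le_length hu.ge,
    List.drop_append_of_le_length hu.ge, List.take_of_length_le hu.le,
    List.drop_of_length_le hu.le, List.nil_append]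
  simp only [huy, true_and]

lemma Z_left {B : ℕ} (hK : HK K B) {N1 N : ℕ} (hB1 : Bd B (0 : Fin r → ℕ) N1)
    (hB : Bd B (0 : Fin r → ℕ) N) (h : 0 + N1 ≤ N) (κ τ : Fin r → ℕ) (g : Perm (Fin N1))
    (x : V K (0 : Fin r → ℕ) N1) :
    rh hK hB (emb 0 h g) (Z N1 N κ τ x) = Z N1 N κ τ (rh hK hB1 g x) := by
  apply Subtype.ext
  funext w
  by_cases hw : w.length = N
  swap
  · rw [(rh hK hB (emb 0 h g) (Z N1 N κ τ x)).2 w (fun h => hw h.2),
      (Z N1 N κ τ (rh hK hB1 g x)).2 w (fun h => hw h.2)]
  obtain ⟨u, y, rfl, hu⟩ : ∃ u y : List (Fin r), w = u ++ y ∧ u.length = N1 :=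
    ⟨w.take N1, w.drop N1, (List.take_append_drop _ _).symm, by rw [List.length_take]; omega⟩
  rw [List.length_append] at hw
  have hlen : N1 + y.length = N := by omega
  have h1 := ini_rh hK hB N1 y hlen h hB1 g (Z N1 N κ τ x)
  have h2 : ini N1 y hlen (Z N1 N κ τ x) = str K κ τ y • Pj κ x := by
    apply Subtype.ext
    funext u'
    by_cases hu' : u'.length = N1
    · rw [ini_coe, Z_append _ _ _ _ _ _ _ hu' (by omega)]
      show _ = str K κ τ y * (if sh 0 u' = κ then (x : List (Fin r) → K) u' else 0)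
      split_ifs
      · rw [mul_comm]
      · rw [mul_zero]
    · rw [(ini N1 y hlen (Z N1 N κ τ x)).2 u' (fun h => hu' h.2)]
      exact ((str K κ τ y • Pj κ x).2 u' (fun h => hu' h.2)).symm
  rw [h2, map_smul, ← Pj_rh] at h1
  have h3 := congrArg (fun f : V K (0 : Fin r → ℕ) N1 => (f : List (Fin r) → K) u) h1
  have h4 : (rh hK hB (emb 0 h g) (Z N1 N κ τ x) : List (Fin r) → K) (u ++ y)
      = str K κ τ y * (Pj κ (rh hK hB1 g x) : List (Fin r) → K) u := h3
  rw [h4, Z_append _ _ _ _ _ _ _ hu hw, Pj_coe]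
  split_ifs
  · rw [mul_comm]
  · rw [mul_zero]

lemma Z_leftA {B : ℕ} (hK : HK K B) {N1 N : ℕ} (hB1 : Bd B (0 : Fin r → ℕ) N1)
    (hB : Bd B (0 : Fin r → ℕ) N) (h : 0 + N1 ≤ N) (κ τ : Fin r → ℕ)
    (g : MonoidAlgebra K (Perm (Fin N1))) (x : V K (0 : Fin r → ℕ) N1) :
    rhA hK hB (embA K 0 h g) (Z N1 N κ τ x) = Z N1 N κ τ (rhA hK hB1 g x) := by
  induction g using alg_induction with
  | h0 => simp
  | ha g g' hg hg' => rw [map_add, map_add, map_add, LinearMap.add_apply, LinearMap.add_apply,
      map_add, hg, hg']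
  | hs g c => rw [embA_single, rhA_single, rhA_single, LinearMap.smul_apply,
      LinearMap.smul_apply, map_smul, Z_left hK hB1]

lemma Z_right {B : ℕ} (hK : HK K B) {N1 a N : ℕ} 
    (hB : Bd B (0 : Fin r → ℕ) N) (h : N1 + a ≤ N) (h' : N1 + a = N) (κ τ : Fin r → ℕ)
    (g : Perm (Fin a)) (x : V K (0 : Fin r → ℕ) N1) :
    rh hK hB (emb N1 h g) (Z N1 N κ τ x) = Z N1 N κ τ x := by
  apply Subtype.ext
  funext w
  by_cases hw : w.length = N
  swap
  · rw [(rh hK hB (emb N1 h g) (Z N1 N κ τ x)).2 w (fun h => hw h.2),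
      (Z N1 N κ τ x).2 w (fun h => hw h.2)]
  obtain ⟨u, y, rfl, hu⟩ : ∃ u y : List (Fin r), w = u ++ y ∧ u.length = N1 :=
    ⟨w.take N1, w.drop N1, (List.take_append_drop _ _).symm, by rw [List.length_take]; omega⟩
  rw [List.length_append] at hw
  have hlen : u.length + a + ([] : List (Fin r)).length = N := by
    simp only [List.length_nil]
    omega
  have hBu : Bd B (sh 0 u) a := Bd.mid hB (by omega)
  subst hu
  have h1 := mid_rh hK hB a u [] hlen h hBu g (Z u.length N κ τ x)
  have h2 : rh hK hBu g (mid a u [] hlen (Z u.length N κ τ x))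
      = mid a u [] hlen (Z u.length N κ τ x) := by
    apply rh_fixed
    intro i w
    rw [mid_coe, mid_coe, List.append_nil, List.append_nil, Z_coe, Z_coe, List.length_append,
      List.length_append, length_sw, List.take_left, List.take_left, List.drop_left,
      List.drop_left, str_sw]
  rw [h2] at h1
  have h3 := congrArg (fun f : V K (sh 0 u) a => (f : List (Fin r) → K) y) h1
  have h4 : (rh hK hB (emb u.length h g) (Z u.length N κ τ x) : List (Fin r) → K)
      (u ++ (y ++ [])) = (Z u.length N κ τ x : List (Fin r) → K) (u ++ (y ++ [])) := h3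
  rwa [List.append_nil] at h4

/-! ### the range of `E` -/

/-- `x` is the row symmetrisation of a column invariant vector -/
def InX {B : ℕ} (hK : HK K B) (a b : ℕ) (hB : Bd B (0 : Fin r → ℕ) (a * b))
    (x : V K (0 : Fin r → ℕ) (a * b)) : Prop :=
  ∃ y : V K (0 : Fin r → ℕ) (a * b), (∀ g ∈ colSub (eE a b), rh hK hB g y = y) ∧
    rhA hK hB (ysum K (rowSub (eE a b))) y = x

lemma single_fix {B : ℕ} (hK : HK K B) {κ : Fin r → ℕ} {N : ℕ} (hB : Bd B κ N)
    (g : Perm (Fin N)) (f : V K κ N) :
    rhA hK hB (MonoidAlgebra.single g 1) f = rh hK hB g f := by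
  rw [rhA_single, one_smul]

lemma row_zero (a : ℕ) : ysum K (rowSub (eE a 0)) = 1 := by
  have h0 : IsEmpty (Fin (a * 0)) := by rw [Nat.mul_zero]; infer_instance
  have h5 : ∀ g : Perm (Fin (a * 0)), g = 1 := fun g => Subsingleton.elim _ _
  unfold ysum
  rw [Fintype.sum_eq_single (1 : Perm (Fin (a * 0))) (fun g hg => absurd (h5 g) hg),
    if_pos (Subgroup.one_mem _)]
  rfl

lemma row_one (a : ℕ) : ysum K (rowSub (eE a 1)) = 1 := by
  classical
  have h5 : ∀ g : Perm (Fin (a * 1)), g ∈ rowSub (eE a 1) → g = 1 := by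
    intro g hg
    rw [mem_row] at hg
    ext x
    have := hg x
    rw [Nat.div_one, Nat.div_one] at this
    rw [this, Perm.one_apply]
  unfold ysum
  rw [Fintype.sum_eq_single (1 : Perm (Fin (a * 1))) (fun g hg => if_neg (fun h => hg (h5 g h))),
    if_pos (Subgroup.one_mem _)]
  rfl

lemma G_zero : ∀ a : ℕ, G K a 0 = MonoidAlgebra.single (dist a 0) 1
  | 0 => rfl
  | a + 1 => by
    have h1 : csum K (0 + 1 + a) 0 = 1 := by
      unfold csum
      simp [cycP]
      rfl
    rw [G, dist, G_zero a, loc, h1, mul_one, embA_single, embA_single,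
      MonoidAlgebra.single_mul_single, mul_one]

lemma G_row' (a b : ℕ) :
    G K a b * embA K 0 (hM a b) (ysum K (rowSub (eE a b)))
      = ysum K (rowSub (eE a (b + 1))) * MonoidAlgebra.single (dist a b) 1 := by
  rcases Nat.eq_zero_or_pos b with rfl | hb
  · rw [row_zero, row_one, map_one, mul_one, one_mul, G_zero]
  · exact G_row b hb a

lemma hS (a b : ℕ) : a * b + a = a * (b + 1) := by ring

lemma bd_mono {B : ℕ} {κ : Fin r → ℕ} {m n : ℕ} (h : m ≤ n) (hB : Bd B κ n) : Bd B κ m := by
  intro a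
  have := hB a
  omega

/-- the column insertion preserves the range -/
theorem InX.step {B : ℕ} (hK : HK K B) (a b : ℕ) (hB : Bd B (0 : Fin r → ℕ) (a * b))
    (hB' : Bd B (0 : Fin r → ℕ) (a * (b + 1))) (κ τ : Fin r → ℕ)
    {x : V K (0 : Fin r → ℕ) (a * b)} (hx : InX hK a b hB x) :
    InX hK a (b + 1) hB' (rhA hK hB' (G K a b) (Z (a * b) (a * (b + 1)) κ τ x)) := by
  obtain ⟨y, hy, rfl⟩ := hx
  refine ⟨rh hK hB' (dist a b) (Z (a * b) (a * (b + 1)) κ τ y), ?_, ?_⟩
  · intro g hg
    -- conjugate by `dist`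
    set g' : Perm (Fin (a * (b + 1))) := (dist a b)⁻¹ * g * dist a b with hg'
    have hcol : ∀ x : Fin (a * (b + 1)), (dist a b (g' x) : ℕ) % (b + 1)
        = (dist a b x : ℕ) % (b + 1) := by
      intro x
      have h1 : dist a b (g' x) = g (dist a b x) := by
        rw [hg', Perm.mul_apply, Perm.mul_apply, pai]
      rw [h1]
      exact mem_col.1 hg _
    have hlt : ∀ x : Fin (a * (b + 1)), (x : ℕ) < a * b → (g' x : ℕ) < a * b := by
      intro x hx
      by_contra hcon
      have h1 := hcol x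
      rw [dist_col, dist_col, if_neg hcon, if_pos hx] at h1
      have hb : 0 < b := by
        rcases Nat.eq_zero_or_pos b with rfl | hb
        · simp at hx
        · exact hb
      have := Nat.mod_lt (x : ℕ) hb
      omega
    obtain ⟨g1, g2, h12⟩ := split (hS a b) g' hlt
    have hg1 : g1 ∈ colSub (eE a b) := by
      rw [mem_col]
      intro i
      have h1 := hcol (embF 0 (hM a b) i)
      have h2 := hlt (embF 0 (hM a b) i) (by rw [embF_val, zero_add]; exact i.2)
      rw [dist_col, dist_col, if_pos h2, if_pos (by rw [embF_val, zero_add]; exact i.2), h12,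
        Perm.mul_apply, emb_out (a * b) _ _ _ (by
          left
          rw [embF_val, zero_add]; exact i.2), emb_in, embF_val, embF_val, zero_add,
        zero_add] at h1
      exact h1
    have h3 : rh hK hB' g' (Z (a * b) (a * (b + 1)) κ τ y) = Z (a * b) (a * (b + 1)) κ τ y := by
      rw [h12, map_mul, Module.End.mul_apply, Z_right hK hB' _ (hS a b), Z_left hK hB, hy g1 hg1]
    have h4 : g * dist a b = dist a b * g' := by
      rw [hg']
      group
    rw [← Module.End.mul_apply, ← map_mul, h4, map_mul, Module.End.mul_apply, h3]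
  · have h1 := congrArg (fun A => rhA hK hB' A (Z (a * b) (a * (b + 1)) κ τ y)) (G_row' a b (K := K))
    simp only [map_mul, Module.End.mul_apply] at h1
    rw [Z_leftA hK hB hB' (hM a b), single_fix] at h1
    exact h1.symm

/-- column sum on column-invariant vectors -/
lemma ysum_fixed {B : ℕ} (hK : HK K B) {κ : Fin r → ℕ} {N : ℕ} (hB : Bd B κ N)
    (H : Subgroup (Perm (Fin N))) (y : V K κ N) (hy : ∀ g ∈ H, rh hK hB g y = y) :
    rhA hK hB (ysum K H) y = (Nat.card H : K) • y := by
  classical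
  unfold ysum
  rw [← Finset.sum_filter, map_sum, LinearMap.sum_apply]
  rw [Finset.sum_congr rfl (g := fun _ => y) (fun g hg => by
    rw [Finset.mem_filter] at hg
    rw [single_fix, hy g hg.2])]
  rw [Finset.sum_const, Nat.card_eq_fintype_card, Fintype.card_subtype, Nat.cast_smul_eq_nsmul]

lemma card_col {X : Type*} [Fintype X] [DecidableEq X] {a b : ℕ} (e : Fin a × Fin b ≃ X) :
    Nat.card (colSub e) = a.factorial ^ b := by
  classical
  have h1 := sum_col e (fun _ => (1 : Crest.Agent.R187.SA a a))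
  rw [Finset.sum_const, Finset.sum_const, nsmul_eq_mul, nsmul_eq_mul, mul_one, mul_one,
    Nat.cast_inj, Finset.card_univ, Fintype.card_fun, Fintype.card_perm, Fintype.card_fin,
    Fintype.card_fin] at h1
  rw [Nat.card_eq_fintype_card, Fintype.card_subtype, h1]

/-- **membership in the range of `ρ(E)`** -/
theorem inX_iff {B : ℕ} (hK : HK K B) (a b : ℕ) (hB : Bd B (0 : Fin r → ℕ) (a * b))
    (ha : (a.factorial : K) ≠ 0) (x : V K (0 : Fin r → ℕ) (a * b)) :
    InX hK a b hB x ↔ x ∈ LinearMap.range (rhA hK hB (E K (eE a b))) := by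
  constructor
  · rintro ⟨y, hy, rfl⟩
    have h1 := ysum_fixed hK hB (colSub (eE a b)) y hy
    have h2 : (Nat.card (colSub (eE a b)) : K) ≠ 0 := by
      rw [card_col, Nat.cast_pow]
      exact pow_ne_zero _ ha
    refine ⟨(Nat.card (colSub (eE a b)) : K)⁻¹ • y, ?_⟩
    rw [E, map_mul, Module.End.mul_apply, map_smul, h1, smul_smul, inv_mul_cancel₀ h2, one_smul]
  · rintro ⟨z, rfl⟩
    refine ⟨rhA hK hB (ysum K (colSub (eE a b))) z, ?_, ?_⟩
    · intro g hg
      rw [← single_fix, ← Module.End.mul_apply, ← map_mul, single_mul_ysum hg]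
    · rw [E, map_mul, Module.End.mul_apply]

/-- vectors in the range are invariant under row permutations -/
theorem InX.row_inv {B : ℕ} (hK : HK K B) (a b : ℕ) (hB : Bd B (0 : Fin r → ℕ) (a * b))
    {x : V K (0 : Fin r → ℕ) (a * b)} (hx : InX hK a b hB x) (g : Perm (Fin (a * b)))
    (hg : g ∈ rowSub (eE a b)) : rh hK hB g x = x := by
  obtain ⟨y, hy, rfl⟩ := hx
  rw [← single_fix, ← Module.End.mul_apply, ← map_mul, single_mul_ysum hg]

/-- the base case: no columns -/
theorem InX.base {B : ℕ} (hK : HK K B) (a : ℕ) (hB : Bd B (0 : Fin r → ℕ) (a * 0))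
    (x : V K (0 : Fin r → ℕ) (a * 0)) : InX hK a 0 hB x := by
  refine ⟨x, ?_, ?_⟩
  · intro g hg
    have h0 : IsEmpty (Fin (a * 0)) := by rw [Nat.mul_zero]; infer_instance
    have h5 : g = 1 := Subsingleton.elim _ _
    rw [h5, map_one]
    rfl
  · rw [row_zero, map_one]
    rfl

end Crest.Agent.R187.SN.Ins
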