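import Crest.Agent.R187.SN.IotaDef

/-!
# Row 187, PLAN S, block (C4): valid chains, `D ≤ VCs`, injectivity of `iota`
-/

set_option autoImplicit false

namespace Crest.Agent.R187.SN.Iota

open Crest.Agent.R187.SN Gauge

variable {K : Type*} [Field K]

lemma HS_zero {κ lam : Spec.Sh} (h : Spec.HS κ lam 0) : κ = lam := by
  funext i
  by_contra hne
  have hlt : κ i < lam i := lt_of_le_of_ne (h.1 i) hne
  have h1 := Finset.sum_lt_sum (fun j _ => h.1 j) ⟨i, Finset.mem_univ i, hlt⟩
  rw [h.2.2] at h1
  omega

lemma HS_zero' (κ : Spec.Sh) (h : Antitone κ) : Spec.HS κ κ 0 :=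
  ⟨fun _ => le_rfl, fun _ _ hij => h hij.le, rfl⟩

lemma HS_Hz {κ lam : Spec.Sh} {m : ℕ} (h : Spec.HS κ lam m) : Ins.Hz κ lam := ⟨h.1, h.2.1⟩

lemma HS_antitone {κ lam : Spec.Sh} {m : ℕ} (h : Spec.HS κ lam m) : Antitone κ :=
  (HS_Hz h).anti

/-- `Mop` preserves valid chains -/
lemma VC.Mop (b : ℕ) (a : ℕ) : ∀ (κ lam : Spec.Sh) (x : List Spec.Sh → K), Spec.HS κ lam a →
    VC K a b κ x → VC K a (b + 1) lam (Spec.Mop K (b + 1) a κ lam x) := by
  induction a with
  | zero =>
    intro κ lam x h hx
    have e := HS_zero h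
    subst e
    exact hx
  | succ a ih =>
    intro κ lam x _ hx
    refine ⟨rfl, fun lam' => ⟨?_, fun hl l => ?_⟩⟩
    · by_cases hl : Spec.HS lam' lam (b + 1)
      · have e : (fun l => Spec.Mop K (b + 1) (a + 1) κ lam x (lam' :: l))
            = ∑ κ' ∈ Spec.below lam', if Spec.HS κ' lam' a then
              Spec.Fc K κ κ' lam lam' • Spec.Mop K (b + 1) a κ' lam' (fun m => x (κ' :: m))
              else 0 := by
          funext l
          rw [Finset.sum_apply]
          simp only [Spec.Mop, if_pos hl]
          refine Finset.sum_congr rfl fun κ' _ => ?_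
          split_ifs <;> simp
        rw [e, ← mem_VCs]
        refine Submodule.sum_mem _ fun κ' _ => ?_
        split_ifs with h1
        · exact Submodule.smul_mem _ _ (mem_VCs.2 (ih κ' lam' _ h1 (hx.2 κ').1))
        · exact Submodule.zero_mem _
      · have e : (fun l => Spec.Mop K (b + 1) (a + 1) κ lam x (lam' :: l)) = 0 := by
          funext l
          simp only [Spec.Mop, if_neg hl, Pi.zero_apply]
        rw [e]
        exact VC.zero _ _ _
    · simp only [Spec.Mop, if_neg hl]

lemma VC_x0 (a : ℕ) : VC K a 0 0 (Spec.x0 K a) := by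
  induction a with
  | zero =>
    refine ⟨fun h => absurd rfl h, fun l hl => ?_⟩
    unfold Spec.x0
    rw [if_neg]
    simpa using hl
  | succ a ih =>
    refine ⟨?_, fun κ => ?_⟩
    · unfold Spec.x0
      rw [if_neg]
      simp
    · by_cases hκ : κ = 0
      · subst hκ
        refine ⟨?_, fun h => absurd (HS_zero' 0 (fun _ _ _ => le_rfl)) h⟩
        have e : (fun l => Spec.x0 K (a + 1) ((0 : Spec.Sh) :: l)) = Spec.x0 K a := by
          funext l
          simp [Spec.x0, List.replicate_succ]
        rw [e]
        exact ih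
      · have e : ∀ l, Spec.x0 K (a + 1) (κ :: l) = 0 := by
          intro l
          simp [Spec.x0, List.replicate_succ, hκ]
        refine ⟨?_, fun _ l => e l⟩
        have e' : (fun l => Spec.x0 K (a + 1) (κ :: l)) = 0 := funext e
        rw [e']
        exact VC.zero _ _ _

/-- the computed spaces consist of functions supported on valid chains -/
theorem D_le (a b : ℕ) : ∀ lam : Spec.Sh, Spec.D K a b lam ≤ VCs a b lam := by
  induction b with
  | zero =>
    intro lam
    unfold Spec.D
    split_ifs with h
    · subst h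
      rw [Submodule.span_le, Set.singleton_subset_iff]
      exact VC_x0 a
    · exact bot_le
  | succ b ih =>
    intro lam
    rw [Spec.D, Submodule.span_le]
    rintro y ⟨κ, h, x, hx, rfl⟩
    exact VC.Mop b a κ lam x h (ih κ hx)

/-- **injectivity** -/
theorem iota_inj {B : ℕ} (hK : HK K B) (b : ℕ) (a : ℕ) : ∀ (lam : Spec.Sh)
    (_ : Antitone lam) (_ : ∀ i, lam i + 6 ≤ B) (x : List Spec.Sh → K) (_ : VC K a b lam x)
    (_ : iota K a b lam x = 0), x = 0 := by
  induction a with
  | zero =>
    intro lam hl hB x hx h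
    funext l
    by_cases hnil : l = []
    · subst hnil
      by_cases h0 : lam = 0
      · have := congrFun h []
        simpa [iota, h0] using this
      · exact hx.1 h0
    · exact hx.2 l hnil
  | succ a ih =>
    intro lam hl hB x hx h
    funext l
    rcases l with _ | ⟨κ, l⟩
    · exact hx.1
    by_cases hH : Spec.HS κ lam b
    · have hκ : Antitone κ := HS_antitone hH
      have hBκ : ∀ i, κ i + 6 ≤ B := fun i => by
        have := hH.1 i
        have := hB i
        omega
      have h1 : iota K a b κ (fun l => x (κ :: l)) = 0 := by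
        funext w
        by_contra hne
        obtain ⟨w1, w2, w3⟩ := iota_supp a b κ _ w hne
        subst w3
        have hs : sh (sh 0 w) (Ins.srt (sh 0 w) lam) = lam := Ins.sh_srt hH.1
        have hLv : Lat (sh 0 w) (Ins.srt (sh 0 w) lam) := (HS_Hz hH).lat hs
        have hlen : (Ins.srt (sh 0 w) lam).length = b := by
          have e1 := Ins.sum_sh (sh 0 w) (Ins.srt (sh 0 w) lam)
          rw [hs, hH.2.2] at e1
          omega
        have e := iota_append (K := K) a b lam x w (Ins.srt (sh 0 w) lam) w2
          ((lat_append _ _ _).2 ⟨w1, hLv⟩) hlen (by rw [sh_append, hs]) hH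
        rw [h] at e
        have e2 : Gauge.G K lam (sh 0 w) * iota K a b (sh 0 w) (fun l => x (sh 0 w :: l)) w = 0 :=
          e.symm
        rcases mul_eq_zero.1 e2 with h3 | h3
        · exact G_ne hK hl hB hBκ h3
        · exact hne h3
      have := ih κ hκ hBκ _ (hx.2 κ).1 h1
      exact congrFun this l
    · exact (hx.2 κ).2 hH l

end Crest.Agent.R187.SN.Iota
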