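import Crest.Agent.R187.SN.KRel

/-!
# Row 187, PLAN S, block E2: factorised kernel check of the relations of one level

`sc l k m` computes `psi (sh7 l) (sh7 k) (sh7 m)`, `hs k l = hsk k l`, `gb l m = geb H5 (low l) (low m)`
(parameters, so that faster implementations can be plugged in).
-/

set_option autoImplicit false

namespace Crest.Agent.R187.SN.KRel

open Crest.Agent.R187.SN Crest.Agent.R187.SN.Spec Crest.Agent.R187.SN.Kern
open Crest.Agent.R187.SN.Gen Crest.Agent.R187.SN.Img Crest.Agent.R187.SN.KKey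
open Crest.Agent.R187.SN.KD

/-- evaluate `n` before `f n` -/
def frc {α : Type} (f : ℕ → α) (n : ℕ) : α :=
  Nat.rec (motive := fun _ => α) (f 0) (fun m _ => f (Nat.succ m)) n

theorem frc_eq {α : Type} (f : ℕ → α) (n : ℕ) : frc f n = f n := by
  cases n <;> rfl

/-- reduction of a global matrix (`tot` rows, `c` columns) -/
def rd (tot c x : ℕ) : ℕ := red 7 (blk 24 33 tot c 127) (blk 24 33 tot c 131071) x

/-- `∑_μ psi(l; κ, μ) V(μ)ᵀ N(κ, μ)ᵀ`, unreduced -/
def LhF (sc : ℕ → ℕ → ℕ → ℕ) (gb : ℕ → ℕ → Bool) (tot : ℕ) (vt1 : ℕ → ℕ) (nb : ℕ → IE → ℕ)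
    (c : IE) (D : List IE) (l : ℕ) : ℕ :=
  sumL (fun e => gb l (IE.key e))
    (fun e => Nat.mul (sc l (IE.key c) (IE.key e)) (Cp tot vt1 nb c e)) D

/-- `∑_κ' psi(l; κ', l) N(κ')ᵀ V(κ, κ')ᵀ`, unreduced -/
def RhF (sc : ℕ → ℕ → ℕ → ℕ) (tot : ℕ) (vt0 ng : ℕ → ℕ) (c : IE) (A : List IE) (l : ℕ) : ℕ :=
  sumL (fun _ => true) (fun e => Nat.mul (sc l (IE.key e) l) (Pp tot vt0 ng c e)) A

/-- mask with 17-bit slots -/
def M17 : ℕ := blk 24 33 33 33 131071

/-- all slots are divisible by `127` -/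
def zf (x : ℕ) : Bool :=
  and (Nat.beq (Nat.mul 127 (Nat.div x 127)) x)
    (Nat.beq (Nat.land (Nat.div x 127) M17) (Nat.div x 127))

/-- the factorised check for one source `c` -/
def chkF (sc : ℕ → ℕ → ℕ → ℕ) (hs gb : ℕ → ℕ → Bool) (tot n : ℕ) (LA LB LD : List IE)
    (vt0 vt1 ng : ℕ → ℕ) (nb : ℕ → IE → ℕ) (c : IE) : Bool :=
  (fun (A B D : List IE) =>
    allS (IE.key c) n (frc (fun l =>
      (fun L R => allL (fun e' => Bool.rec true
        (zf (Nat.add (Nat.mul (sc l (IE.key e') l) (blkR L e')) (blkR R e')))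
        (hs (IE.key e') l)) B)
      (rd tot (IE.m c) (LhF sc gb tot vt1 nb c D l))
      (rd tot (IE.m c) (RhF sc tot vt0 ng c A l)))))
    (filL (fun e => hs (IE.key e) (IE.key c)) LA)
    (filL (fun e => compat (IE.key c) (IE.key e)) LB)
    (filL (fun e => hs (IE.key c) (IE.key e)) LD)

/-- support check of the `N` table of one source `κ'` (entry `e`) -/
def suppN (LB : List IE) (ng : ℕ → ℕ) (e : IE) : Bool :=
  allL (fun e' => Bool.rec (Nat.beq (blkR (ng (IE.key e)) e') 0) true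
    (hsk (IE.key e) (IE.key e'))) LB

/-- the slow scalar -/
def sc0 (l k m : ℕ) : ℕ := pcL (gt l) (cl k m)

theorem slot_zf {x : ℕ} (h : zf x = true) (n : ℕ) : ((slot 24 x n : ℕ) : ZMod 127) = 0 := by
  unfold zf at h
  rw [Bool.and_eq_true] at h
  have h1 : Nat.mul 127 (Nat.div x 127) = x := Nat.eq_of_beq_eq_true h.1
  have h2 : Nat.land (Nat.div x 127) M17 = Nat.div x 127 := Nat.eq_of_beq_eq_true h.2
  have h3 : ∀ n, slot 24 (Nat.div x 127) n ≤ 131071 := by
    intro n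
    rw [← h2, slot_land]
    have h4 : slot 24 M17 n ≤ 131071 := by
      unfold M17
      rw [slot_blk (by norm_num) (by norm_num) le_rfl (by norm_num)]
      split_ifs <;> norm_num
    have h5 : Nat.land (slot 24 (Nat.div x 127) n) (slot 24 M17 n) ≤ slot 24 M17 n :=
      Nat.and_le_right
    exact h5.trans h4
  rw [← h1, slot_smul (by norm_num) (fun j => by have := h3 j; omega), Nat.cast_mul]
  have : ((127 : ℕ) : ZMod 127) = 0 := ZMod.natCast_self 127
  rw [this, zero_mul]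

end Crest.Agent.R187.SN.KRel
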