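import Crest.Agent.R187.SN.KRel

/-!
# Row 187, PLAN S, block E2: soundness of the relation check
-/

set_option autoImplicit false

namespace Crest.Agent.R187.SN.KRel

open Crest.Agent.R187.SN Crest.Agent.R187.SN.Spec Crest.Agent.R187.SN.Kern
open Crest.Agent.R187.SN.Gen Crest.Agent.R187.SN.Img Crest.Agent.R187.SN.KKey
open Crest.Agent.R187.SN.KD

/-! ### soundness -/

theorem sum_filter_map {M : Type*} [AddCommMonoid M] (P : IE → Bool) (g : IE → M) (L : List IE) :
    ((L.filter P).map g).sum = (L.map (fun e => if P e = true then g e else 0)).sum := by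
  induction L with
  | nil => simp
  | cons e L ih =>
    rw [List.filter_cons, List.map_cons, List.sum_cons, ← ih]
    cases hP : P e <;> simp

theorem cast_list_sum (L : List IE) (g : IE → ℕ) :
    (((L.map g).sum : ℕ) : ZMod 127) = (L.map (fun e => (g e : ZMod 127))).sum := by
  induction L with
  | nil => simp
  | cons e L ih => rw [List.map_cons, List.sum_cons, Nat.cast_add, ih, List.map_cons,
      List.sum_cons]

/-- entry of a packed product -/
theorem cast_mul_slot {r c K A B : ℕ} (hc : c ≤ 33) (hK : K ≤ 33)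
    (hA : ∀ n, slot 24 A n < 128) (hB : ∀ n, slot 24 B n < 128) {g i : ℕ} (hg : g < r)
    (hi : i < c) : ((slot 24 (mul 24 7 33 r c A B K) (33 * g + i) : ℕ) : ZMod 127)
      = ∑ q ∈ Finset.range K, (slot 24 A (33 * g + q) : ZMod 127) * (slot 24 B (33 * q + i)) := by
  have h := mat_mul (r := r) (K := K) par127 (S := 33) (by norm_num) hc
    (by calc K * 2 ^ (2 * 7) ≤ 33 * 2 ^ (2 * 7) := Nat.mul_le_mul_right _ hK
          _ ≤ 2 ^ 24 := by norm_num) (A := A) (B := B) hA hB
  have h1 := congrFun (congrFun h ⟨g, hg⟩) ⟨i, hi⟩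
  rw [Matrix.mul_apply] at h1
  rw [← Fin.sum_univ_eq_sum_range (fun q => (slot 24 A (33 * g + q) : ZMod 127)
    * (slot 24 B (33 * q + i)))]
  exact h1

theorem slot_mul_lt {r c K A B : ℕ} (hc : c ≤ 33) (n : ℕ) :
    slot 24 (mul 24 7 33 r c A B K) n < 128 :=
  (good_mul par127 (by norm_num) hc A B K n).1

theorem slot_scal {t x : ℕ} (ht : t < 127) (hx : ∀ n, slot 24 x n < 128) (n : ℕ) :
    slot 24 (Nat.mul t x) n = t * slot 24 x n ∧ slot 24 (Nat.mul t x) n ≤ 16256 := by
  have h : ∀ n, t * slot 24 x n ≤ 16256 := by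
    intro n
    have h1 := hx n
    calc t * slot 24 x n ≤ 126 * 127 := Nat.mul_le_mul (by omega) (by omega)
      _ ≤ 16256 := by norm_num
  have h2 : slot 24 (Nat.mul t x) n = t * slot 24 x n :=
    slot_smul (by norm_num) (fun j => lt_of_le_of_lt (h j) (by norm_num))
  exact ⟨h2, by rw [h2]; exact h n⟩

theorem zt_sound {m c x : ℕ} (hc : c ≤ 33) (h : zt m c x = true) {j i : ℕ} (hj : j < m)
    (hi : i < c) : (slot 24 x (33 * j + i) : ZMod 127) = 0 := by
  have h1 := mat_isZero (p := 127) (W := 24) (k := 7) (S := 33) (by norm_num) (by norm_num)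
    (by norm_num) hc h
  have h2 := mat_red (r := m) par127 (S := 33) (by norm_num) hc x
  have e1 : (2 : ℕ) ^ 7 - 1 = 127 := by norm_num
  have e2 : (2 : ℕ) ^ (24 - 7) - 1 = 131071 := by norm_num
  rw [e1, e2] at h2
  rw [h2] at h1
  exact congrFun (congrFun h1 ⟨j, hj⟩) ⟨i, hi⟩

theorem le42 {s : ℕ} (hs : s ≤ 42) {lam : Sh} (h : ∑ i, lam i = s) (i : Fin 6) : lam i ≤ 42 :=
  (Finset.single_le_sum (f := lam) (fun _ _ => Nat.zero_le _) (Finset.mem_univ i)).trans
    (h.le.trans hs)

theorem beq_of {x y : ℕ} (h : Nat.beq x y = true) : x = y := Nat.eq_of_beq_eq_true h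

theorem chkK_unfold {tot n : ℕ} {LA LB LD : List IE} {vt0 vt1 ng : ℕ → ℕ} {nb : ℕ → IE → ℕ}
    {c : IE} (h : chkK tot n LA LB LD vt0 vt1 ng nb c = true) :
    allS (IE.key c) n (fun l =>
      allL (fun e' => impb (hsk (IE.key e') l)
        (zt (IE.m e') (IE.m c) (Nat.add (blkR (Lh tot vt1 nb c
          (filL (fun e => hsk (IE.key c) (IE.key e)) LD) l) e') (Rh tot vt0 ng c
          (filL (fun e => hsk (IE.key e) (IE.key c)) LA) l e'))))
        (filL (fun e => compat (IE.key c) (IE.key e)) LB)) = true := h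

theorem chkK_at {tot n : ℕ} {LA LB LD : List IE} {vt0 vt1 ng : ℕ → ℕ} {nb : ℕ → IE → ℕ}
    {c : IE} (h : chkK tot n LA LB LD vt0 vt1 ng nb c = true) (hc : Val c.key) {lam : Sh}
    (hlam : HS (sh7 c.key) lam n) {e' : IE}
    (he' : e' ∈ filL (fun e => compat (IE.key c) (IE.key e)) LB)
    (h3 : hsk e'.key (ky lam) = true) :
    zt (IE.m e') (IE.m c) (Nat.add (blkR (Lh tot vt1 nb c
          (filL (fun e => hsk (IE.key c) (IE.key e)) LD) (ky lam)) e') (Rh tot vt0 ng c
          (filL (fun e => hsk (IE.key e) (IE.key c)) LA) (ky lam) e')) = true := by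
  have h1 := allS_spec hc (chkK_unfold h) hlam
  have h2 := (allL_iff _ _).1 h1 e' he'
  exact impb_get h2 h3

/-- data of one level step -/
structure Step (a b tA tot tC tD : ℕ) (LA LB LC LD : List IE) (vt0 vt1 ng : ℕ → ℕ)
    (nb : ℕ → IE → ℕ) : Prop where
  hA : IxOK (a * b) tA LA
  hB : IxOK (a * (b + 1)) tot LB
  hC : IxOK ((a + 1) * b) tC LC
  hD : IxOK ((a + 1) * (b + 1)) tD LD
  h42 : (a + 1) * (b + 1) ≤ 42
  hlen : LA.length + LD.length ≤ 1024
  hv0 : ∀ x n, slot 24 (vt0 x) n < 128
  hv1 : ∀ x n, slot 24 (vt1 x) n < 128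
  hng : ∀ x n, slot 24 (ng x) n < 128
  hnb : ∀ x e n, slot 24 (nb x e) n < 128
  hsupp : ∀ e ∈ LD, suppb LB vt1 e = true

theorem supp_sound {LB : List IE} {vt1 : ℕ → ℕ} {e e' : IE} (h : suppb LB vt1 e = true)
    (he' : e' ∈ LB) (hn : hsk e'.key e.key = false) {j q : ℕ} (hj : j < e'.m) (hq : q < 33) :
    slot 24 (vt1 e.key) (33 * (e'.off + j) + q) = 0 := by
  unfold suppb at h
  rw [allL_iff] at h
  have h1 := h e' he'
  have h2 : blkR (vt1 e.key) e' = 0 := beq_of (orb_get h1 hn)
  rw [← slot_blkR _ _ hj hq, h2]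
  exact slot_zero _ _

theorem chk_sound {a b tA tot tC tD : ℕ} {LA LB LC LD : List IE} {vt0 vt1 ng : ℕ → ℕ}
    {nb : ℕ → IE → ℕ} (S : Step a b tA tot tC tD LA LB LC LD vt0 vt1 ng nb) {c : IE}
    (hc : c ∈ LC) (hchk : chkK tot (a + 1) LA LB LD vt0 vt1 ng nb c = true)
    {lam : Sh} (hlam : HS (sh7 c.key) lam (a + 1)) {e' : IE} (he' : e' ∈ LB)
    (hlam' : HS (sh7 e'.key) lam (b + 1)) {i j : ℕ} (hi : i < c.m) (hj : j < e'.m) :
    (LD.map (fun e => if InBox (sh7 c.key) lam (sh7 e.key) (a + 1) then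
        psi (ZMod 127) lam (sh7 c.key) (sh7 e.key) * ∑ q ∈ Finset.range e.m,
          (slot 24 (nb c.key e) (33 * q + i) : ZMod 127) *
          (if HS (sh7 e'.key) (sh7 e.key) (b + 1) then
            (slot 24 (vt1 e.key) (33 * (e'.off + j) + q) : ZMod 127) else 0) else 0)).sum
      = - (LA.map (fun e => if HS (sh7 e.key) (sh7 e'.key) a then
        pc (ZMod 127) lam (sh7 e.key) (sh7 e'.key) * ∑ l ∈ Finset.range e.m,
          (if HS (sh7 e.key) (sh7 c.key) b then
            (slot 24 (vt0 c.key) (33 * (e.off + l) + i) : ZMod 127) else 0) *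
          (slot 24 (ng e.key) (33 * (e'.off + j) + l) : ZMod 127) else 0)).sum := by
  have hcv := S.hC.val c hc
  have hcs := S.hC.sum c hc
  have hc33 := S.hC.le33 c hc
  have he'v := S.hB.val e' he'
  have he's := S.hB.sum e' he'
  have hls : ∑ i, lam i = (a + 1) * (b + 1) := by rw [hlam.2.2, hcs]; ring
  have hl42 : ∀ i, lam i ≤ 42 := le42 S.h42 hls
  have hl64 : ∀ i, lam i < 64 := fun i => (hl42 i).trans_lt (by norm_num)
  set l := ky lam with hl
  have hlv : Val l := val_ky hl64
  have hsl : sh7 l = lam := sh7_ky (fun i => (hl64 i).trans (by norm_num))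
  have hi33 : i < 33 := lt_of_lt_of_le hi hc33
  -- unfold the check
  have hcomp : compat c.key e'.key = true := by
    unfold compat
    rw [Bool.and_eq_true, ge5_up_iff hcv he'v, ge5_up_iff he'v hcv]
    have a1 := HS_iff.1 hlam
    have a2 := HS_iff.1 hlam'
    exact ⟨fun i => (a2.1 i.succ).trans (a1.2.1 i), fun i => (a1.1 i.succ).trans (a2.2.1 i)⟩
  have h3 : hsk e'.key l = true :=
    (hsk_iff (n := b + 1) he'v hlv (by rw [hsl, hls, he's]; ring)).2 (by rw [hsl]; exact hlam')
  have h2 := chkK_at hchk hcv hlam (by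
    rw [filL_eq, List.mem_filter]; exact ⟨he', hcomp⟩) h3
  rw [← hl] at h2
  have h4 := zt_sound hc33 h2 hj hi
  rw [filL_eq, filL_eq] at h4
  set D := LD.filter (fun e => hsk (IE.key c) (IE.key e)) with hDdef
  set A := LA.filter (fun e => hsk (IE.key e) (IE.key c)) with hAdef
  have hDlen : D.length ≤ LD.length := List.length_filter_le _ _
  have hAlen : A.length ≤ LA.length := List.length_filter_le _ _
  have hlen := S.hlen
  -- slots of the left-hand side
  have hCp : ∀ e n, slot 24 (Cp tot vt1 nb c e) n < 128 := fun e n => slot_mul_lt hc33 n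
  have hPp : ∀ e n, slot 24 (Pp tot vt0 ng c e) n < 128 := fun e n => slot_mul_lt hc33 n
  have hL := slot_sumL (W := 24) (B := 16256) (by norm_num)
    (fun e => geb H5 (low l) (low (IE.key e)))
    (fun e => Nat.mul (pcL (gt l) (cl (IE.key c) (IE.key e))) (Cp tot vt1 nb c e)) D
    (fun e _ n => (slot_scal (pcL_lt _ _) (hCp e) n).2) (by
      calc D.length * 16256 ≤ 1024 * 16256 := Nat.mul_le_mul_right _ (by omega)
        _ < 2 ^ 24 := by norm_num)
  have hPb : ∀ e n, slot 24 (blkR (Pp tot vt0 ng c e) e') n < 128 := by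
    intro e n
    have := slot_blkR_le (B := 127) (fun n => by have := hPp e n; omega) e' n
      (x := Pp tot vt0 ng c e)
    omega
  have hR := slot_sumL (W := 24) (B := 16256) (by norm_num)
    (fun e => hsk (IE.key e) (IE.key e'))
    (fun e => Nat.mul (pcL (gt l) (cl (IE.key e) (IE.key e'))) (blkR (Pp tot vt0 ng c e) e')) A
    (fun e _ n => (slot_scal (pcL_lt _ _) (hPb e) n).2) (by
      calc A.length * 16256 ≤ 1024 * 16256 := Nat.mul_le_mul_right _ (by omega)
        _ < 2 ^ 24 := by norm_num)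
  have hadd : slot 24 (Nat.add (blkR (Lh tot vt1 nb c D l) e') (Rh tot vt0 ng c A l e'))
      (33 * j + i) = slot 24 (Lh tot vt1 nb c D l) (33 * (e'.off + j) + i)
        + slot 24 (Rh tot vt0 ng c A l e') (33 * j + i) := by
    rw [slot_add (by norm_num), slot_blkR _ _ hj hi33]
    intro n
    have b1 := slot_blkR_le (fun n => (hL n).2) e' n
      (x := sumL (fun e => geb H5 (low l) (low (IE.key e)))
        (fun e => Nat.mul (pcL (gt l) (cl (IE.key c) (IE.key e))) (Cp tot vt1 nb c e)) D)
    have b2 := (hR n).2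
    have b3 : D.length * 16256 + A.length * 16256 < 2 ^ 24 := by
      calc D.length * 16256 + A.length * 16256 = (A.length + D.length) * 16256 := by ring
        _ ≤ 1024 * 16256 := Nat.mul_le_mul_right _ (by omega)
        _ < 2 ^ 24 := by norm_num
    unfold Lh Rh
    omega
  rw [hadd, Nat.cast_add] at h4
  -- left-hand side
  have hLHS : (slot 24 (Lh tot vt1 nb c D l) (33 * (e'.off + j) + i) : ZMod 127)
      = (LD.map (fun e => if InBox (sh7 c.key) lam (sh7 e.key) (a + 1) then
        psi (ZMod 127) lam (sh7 c.key) (sh7 e.key) * ∑ q ∈ Finset.range e.m,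
          (slot 24 (nb c.key e) (33 * q + i) : ZMod 127) *
          (if HS (sh7 e'.key) (sh7 e.key) (b + 1) then
            (slot 24 (vt1 e.key) (33 * (e'.off + j) + q) : ZMod 127) else 0) else 0)).sum := by
    unfold Lh
    rw [(hL _).1, cast_list_sum, hDdef, sum_filter_map]
    congr 1
    refine List.map_congr_left (fun e he => ?_)
    have hev := S.hD.val e he
    have hes := S.hD.sum e he
    have hbox : InBox (sh7 c.key) lam (sh7 e.key) (a + 1) ↔
        hsk c.key e.key = true ∧ geb H5 (low l) (low e.key) = true := by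
      unfold InBox
      rw [hsk_iff (n := a + 1) hcv hev (by rw [hes, hcs]; ring), ge5_low_iff hlv hev, hsl]
    by_cases hb : InBox (sh7 c.key) lam (sh7 e.key) (a + 1)
    · obtain ⟨b1, b2⟩ := hbox.1 hb
      rw [if_pos b1, if_pos b2, if_pos hb, (slot_scal (pcL_lt _ _) (hCp e) _).1, Nat.cast_mul,
        cast_pc hlv (le42 S.h42 hes), hsl]
      congr 1
      have hg : e'.off + j < tot := by have := S.hB.tot e' he'; omega
      unfold Cp
      rw [cast_mul_slot hc33 (S.hD.le33 e he) (S.hv1 _) (S.hnb _ _) hg hi]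
      refine Finset.sum_congr rfl (fun q hq => ?_)
      have hq33 : q < 33 := lt_of_lt_of_le (Finset.mem_range.1 hq) (S.hD.le33 e he)
      rw [mul_comm]
      congr 1
      split_ifs with h5
      · rfl
      · have h6 : hsk e'.key e.key = false := by
          rw [Bool.eq_false_iff]
          intro h7
          exact h5 ((hsk_iff (n := b + 1) he'v hev (by rw [hes, he's]; ring)).1 h7)
        rw [supp_sound (S.hsupp e he) he' h6 hj hq33, Nat.cast_zero]
    · rw [if_neg hb]
      by_cases b1 : hsk c.key e.key = true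
      · rw [if_pos b1, if_neg (fun b2 => hb (hbox.2 ⟨b1, b2⟩)), Nat.cast_zero]
      · rw [if_neg b1]
  have hRHS : (slot 24 (Rh tot vt0 ng c A l e') (33 * j + i) : ZMod 127)
      = (LA.map (fun e => if HS (sh7 e.key) (sh7 e'.key) a then
        pc (ZMod 127) lam (sh7 e.key) (sh7 e'.key) * ∑ l ∈ Finset.range e.m,
          (if HS (sh7 e.key) (sh7 c.key) b then
            (slot 24 (vt0 c.key) (33 * (e.off + l) + i) : ZMod 127) else 0) *
          (slot 24 (ng e.key) (33 * (e'.off + j) + l) : ZMod 127) else 0)).sum := by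
    unfold Rh
    rw [(hR _).1, cast_list_sum, hAdef, sum_filter_map]
    congr 1
    refine List.map_congr_left (fun e he => ?_)
    have hev := S.hA.val e he
    have hes := S.hA.sum e he
    have k1 : hsk e.key c.key = true ↔ HS (sh7 e.key) (sh7 c.key) b :=
      hsk_iff hev hcv (by rw [hes, hcs]; ring)
    have k2 : hsk e.key e'.key = true ↔ HS (sh7 e.key) (sh7 e'.key) a :=
      hsk_iff hev he'v (by rw [hes, he's]; ring)
    by_cases b1 : hsk e.key c.key = true
    · rw [if_pos b1]
      by_cases b2 : hsk e.key e'.key = true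
      · rw [if_pos b2, if_pos (k2.1 b2), (slot_scal (pcL_lt _ _) (hPb e) _).1, Nat.cast_mul,
          cast_pc hlv (le42 (le_trans (Nat.mul_le_mul_right _ (Nat.le_succ a)) S.h42) he's), hsl,
          pc_eq_psi, slot_blkR _ _ hj hi33]
        congr 1
        have hg : e'.off + j < tot := by have := S.hB.tot e' he'; omega
        unfold Pp
        have hsh : ∀ n, slot 24 (Nat.shiftRight (vt0 (IE.key c))
            (Nat.mul 24 (Nat.mul 33 (IE.off e)))) n < 128 := by
          intro n; rw [slot_shr]; exact S.hv0 _ _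
        rw [cast_mul_slot hc33 (S.hA.le33 e he) (S.hng _) hsh hg hi]
        refine Finset.sum_congr rfl (fun q _ => ?_)
        rw [if_pos (k1.1 b1), slot_shr, mul_comm]
        congr 3
        show 33 * e.off + (33 * q + i) = _
        ring
      · rw [if_neg b2, if_neg (fun h => b2 (k2.2 h)), Nat.cast_zero]
    · rw [if_neg b1]
      have k3 : ¬ HS (sh7 e.key) (sh7 c.key) b := fun h => b1 (k1.2 h)
      split_ifs
      · simp [k3]
      · rfl
  rw [hLHS, hRHS] at h4
  exact eq_neg_of_add_eq_zero_left h4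

end Crest.Agent.R187.SN.KRel
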