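import Crest.Agent.R187.SN.Rel

/-!
# Row 187, PLAN S: factorisation of the eigenvalues `pc`

`pc K lam κ' lam' = psi K lam κ' lam'` and `psi κ' lam' * psi lam' lam = psi κ' lam`; so after
multiplication with the nonzero scalar `psi lam' lam` the right hand side of (*) does not depend
on `lam'` (except through the columns).
-/

set_option autoImplicit false

namespace Crest.Agent.R187.SN.Rel

open Crest.Agent.R187.SN Crest.Agent.R187.SN.Spec Crest.Agent.R187.SN.Gen Crest.Agent.R187.SN.Img

variable {K : Type*} [Field K]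

lemma pc_eq_psi (lam κ' lam' : Sh) : pc K lam κ' lam' = psi K lam κ' lam' := by
  unfold pc psi conts
  rw [List.map_flatMap, List.flatMap_def, List.prod_flatten, List.map_map]
  rw [← List.prod_toFinset _ (List.nodup_finRange 6)]
  have h0 : (List.finRange 6).toFinset = Finset.univ := by
    ext i; simp
  rw [h0]
  apply Finset.prod_congr rfl
  intro i _
  rw [Function.comp_apply, List.map_map, ← List.prod_toFinset _ List.nodup_range]
  have h1 : (List.range (lam' i - κ' i)).toFinset = Finset.range (lam' i - κ' i) := by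
    ext j; simp
  rw [h1]
  apply Finset.prod_congr rfl
  intro s _
  rw [Function.comp_apply]
  congr 1
  unfold ct
  push_cast
  ring

lemma psi_trans {lam κ μ ν : Sh} (h1 : κ ≤ μ) (h2 : μ ≤ ν) :
    psi K lam κ μ * psi K lam μ ν = psi K lam κ ν := by
  unfold psi
  rw [← Finset.prod_mul_distrib]
  apply Finset.prod_congr rfl
  intro i _
  have h3 : κ i ≤ μ i := h1 i
  have h4 : μ i ≤ ν i := h2 i
  have h5 : ν i - κ i = (μ i - κ i) + (ν i - μ i) := by omega
  rw [h5, Finset.prod_range_add]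
  congr 1
  apply Finset.prod_congr rfl
  intro s _
  congr 1
  unfold ct
  push_cast [Nat.cast_sub h3]
  ring

/-- zero criterion -/
lemma psi_eq_zero_of_lt {lam κ' lam' : Sh} (k : Fin 5)
    (h1 : κ' k.castSucc < lam k.succ) (h2 : lam k.succ ≤ lam' k.castSucc) :
    psi K lam κ' lam' = 0 := by
  unfold psi
  apply Finset.prod_eq_zero (Finset.mem_univ k.castSucc)
  apply Finset.prod_eq_zero (i := lam k.succ - 1 - κ' k.castSucc)
  · rw [Finset.mem_range]; omega
  · have h3 : ct κ' k.castSucc + ((lam k.succ - 1 - κ' k.castSucc : ℕ) : ℤ) = ct lam k.succ := by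
      unfold ct
      rw [Fin.val_castSucc, Fin.val_succ]
      omega
    rw [h3]
    exact ge_eq_zero (Fin.succ_ne_zero k)

/-- (*) multiplied by `psi lam' lam`: the right hand side is a sum over `κ'` with coefficients
independent of `lam'` -/
theorem relAll_star' {B : ℕ} (hK : ∀ m : ℕ, 0 < m → m ≤ B → (m : K) ≠ 0)
    {T : Tab K} {M N : Sh → Sh → ℕ → ℕ → K} {a b : ℕ} (hM : RelAll T M a b)
    (hV0 : VSupp T a b) (hV1 : VSupp T a (b + 1))
    (hκ : ∀ κ, T.m (a + 1) b κ ≠ 0 → Antitone κ ∧ ∀ i, κ i + a + 6 ≤ B)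
    (h : ∀ κ lam, HS κ lam (a + 1) → ∀ lam', HS lam' lam (b + 1) → ∀ i < T.m (a + 1) b κ,
      ∀ j < T.m a (b + 1) lam',
      ∃ c : K, c ≠ 0 ∧
      (∑ μ ∈ box κ lam (a + 1), psi K lam κ μ *
          ∑ q ∈ Finset.range (T.m (a + 1) (b + 1) μ), N κ μ i q * T.V (a + 1) (b + 1) μ lam' q j) * c
        + (∑ κ' ∈ below lam', if HS κ' lam' a then (psi K lam κ' lam' * c) *
          ∑ l ∈ Finset.range (T.m a b κ'), T.V (a + 1) b κ κ' i l * M κ' lam' l j else 0)
        = 0) :
    RelAll T N (a + 1) b := by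
  apply relAll_star hK hM hV0 hV1 hκ
  intro κ lam hlam lam' hlam' i hi j hj
  obtain ⟨c, hc, h1⟩ := h κ lam hlam lam' hlam' i hi j hj
  have h2 : (∑ κ' ∈ below lam', if HS κ' lam' a then (psi K lam κ' lam' * c) *
          ∑ l ∈ Finset.range (T.m a b κ'), T.V (a + 1) b κ κ' i l * M κ' lam' l j else 0)
      = (∑ κ' ∈ below lam', if HS κ' lam' a then pc K lam κ' lam' *
          ∑ l ∈ Finset.range (T.m a b κ'), T.V (a + 1) b κ κ' i l * M κ' lam' l j else 0) * c := by
    rw [Finset.sum_mul]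
    apply Finset.sum_congr rfl
    intro κ' _
    split_ifs
    · rw [pc_eq_psi]; ring
    · simp
  rw [h2, ← add_mul] at h1
  exact (mul_eq_zero.mp h1).resolve_right hc

end Crest.Agent.R187.SN.Rel
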