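import Crest.Agent.R187.SN.KTab
import Crest.Agent.R187.SN.KRelF
import Crest.Agent.R187.SN.PcFac

/-!
# Row 187, PLAN S, block E2: soundness of the factorised relation check (slot half)
-/

set_option autoImplicit false

namespace Crest.Agent.R187.SN.KRel

open Crest.Agent.R187.SN Crest.Agent.R187.SN.Spec Crest.Agent.R187.SN.Kern
open Crest.Agent.R187.SN.Gen Crest.Agent.R187.SN.Img Crest.Agent.R187.SN.KKey
open Crest.Agent.R187.SN.KD

/-- hypotheses on the plugged-in functions of `chkF` -/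
structure ScOK (sc : ℕ → ℕ → ℕ → ℕ) (hs gb : ℕ → ℕ → Bool) : Prop where
  lt : ∀ l k m, sc l k m < 127
  cast : ∀ l k m, Val l → Val k → Val m → (∑ i, sh7 l i ≤ 42) → (∑ i, sh7 m i ≤ 42) →
    (∀ i, sh7 k i ≤ sh7 m i) →
    ((sc l k m : ℕ) : ZMod 127) = psi (ZMod 127) (sh7 l) (sh7 k) (sh7 m)
  hs : ∀ k l, Val k → Val l → hs k l = hsk k l
  gb : ∀ l m, Val l → Val m → gb l m = geb H5 (low l) (low m)

/-- the plain functions -/
theorem scOK0 : ScOK sc0 hsk (fun l m => geb H5 (low l) (low m)) where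
  lt := fun _ _ _ => pcL_lt _ _
  cast := fun _ _ _ hl _ _ _ hm _ => cast_pc hl (fun i => (Finset.single_le_sum
    (fun _ _ => Nat.zero_le _) (Finset.mem_univ i)).trans hm)
  hs := fun _ _ _ _ => rfl
  gb := fun _ _ _ _ => rfl

theorem chkF_at {sc : ℕ → ℕ → ℕ → ℕ} {hs gb : ℕ → ℕ → Bool} {tot n : ℕ} {LA LB LD : List IE}
    {vt0 vt1 ng : ℕ → ℕ} {nb : ℕ → IE → ℕ}
    {c : IE} (h : chkF sc hs gb tot n LA LB LD vt0 vt1 ng nb c = true) (hc : Val c.key) {lam : Sh}
    (hlam : HS (sh7 c.key) lam n) {e' : IE}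
    (he' : e' ∈ filL (fun e => compat (IE.key c) (IE.key e)) LB)
    (h3 : hs e'.key (ky lam) = true) :
    zf (Nat.add (Nat.mul (sc (ky lam) (IE.key e') (ky lam))
        (blkR (rd tot (IE.m c) (LhF sc gb tot vt1 nb c
          (filL (fun e => hs (IE.key c) (IE.key e)) LD) (ky lam))) e'))
      (blkR (rd tot (IE.m c) (RhF sc tot vt0 ng c
          (filL (fun e => hs (IE.key e) (IE.key c)) LA) (ky lam))) e')) = true := by
  have h0 : allS (IE.key c) n (frc (fun l =>
      (allL (fun e' => impb (hs (IE.key e') l)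
        (zf (Nat.add (Nat.mul (sc l (IE.key e') l)
          (blkR (rd tot (IE.m c) (LhF sc gb tot vt1 nb c
            (filL (fun e => hs (IE.key c) (IE.key e)) LD) l)) e'))
          (blkR (rd tot (IE.m c) (RhF sc tot vt0 ng c
            (filL (fun e => hs (IE.key e) (IE.key c)) LA) l)) e'))))
        (filL (fun e => compat (IE.key c) (IE.key e)) LB)))) = true := h
  have h1 := allS_spec hc h0 hlam
  rw [frc_eq] at h1
  have h2 := (allL_iff _ _).1 h1 e' he'
  exact impb_get h2 h3

theorem rd_def (tot c x : ℕ) : rd tot c x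
    = red 7 (blk 24 33 tot c (2 ^ 7 - 1)) (blk 24 33 tot c (2 ^ (24 - 7) - 1)) x := by
  have e1 : (2 : ℕ) ^ 7 - 1 = 127 := by norm_num
  have e2 : (2 : ℕ) ^ (24 - 7) - 1 = 131071 := by norm_num
  rw [e1, e2]
  rfl

theorem rd_slot_lt {tot c : ℕ} (hc : c ≤ 33) (x n : ℕ) : slot 24 (rd tot c x) n < 128 := by
  rw [rd_def]
  have h := (good_red (r := tot) par127 (S := 33) (by norm_num) hc x n).1
  have e : (128 : ℕ) = 2 ^ 7 := by norm_num
  rw [e]
  exact h

theorem rd_cast {tot c : ℕ} (hc : c ≤ 33) (x : ℕ) {g i : ℕ} (hg : g < tot) (hi : i < c) :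
    (slot 24 (rd tot c x) (33 * g + i) : ZMod 127) = (slot 24 x (33 * g + i) : ZMod 127) := by
  have hi33 : i < 33 := lt_of_lt_of_le hi hc
  rw [rd_def]
  refine cast_red (r := tot) par127 (S := 33) (by norm_num) hc x (33 * g + i) ?_
  rw [Nat.mul_add_div (by norm_num), Nat.mul_add_mod, Nat.div_eq_of_lt hi33,
    Nat.mod_eq_of_lt hi33]
  exact ⟨by omega, hi⟩

theorem suppN_gen (hs : ℕ → ℕ → Bool) (LB : List IE) (ng : ℕ → ℕ) (e : IE) :
    allL (fun e' => Bool.rec (Nat.beq (blkR (ng (IE.key e)) e') 0) true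
      (hs (IE.key e) (IE.key e'))) LB
    = allL (fun e' => orb (hs (IE.key e) (IE.key e')) (Nat.beq (blkR (ng (IE.key e)) e') 0)) LB :=
  rfl

theorem suppN_eq (LB : List IE) (ng : ℕ → ℕ) (e : IE) : suppN LB ng e
    = allL (fun e' => orb (hsk (IE.key e) (IE.key e')) (Nat.beq (blkR (ng (IE.key e)) e') 0)) LB :=
  suppN_gen hsk LB ng e

theorem suppN_sound {LB : List IE} {ng : ℕ → ℕ} {e e' : IE} (h : suppN LB ng e = true)
    (he' : e' ∈ LB) (hn : hsk e.key e'.key = false) {j q : ℕ} (hj : j < e'.m) (hq : q < 33) :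
    slot 24 (ng e.key) (33 * (e'.off + j) + q) = 0 := by
  rw [suppN_eq, allL_iff] at h
  have h1 := h e' he'
  have h2 : blkR (ng e.key) e' = 0 := beq_of (orb_get h1 hn)
  rw [← slot_blkR _ _ hj hq, h2]
  exact slot_zero _ _

theorem chkF_sound {sc : ℕ → ℕ → ℕ → ℕ} {hs gb : ℕ → ℕ → Bool} (hsc : ScOK sc hs gb)
    {a b tA tot tC tD : ℕ} {LA LB LC LD : List IE} {vt0 vt1 ng : ℕ → ℕ}
    {nb : ℕ → IE → ℕ} (S : Step a b tA tot tC tD LA LB LC LD vt0 vt1 ng nb)
    (hsN : ∀ e ∈ LA, suppN LB ng e = true) {c : IE}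
    (hc : c ∈ LC) (hchk : chkF sc hs gb tot (a + 1) LA LB LD vt0 vt1 ng nb c = true)
    {lam : Sh} (hlam : HS (sh7 c.key) lam (a + 1)) {e' : IE} (he' : e' ∈ LB)
    (hlam' : HS (sh7 e'.key) lam (b + 1)) {i j : ℕ} (hi : i < c.m) (hj : j < e'.m) :
    (LD.map (fun e => if InBox (sh7 c.key) lam (sh7 e.key) (a + 1) then
        psi (ZMod 127) lam (sh7 c.key) (sh7 e.key) * ∑ q ∈ Finset.range e.m,
          (slot 24 (nb c.key e) (33 * q + i) : ZMod 127) *
          (if HS (sh7 e'.key) (sh7 e.key) (b + 1) then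
            (slot 24 (vt1 e.key) (33 * (e'.off + j) + q) : ZMod 127) else 0) else 0)).sum
        * psi (ZMod 127) lam (sh7 e'.key) lam
      + (LA.map (fun e => if HS (sh7 e.key) (sh7 e'.key) a then
        (psi (ZMod 127) lam (sh7 e.key) (sh7 e'.key) * psi (ZMod 127) lam (sh7 e'.key) lam)
          * ∑ l ∈ Finset.range e.m,
          (if HS (sh7 e.key) (sh7 c.key) b then
            (slot 24 (vt0 c.key) (33 * (e.off + l) + i) : ZMod 127) else 0) *
          (slot 24 (ng e.key) (33 * (e'.off + j) + l) : ZMod 127) else 0)).sum = 0 := by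
  have hcv := S.hC.val c hc
  have hcs := S.hC.sum c hc
  have hc33 := S.hC.le33 c hc
  have he'v := S.hB.val e' he'
  have he's := S.hB.sum e' he'
  have hls : ∑ i, lam i = (a + 1) * (b + 1) := by rw [hlam.2.2, hcs]; ring
  have hl42 : ∀ i, lam i ≤ 42 := le42 S.h42 hls
  have hl64 : ∀ i, lam i < 64 := fun i => (hl42 i).trans_lt (by norm_num)
  set l := ky lam with hl
  have hlv : Val l := val_ky hl64
  have hsl : sh7 l = lam := sh7_ky (fun i => (hl64 i).trans (by norm_num))
  have hls' : ∑ i, sh7 l i ≤ 42 := by rw [hsl, hls]; exact S.h42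
  have hi33 : i < 33 := lt_of_lt_of_le hi hc33
  -- unfold the check
  have hcomp : compat c.key e'.key = true := by
    unfold compat
    rw [Bool.and_eq_true, ge5_up_iff hcv he'v, ge5_up_iff he'v hcv]
    have a1 := HS_iff.1 hlam
    have a2 := HS_iff.1 hlam'
    exact ⟨fun i => (a2.1 i.succ).trans (a1.2.1 i), fun i => (a1.1 i.succ).trans (a2.2.1 i)⟩
  have h3 : hs e'.key l = true := by
    rw [hsc.hs _ _ he'v hlv]
    exact (hsk_iff (n := b + 1) he'v hlv (by rw [hsl, hls, he's]; ring)).2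
      (by rw [hsl]; exact hlam')
  have h2 := chkF_at hchk hcv hlam (by
    rw [filL_eq, List.mem_filter]; exact ⟨he', hcomp⟩) h3
  rw [← hl] at h2
  have h4 := slot_zf h2 (33 * j + i)
  rw [filL_eq, filL_eq] at h4
  set D := LD.filter (fun e => hs (IE.key c) (IE.key e)) with hDdef
  set A := LA.filter (fun e => hs (IE.key e) (IE.key c)) with hAdef
  have hDlen : D.length ≤ LD.length := List.length_filter_le _ _
  have hAlen : A.length ≤ LA.length := List.length_filter_le _ _
  have hlen := S.hlen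
  have hg : e'.off + j < tot := by have := S.hB.tot e' he'; omega
  -- slots of the left-hand side
  have hCp : ∀ e n, slot 24 (Cp tot vt1 nb c e) n < 128 := fun e n => slot_mul_lt hc33 n
  have hPp : ∀ e n, slot 24 (Pp tot vt0 ng c e) n < 128 := fun e n => slot_mul_lt hc33 n
  have hL := slot_sumL (W := 24) (B := 16256) (by norm_num)
    (fun e => gb l (IE.key e))
    (fun e => Nat.mul (sc l (IE.key c) (IE.key e)) (Cp tot vt1 nb c e)) D
    (fun e _ n => (slot_scal (hsc.lt _ _ _) (hCp e) n).2) (by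
      calc D.length * 16256 ≤ 1024 * 16256 := Nat.mul_le_mul_right _ (by omega)
        _ < 2 ^ 24 := by norm_num)
  have hR := slot_sumL (W := 24) (B := 16256) (by norm_num)
    (fun _ => true)
    (fun e => Nat.mul (sc l (IE.key e) l) (Pp tot vt0 ng c e)) A
    (fun e _ n => (slot_scal (hsc.lt _ _ _) (hPp e) n).2) (by
      calc A.length * 16256 ≤ 1024 * 16256 := Nat.mul_le_mul_right _ (by omega)
        _ < 2 ^ 24 := by norm_num)
  -- the tested number
  have hLb : ∀ n, slot 24 (blkR (rd tot (IE.m c) (LhF sc gb tot vt1 nb c D l)) e') n < 128 := by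
    intro n
    have := slot_blkR_le (B := 127) (fun n => by
      have := rd_slot_lt (tot := tot) hc33 (LhF sc gb tot vt1 nb c D l) n; omega) e' n
      (x := rd tot (IE.m c) (LhF sc gb tot vt1 nb c D l))
    omega
  have hRb : ∀ n, slot 24 (blkR (rd tot (IE.m c) (RhF sc tot vt0 ng c A l)) e') n < 128 := by
    intro n
    have := slot_blkR_le (B := 127) (fun n => by
      have := rd_slot_lt (tot := tot) hc33 (RhF sc tot vt0 ng c A l) n; omega) e' n
      (x := rd tot (IE.m c) (RhF sc tot vt0 ng c A l))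
    omega
  have hadd : ((slot 24 (Nat.add (Nat.mul (sc l (IE.key e') l)
        (blkR (rd tot (IE.m c) (LhF sc gb tot vt1 nb c D l)) e'))
      (blkR (rd tot (IE.m c) (RhF sc tot vt0 ng c A l)) e')) (33 * j + i) : ℕ) : ZMod 127)
      = psi (ZMod 127) lam (sh7 e'.key) lam *
          (slot 24 (LhF sc gb tot vt1 nb c D l) (33 * (e'.off + j) + i) : ZMod 127)
        + (slot 24 (RhF sc tot vt0 ng c A l) (33 * (e'.off + j) + i) : ZMod 127) := by
    have b1 := fun n => slot_scal (t := sc l (IE.key e') l) (hsc.lt _ _ _) hLb n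
    rw [slot_add (by norm_num), (b1 _).1, Nat.cast_add, Nat.cast_mul, slot_blkR _ _ hj hi33,
      slot_blkR _ _ hj hi33, rd_cast hc33 _ hg hi, rd_cast hc33 _ hg hi]
    · congr 2
      rw [hsc.cast l e'.key l hlv he'v hlv hls' hls' (by rw [hsl]; exact hlam'.1), hsl]
    · intro n
      have b2 := (b1 n).2
      have b3 := hRb n
      have b4 : (2 : ℕ) ^ 24 = 16777216 := by norm_num
      omega
  rw [hadd] at h4
  -- left-hand side
  have hLHS : (slot 24 (LhF sc gb tot vt1 nb c D l) (33 * (e'.off + j) + i) : ZMod 127)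
      = (LD.map (fun e => if InBox (sh7 c.key) lam (sh7 e.key) (a + 1) then
        psi (ZMod 127) lam (sh7 c.key) (sh7 e.key) * ∑ q ∈ Finset.range e.m,
          (slot 24 (nb c.key e) (33 * q + i) : ZMod 127) *
          (if HS (sh7 e'.key) (sh7 e.key) (b + 1) then
            (slot 24 (vt1 e.key) (33 * (e'.off + j) + q) : ZMod 127) else 0) else 0)).sum := by
    unfold LhF
    rw [(hL _).1, cast_list_sum, hDdef, sum_filter_map]
    congr 1
    refine List.map_congr_left (fun e he => ?_)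
    have hev := S.hD.val e he
    have hes := S.hD.sum e he
    have hbox : InBox (sh7 c.key) lam (sh7 e.key) (a + 1) ↔
        hs c.key e.key = true ∧ gb l e.key = true := by
      unfold InBox
      rw [hsc.hs _ _ hcv hev, hsc.gb _ _ hlv hev,
        hsk_iff (n := a + 1) hcv hev (by rw [hes, hcs]; ring), ge5_low_iff hlv hev, hsl]
    by_cases hb : InBox (sh7 c.key) lam (sh7 e.key) (a + 1)
    · obtain ⟨b1, b2⟩ := hbox.1 hb
      rw [if_pos b1, if_pos b2, if_pos hb, (slot_scal (hsc.lt _ _ _) (hCp e) _).1, Nat.cast_mul,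
        hsc.cast l c.key e.key hlv hcv hev hls' (by rw [hes]; exact S.h42) hb.1.1, hsl]
      congr 1
      unfold Cp
      rw [cast_mul_slot hc33 (S.hD.le33 e he) (S.hv1 _) (S.hnb _ _) hg hi]
      refine Finset.sum_congr rfl (fun q hq => ?_)
      have hq33 : q < 33 := lt_of_lt_of_le (Finset.mem_range.1 hq) (S.hD.le33 e he)
      rw [mul_comm]
      congr 1
      split_ifs with h5
      · rfl
      · have h6 : hsk e'.key e.key = false := by
          rw [Bool.eq_false_iff]
          intro h7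
          exact h5 ((hsk_iff (n := b + 1) he'v hev (by rw [hes, he's]; ring)).1 h7)
        rw [supp_sound (S.hsupp e he) he' h6 hj hq33, Nat.cast_zero]
    · rw [if_neg hb]
      by_cases b1 : hs c.key e.key = true
      · rw [if_pos b1, if_neg (fun b2 => hb (hbox.2 ⟨b1, b2⟩)), Nat.cast_zero]
      · rw [if_neg b1]
  have hRHS : (slot 24 (RhF sc tot vt0 ng c A l) (33 * (e'.off + j) + i) : ZMod 127)
      = (LA.map (fun e => if HS (sh7 e.key) (sh7 e'.key) a then
        (psi (ZMod 127) lam (sh7 e.key) (sh7 e'.key) * psi (ZMod 127) lam (sh7 e'.key) lam)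
          * ∑ l ∈ Finset.range e.m,
          (if HS (sh7 e.key) (sh7 c.key) b then
            (slot 24 (vt0 c.key) (33 * (e.off + l) + i) : ZMod 127) else 0) *
          (slot 24 (ng e.key) (33 * (e'.off + j) + l) : ZMod 127) else 0)).sum := by
    unfold RhF
    rw [(hR _).1, cast_list_sum, hAdef, sum_filter_map]
    congr 1
    refine List.map_congr_left (fun e he => ?_)
    have hev := S.hA.val e he
    have hes := S.hA.sum e he
    have k1 : hs e.key c.key = true ↔ HS (sh7 e.key) (sh7 c.key) b := by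
      rw [hsc.hs _ _ hev hcv]
      exact hsk_iff hev hcv (by rw [hes, hcs]; ring)
    have k2 : hsk e.key e'.key = true ↔ HS (sh7 e.key) (sh7 e'.key) a :=
      hsk_iff hev he'v (by rw [hes, he's]; ring)
    by_cases b1 : hs e.key c.key = true
    · have hle : ∀ i, sh7 e.key i ≤ sh7 l i := fun i =>
        (((k1.1 b1).1 i).trans (hlam.1 i)).trans (by rw [hsl])
      rw [if_pos b1, if_pos rfl, (slot_scal (hsc.lt _ _ _) (hPp e) _).1, Nat.cast_mul,
        hsc.cast l e.key l hlv hev hlv hls' hls' hle, hsl]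
      unfold Pp
      have hsh : ∀ n, slot 24 (Nat.shiftRight (vt0 (IE.key c))
          (Nat.mul 24 (Nat.mul 33 (IE.off e)))) n < 128 := by
        intro n; rw [slot_shr]; exact S.hv0 _ _
      rw [cast_mul_slot hc33 (S.hA.le33 e he) (S.hng _) hsh hg hi]
      by_cases b2 : HS (sh7 e.key) (sh7 e'.key) a
      · rw [if_pos b2, Rel.psi_trans b2.1 hlam'.1]
        congr 1
        refine Finset.sum_congr rfl (fun q _ => ?_)
        rw [if_pos (k1.1 b1), slot_shr, mul_comm]
        congr 3
        show 33 * e.off + (33 * q + i) = _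
        ring
      · have b3 : hsk e.key e'.key = false := by
          rw [Bool.eq_false_iff]
          intro h7
          exact b2 (k2.1 h7)
        rw [if_neg b2]
        have b4 : ∀ q ∈ Finset.range e.m,
            (slot 24 (ng e.key) (33 * (e'.off + j) + q) : ZMod 127) *
              (slot 24 (Nat.shiftRight (vt0 (IE.key c))
                (Nat.mul 24 (Nat.mul 33 (IE.off e)))) (33 * q + i) : ZMod 127) = 0 := by
          intro q hq
          have hq33 : q < 33 := lt_of_lt_of_le (Finset.mem_range.1 hq) (S.hA.le33 e he)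
          rw [suppN_sound (hsN e he) he' b3 hj hq33, Nat.cast_zero, zero_mul]
        rw [Finset.sum_eq_zero b4, mul_zero]
    · rw [if_neg b1]
      have k3 : ¬ HS (sh7 e.key) (sh7 c.key) b := fun h => b1 (k1.2 h)
      split_ifs
      · simp
      · rfl
  rw [hLHS, hRHS, mul_comm (psi (ZMod 127) lam (sh7 e'.key) lam)] at h4
  exact h4

end Crest.Agent.R187.SN.KRel
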