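import Crest.Agent.R187.SN.KSound

/-!
# Row 187, PLAN S, block E2: the tables as `Tab (ZMod 127)` and the level step

`Acc` = accessor functions of all levels, `tab`, `ntab` = the frames and relation matrices read
from them; `relAll_step`: the kernel checks of one level step give the relations.
-/

set_option autoImplicit false

namespace Crest.Agent.R187.SN.KRel

open Crest.Agent.R187.SN Crest.Agent.R187.SN.Spec Crest.Agent.R187.SN.Kern
open Crest.Agent.R187.SN.Gen Crest.Agent.R187.SN.Img Crest.Agent.R187.SN.KKey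
open Crest.Agent.R187.SN.KD

/-- accessor functions -/
structure Acc where
  /-- index list of level `(a, b)` -/
  ix : ℕ → ℕ → List IE
  /-- `vt a b key` = packed `V(λ)ᵀ` of level `(a, b)` -/
  vt : ℕ → ℕ → ℕ → ℕ
  /-- `nb a b key e` = packed `N(κ, μ)ᵀ`, `(a, b) → (a, b+1)` -/
  nb : ℕ → ℕ → ℕ → IE → ℕ

/-- the frames -/
noncomputable def tab (A : Acc) : Tab (ZMod 127) where
  m a b lam := mOf (A.ix a b) lam
  V a b lam lam' i j := if HS lam' lam b then
    ((slot 24 (A.vt a b (kyo lam)) (33 * ((look (A.ix (a - 1) b) (kyo lam')).off + j) + i) : ℕ) :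
      ZMod 127) else 0

/-- the relation matrices -/
def ntab (A : Acc) (a b : ℕ) (κ lam : Sh) (l j : ℕ) : ZMod 127 :=
  ((slot 24 (A.nb a b (kyo κ) (look (A.ix a (b + 1)) (kyo lam))) (33 * j + l) : ℕ) : ZMod 127)

theorem tab_m (A : Acc) (a b : ℕ) (lam : Sh) : (tab A).m a b lam = mOf (A.ix a b) lam := rfl

theorem tab_V (A : Acc) (a b : ℕ) (lam lam' : Sh) (i j : ℕ) :
    (tab A).V (a + 1) b lam lam' i j = if HS lam' lam b then
    ((slot 24 (A.vt (a + 1) b (kyo lam)) (33 * ((look (A.ix a b) (kyo lam')).off + j) + i) : ℕ) :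
      ZMod 127) else 0 := rfl

theorem vsupp_tab (A : Acc) (a b : ℕ) : VSupp (tab A) a b := by
  intro lam lam' h i _ j _
  rw [tab_V, if_neg h]

theorem natCast_ne_zero127 : ∀ m : ℕ, 0 < m → m ≤ 126 → (m : ZMod 127) ≠ 0 := by
  intro m h1 h2 h3
  rw [ZMod.natCast_eq_zero_iff] at h3
  exact absurd (Nat.le_of_dvd h1 h3) (by omega)

theorem mem_below {κ lam : Sh} (h : ∀ i, κ i ≤ lam i) : κ ∈ below lam := by
  unfold below
  rw [Fintype.mem_piFinset]
  intro i
  rw [Finset.mem_range]
  have := h i
  omega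

/-- one level step -/
theorem relAll_step (A : Acc) {a b tA tot tC tD : ℕ} {ng : ℕ → ℕ}
    (hng : ∀ k (e : IE), A.nb a b k e
      = Nat.shiftRight (ng k) (Nat.mul 24 (Nat.mul 33 (IE.off e))))
    (S : Step a b tA tot tC tD (A.ix a b) (A.ix a (b + 1)) (A.ix (a + 1) b)
      (A.ix (a + 1) (b + 1)) (A.vt (a + 1) b) (A.vt (a + 1) (b + 1)) ng (A.nb (a + 1) b))
    (hchk : ∀ c ∈ A.ix (a + 1) b, chkK tot (a + 1) (A.ix a b) (A.ix a (b + 1))
      (A.ix (a + 1) (b + 1)) (A.vt (a + 1) b) (A.vt (a + 1) (b + 1)) ng (A.nb (a + 1) b) c = true)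
    (hrel : RelAll (tab A) (ntab A a b) a b) :
    RelAll (tab A) (ntab A (a + 1) b) (a + 1) b := by
  refine relAll_star natCast_ne_zero127 hrel (vsupp_tab A a (b + 1)) (vsupp_tab A a b)
    (fun κ hκ => ?_) (fun κ hκ lam hlam lam' hlam' i hi j hj => ?_)
  · rw [tab_m] at hκ
    obtain ⟨h1, h2, _⟩ := S.hC.look_pos (lam := κ) (by omega)
    refine ⟨h2 ▸ S.hC.anti _ h1, fun i => ?_⟩
    have h3 := S.hC.sum _ h1
    rw [h2] at h3
    have h4 := S.h42
    have h5 : κ i ≤ (a + 1) * b := h3 ▸ Finset.single_le_sum (f := κ) (fun _ _ => Nat.zero_le _)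
      (Finset.mem_univ i)
    have h6 : (a + 1) * (b + 1) = (a + 1) * b + (a + 1) := by ring
    omega
  · rw [tab_m] at hκ hi hj
    obtain ⟨hc1, hc2, hc3⟩ := S.hC.look_pos (lam := κ) (by omega)
    obtain ⟨he1, he2, he3⟩ := S.hB.look_pos (lam := lam') (by
      show (look (A.ix a (b + 1)) (kyo lam')).m ≠ 0
      unfold mOf at hj
      omega)
    set c := look (A.ix (a + 1) b) (kyo κ) with hc
    set e' := look (A.ix a (b + 1)) (kyo lam') with he
    have key := chk_sound S hc1 (hchk c hc1) (lam := lam) (by rw [hc2]; exact hlam) he1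
      (by rw [he2]; exact hlam') (i := i) (j := j) hi hj
    rw [hc2, he2] at key
    rw [sum_look S.hD, sum_look S.hA]
    · rw [hc3] at key
      convert key using 2
      · refine List.map_congr_left (fun e hee => ?_)
        have e1 := S.hD.look_of_mem hee
        have e2 := kyo_sh7 (S.hD.val e hee)
        rw [tab_m]
        unfold mOf
        rw [e1]
        refine if_congr Iff.rfl ?_ rfl
        congr 1
        refine Finset.sum_congr rfl (fun q _ => ?_)
        rw [tab_V]
        unfold ntab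
        rw [e1, e2]
      · congr 1
        refine List.map_congr_left (fun e hee => ?_)
        have e1 := S.hA.look_of_mem hee
        have e2 := kyo_sh7 (S.hA.val e hee)
        rw [tab_m]
        unfold mOf
        rw [e1]
        refine if_congr Iff.rfl ?_ rfl
        congr 1
        refine Finset.sum_congr rfl (fun q _ => ?_)
        rw [tab_V]
        unfold ntab
        rw [e1, e2, hng, slot_shr]
        congr 3
        show 33 * e'.off + (33 * j + q) = _
        ring
    · intro κ' _ h0
      rw [tab_m, h0]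
      simp
    · intro e hee hne
      by_cases h : HS (sh7 e.key) lam' a
      · exact mem_below h.1
      · exact absurd (if_neg h) hne
    · intro μ _ h0
      rw [tab_m, h0]
      simp
    · intro e hee hne
      by_cases h : InBox κ lam (sh7 e.key) (a + 1)
      · exact mem_bx h.1.1 h.1.2.2
      · exact absurd (if_neg h) hne

/-- level `0` -/
theorem relAll_base (A : Acc) {b : ℕ} (h0 : A.ix 0 b = [IE.mk 0 1 0])
    (h1 : A.ix 0 (b + 1) = [IE.mk 0 1 0]) (hN : A.nb 0 b 0 (IE.mk 0 1 0) = 1) :
    RelAll (tab A) (ntab A 0 b) 0 b := by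
  have hm : ∀ lam : Sh, mOf [IE.mk 0 1 0] lam = if lam = 0 then 1 else 0 := by
    intro lam
    unfold mOf
    rw [look_cons, look_nil]
    by_cases h : lam = 0
    · subst h
      rw [if_pos rfl]
      have : kyo (0 : Sh) = 0 := by
        rw [kyo_of (fun _ => by simp), ky_eq]; simp
      rw [this]; rfl
    · rw [if_neg h, if_neg]
      intro h2
      apply h
      have h3 : kyo lam = 0 := h2.symm
      have h4 : sh7 (kyo lam) = lam := sh7_kyo (by rw [h3]; norm_num)
      rw [h3] at h4
      rw [← h4]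
      funext i
      show slot 7 0 _ = 0
      exact slot_zero _ _
  refine relAll_zero (fun lam => ?_) (fun lam => ?_) ?_
  · rw [tab_m, h0]; exact hm lam
  · rw [tab_m, h1]; exact hm lam
  · have : kyo (0 : Sh) = 0 := by
      rw [kyo_of (fun _ => by simp), ky_eq]; simp
    unfold ntab
    rw [this, h1]
    have h2 : look [IE.mk 0 1 0] 0 = IE.mk 0 1 0 := by rw [look_cons, if_pos rfl]
    rw [h2, hN]
    have h3 : slot 24 1 (33 * 0 + 0) = 1 := by rw [slot_def]; norm_num
    rw [h3]
    norm_num

end Crest.Agent.R187.SN.KRel
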