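import Crest.Agent.R187.SN.Strip
import Crest.Agent.R187.SN.Insert
import Crest.Agent.R187.SN.Braid

/-!
# Row 187, PLAN S, block (C): the local lemma (B3) + (L)

Strip past strip, and the effect of one column insertion on the last block.
-/

set_option autoImplicit false

namespace Crest.Agent.R187.SN.Loc

open Crest.Agent.R187.SN Crest.Agent.R187.SN.Strip Finset

variable {r : ℕ} {K : Type*} [Field K]

/-! ### locality of the operators -/

lemma sw_perm {α : Type*} (i : ℕ) (w : List α) : (sw i w).Perm w := by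
  induction i generalizing w with
  | zero =>
    rcases w with _ | ⟨a, _ | ⟨b, t⟩⟩
    · exact List.Perm.refl _
    · exact List.Perm.refl _
    · exact List.Perm.swap a b t
  | succ i ih =>
    rcases w with _ | ⟨a, t⟩
    · exact List.Perm.refl _
    · exact (ih t).cons a

lemma T_congr {κ : Fin r → ℕ} {i : ℕ} {f g : List (Fin r) → K} {w : List (Fin r)}
    (h : ∀ u : List (Fin r), u.Perm w → f u = g u) : T κ i f w = T κ i g w := by
  rw [T_apply, T_apply, h w (List.Perm.refl _), h _ (sw_perm i w)]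

lemma cyc_congr {κ : Fin r → ℕ} {i m : ℕ} {f g : List (Fin r) → K} {w : List (Fin r)}
    (h : ∀ u : List (Fin r), u.Perm w → f u = g u) : cyc κ i m f w = cyc κ i m g w := by
  induction m generalizing i w with
  | zero => exact h w (List.Perm.refl _)
  | succ m ih =>
    simp only [cyc, LinearMap.comp_apply]
    apply T_congr
    intro u hu
    exact ih (fun v hv => h v (hv.trans hu))

lemma bs_congr {κ : Fin r → ℕ} {i m q : ℕ} {f g : List (Fin r) → K} {w : List (Fin r)}
    (h : ∀ u : List (Fin r), u.Perm w → f u = g u) : Strip.bs κ i m q f w = Strip.bs κ i m q g w := by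
  induction q generalizing i f g w with
  | zero => exact h w (List.Perm.refl _)
  | succ q ih =>
    simp only [Strip.bs, LinearMap.comp_apply]
    apply ih
    intro u hu
    exact cyc_congr (fun v hv => h v (hv.trans hu))

lemma sy_congr {κ : Fin r → ℕ} {i m : ℕ} {f g : List (Fin r) → K} {w : List (Fin r)}
    (h : ∀ u : List (Fin r), u.Perm w → f u = g u) : sy κ i m f w = sy κ i m g w := by
  rw [sy_apply, sy_apply]
  apply sum_congr rfl
  intro k _
  exact cyc_congr h

lemma cyc_append_left (κ : Fin r → ℕ) (i m : ℕ) (f : List (Fin r) → K) (x y : List (Fin r))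
    (h : i + m < x.length) : cyc κ i m f (x ++ y) = cyc κ i m (fun u => f (u ++ y)) x := by
  induction m generalizing i x with
  | zero => rfl
  | succ m ih =>
    simp only [cyc, LinearMap.comp_apply]
    rw [T_append_left κ i _ x y (by omega)]
    apply T_congr
    intro u hu
    exact ih (i + 1) u (by rw [hu.length_eq]; omega)

lemma sy_append_left (κ : Fin r → ℕ) (i m : ℕ) (f : List (Fin r) → K) (x y : List (Fin r))
    (h : i + m < x.length) : sy κ i m f (x ++ y) = sy κ i m (fun u => f (u ++ y)) x := by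
  rw [sy_apply, sy_apply]
  apply sum_congr rfl
  intro k hk
  rw [mem_range] at hk
  exact cyc_append_left κ (i + k) (m - k) f x y (by omega)

lemma cyc_append_right (κ : Fin r → ℕ) (i m : ℕ) (f : List (Fin r) → K) (x y : List (Fin r)) :
    cyc κ (x.length + i) m f (x ++ y) = cyc (sh κ x) i m (fun u => f (x ++ u)) y := by
  induction x generalizing κ f with
  | nil => simp [sh]
  | cons a t ih =>
    have h1 : (a :: t).length + i = (t.length + i) + 1 := by
      simp only [List.length_cons]; omega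
    rw [h1, List.cons_append, cyc_cons, ih]
    rfl

lemma sy_append_right (κ : Fin r → ℕ) (i m : ℕ) (f : List (Fin r) → K) (x y : List (Fin r)) :
    sy κ (x.length + i) m f (x ++ y) = sy (sh κ x) i m (fun u => f (x ++ u)) y := by
  rw [sy_apply, sy_apply]
  apply sum_congr rfl
  intro k _
  rw [Nat.add_assoc, cyc_append_right]

lemma bs_append_right (κ : Fin r → ℕ) (i m q : ℕ) (f : List (Fin r) → K) (x y : List (Fin r)) :
    Strip.bs κ (x.length + i) m q f (x ++ y) =
      Strip.bs (sh κ x) i m q (fun u => f (x ++ u)) y := by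
  induction x generalizing κ f with
  | nil => simp [sh]
  | cons a t ih =>
    have h1 : (a :: t).length + i = (t.length + i) + 1 := by
      simp only [List.length_cons]; omega
    rw [h1, List.cons_append, bs_cons, ih]
    rfl

/-! ### (W) moving one letter -/

lemma sh_inj {κ κ' : Fin r → ℕ} {y : List (Fin r)} (h : sh κ y = sh κ' y) : κ = κ' := by
  funext i
  have := congrFun h i
  rw [Ins.sh_apply, Ins.sh_apply] at this
  omega

lemma add_inj {κ κ' : Fin r → ℕ} {a : Fin r} (h : add κ a = add κ' a) : κ = κ' :=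
  sh_inj (y := [a]) h

lemma sh_perm {κ : Fin r → ℕ} {u w : List (Fin r)} (h : u.Perm w) : sh κ u = sh κ w := by
  funext i
  rw [Ins.sh_apply, Ins.sh_apply, h.count_eq]

/-- slices of the two-block vector -/
lemma ind2_slice (κ b lam : Fin r → ℕ) (m q : ℕ) (u y : List (Fin r)) (hu : u.length = m + 1) :
    ind2 K κ m b (q + 1) lam (u ++ y) =
      ind K (sh κ u) q lam y * ∑ k, lastF K κ (m + 1) (add b k) k u := by
  classical
  rcases List.eq_nil_or_concat u with rfl | ⟨u', i, rfl⟩
  · simp at hu
  have hu' : u'.length = m := by simpa using hu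
  have e1 : ∀ k, lastF K κ (m + 1) (add b k) k (u'.concat i) =
      if Lat κ (u'.concat i) ∧ sh κ u' = b ∧ i = k then 1 else 0 := by
    intro k
    unfold lastF
    congr 1
    rw [eq_iff_iff]
    constructor
    · rintro ⟨h1, h2, h3, h4⟩
      rw [List.concat_eq_append, List.getLast?_append] at h4
      simp only [List.getLast?_singleton, Option.some_or, Option.some.injEq] at h4
      subst h4
      rw [List.concat_eq_append, sh_append] at h3
      exact ⟨h1, add_inj h3, rfl⟩
    · rintro ⟨h1, h2, h3⟩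
      subst h3
      refine ⟨h1, hu, ?_, ?_⟩
      · rw [List.concat_eq_append, sh_append, h2]
        rfl
      · rw [List.concat_eq_append, List.getLast?_append]
        simp
  have e2 : (u'.concat i ++ y).take m = u' := by
    rw [List.concat_eq_append, List.append_assoc, List.take_left' hu']
  rw [sum_congr rfl (fun k _ => e1 k)]
  by_cases h1 : Lat κ (u'.concat i) ∧ sh κ u' = b
  · rw [sum_eq_single i]
    · rw [if_pos (⟨h1.1, h1.2, rfl⟩ : Lat κ (u'.concat i) ∧ sh κ u' = b ∧ i = i), mul_one]
      unfold ind2 ind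
      congr 1
      rw [eq_iff_iff, lat_append, sh_append, e2]
      constructor
      · rintro ⟨h2, h4, -, h3⟩
        rw [List.length_append, hu] at h4
        exact ⟨h2.2, by omega, h3⟩
      · rintro ⟨h2, h4, h3⟩
        refine ⟨⟨h1.1, h2⟩, ?_, h1.2, h3⟩
        rw [List.length_append, hu, h4]
        omega
    · intro k _ hk
      rw [if_neg]
      rintro ⟨-, -, h⟩
      exact hk h.symm
    · simp
  · rw [sum_eq_zero, mul_zero]
    · unfold ind2
      rw [if_neg]
      rintro ⟨h2, -, h3, -⟩
      rw [e2] at h3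
      exact h1 ⟨((lat_append _ _ _).1 h2).1, h3⟩
    · intro k _
      rw [if_neg]
      rintro ⟨h2, h3, -⟩
      exact h1 ⟨h2, h3⟩

/-- one letter is moved in front of the block -/
theorem cyc_ind2 {B : ℕ} (hK : HK K B) {m q : ℕ} {κ b lam : Fin r → ℕ}
    (hB : Bd B κ (m + 1)) (hH : Hor κ b) (hκ : Antitone κ) (j : Fin r) (w : List (Fin r)) :
    cyc κ 0 m (ind2 K κ m b (q + 1) lam) (j :: w) =
      ∑ k, Bc K (add b k) κ k j * ind2 K (add κ j) m (add b k) q lam w := by
  classical
  by_cases hw : w.length = m + q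
  swap
  · rw [cyc_mem 0 m (ind2_mem κ m b (q + 1) lam) (j :: w)
      (fun h => hw (by have := h.2; rw [List.length_cons] at this; omega)), sum_eq_zero]
    intro k _
    rw [ind2_mem (add κ j) m (add b k) q lam w (fun h => hw h.2), mul_zero]
  obtain ⟨x, y, rfl, hx⟩ : ∃ x y : List (Fin r), w = x ++ y ∧ x.length = m :=
    ⟨w.take m, w.drop m, (List.take_append_drop _ _).symm, by
      rw [List.length_take]; omega⟩
  rw [← List.cons_append, cyc_append_left κ 0 m _ (j :: x) y (by
    rw [List.length_cons]; omega)]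
  have e1 : cyc κ 0 m (fun u => ind2 K κ m b (q + 1) lam (u ++ y)) (j :: x) =
      cyc κ 0 m (ind K (sh κ (j :: x)) q lam y • ∑ k, lastF K κ (m + 1) (add b k) k)
        (j :: x) := by
    apply cyc_congr
    intro u hu
    rw [ind2_slice κ b lam m q u y (by rw [hu.length_eq, List.length_cons, hx]), sh_perm hu,
      Pi.smul_apply, Finset.sum_apply, smul_eq_mul]
  rw [e1, map_smul, map_sum, Pi.smul_apply, Finset.sum_apply, smul_eq_mul, mul_sum]
  apply sum_congr rfl
  intro k _
  rw [cyc_last hK m hB (hH.horI k)]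
  have e2 : (x ++ y).take m = x := List.take_left' hx
  by_cases h1 : Lat κ (j :: x) ∧ x.length = m ∧ sh κ (j :: x) = add b k
  · rw [if_pos h1, mul_comm]
    congr 1
    unfold ind ind2
    congr 1
    rw [eq_iff_iff, lat_append, sh_append, e2]
    simp only [sh]
    constructor
    · rintro ⟨h2, h3, h4⟩
      exact ⟨⟨h1.1.2, h2⟩, by rw [List.length_append, hx, h3], h1.2.2, h4⟩
    · rintro ⟨⟨h2, h3⟩, h4, h5, h6⟩
      refine ⟨h3, ?_, h6⟩
      rw [List.length_append, hx] at h4
      omega
  · rw [if_neg h1, mul_zero]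
    unfold ind2
    rw [if_neg, mul_zero]
    rintro ⟨h2, h3, h4, h5⟩
    rw [e2] at h4
    rw [lat_append] at h2
    exact h1 ⟨⟨hκ, h2.1⟩, hx, h4⟩

/-- the symmetrizer on the two-block vector -/
theorem sy_ind2 {B : ℕ} (hK : HK K B) {m q : ℕ} {κ b lam : Fin r → ℕ}
    (hB : Bd B κ (m + 1)) (hH : Hor κ b) (w : List (Fin r)) :
    sy κ 0 m (ind2 K κ m b (q + 1) lam) w =
      ∑ k, gc K (add b k) κ k * ind2 K κ (m + 1) (add b k) q lam w := by
  classical
  by_cases hw : w.length = m + 1 + q
  swap
  · rw [sy_mem 0 m (ind2_mem κ m b (q + 1) lam) w (fun h => hw (by omega)), sum_eq_zero]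
    intro k _
    rw [ind2_mem κ (m + 1) (add b k) q lam w (fun h => hw h.2), mul_zero]
  obtain ⟨x, y, rfl, hx⟩ : ∃ x y : List (Fin r), w = x ++ y ∧ x.length = m + 1 :=
    ⟨w.take (m + 1), w.drop (m + 1), (List.take_append_drop _ _).symm, by
      rw [List.length_take]; omega⟩
  rw [sy_append_left κ 0 m _ x y (by omega)]
  have e1 : sy κ 0 m (fun u => ind2 K κ m b (q + 1) lam (u ++ y)) x =
      sy κ 0 m (ind K (sh κ x) q lam y • ∑ k, lastF K κ (m + 1) (add b k) k) x := by
    apply sy_congr
    intro u hu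
    rw [ind2_slice κ b lam m q u y (by rw [hu.length_eq, hx]), sh_perm hu,
      Pi.smul_apply, Finset.sum_apply, smul_eq_mul]
  rw [e1, map_smul, map_sum, Pi.smul_apply, Finset.sum_apply, smul_eq_mul, mul_sum]
  apply sum_congr rfl
  intro k _
  rw [sy_last hK m hB (hH.horI k), mul_left_comm]
  congr 1
  have e2 : (x ++ y).take (m + 1) = x := List.take_left' hx
  unfold ind ind2
  by_cases hA : Lat κ x ∧ x.length = m + 1 ∧ sh κ x = add b k
  · rw [if_pos hA, mul_one]
    congr 1
    rw [eq_iff_iff, lat_append, sh_append, e2]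
    constructor
    · rintro ⟨h1, h2, h3⟩
      exact ⟨⟨hA.1, h1⟩, by rw [List.length_append, hx, h2], hA.2.2, h3⟩
    · rintro ⟨⟨h1, h2⟩, h3, h4, h5⟩
      rw [List.length_append, hx] at h3
      exact ⟨h2, by omega, h5⟩
  · rw [if_neg hA, mul_zero, if_neg]
    rintro ⟨h1, h2, h3, h4⟩
    rw [lat_append] at h1
    rw [e2] at h3
    exact hA ⟨h1.1, hx, h3⟩

/-! ### (B3) strip past strip -/

/-- path sum: the letters `v` are moved in front of the block `κ → b`, target `c` -/
def Cw (K : Type*) [Field K] : (Fin r → ℕ) → (Fin r → ℕ) → (Fin r → ℕ) → List (Fin r) → K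
  | _, b, c, [] => if b = c then 1 else 0
  | κ, b, c, j :: v => ∑ k, Bc K (add b k) κ k j * Cw K (add κ j) (add b k) c v

lemma Bc_zero {κ b : Fin r → ℕ} (hH : Hor κ b) {k j : Fin r}
    (hn : ¬ Hor (add κ j) (add b k)) : Bc K (add b k) κ k j = 0 := by
  unfold Hor at hn
  push Not at hn
  obtain ⟨l, l', hl, h1⟩ := hn
  have h2 := hH l l' hl
  have hk : l' = k := by
    by_contra hk
    rw [add_ne _ hk] at h1
    have := add_mono_le κ j l
    omega
  subst hk
  rw [add_same] at h1
  have hj : l ≠ j := by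
    rintro rfl
    rw [add_same] at h1
    omega
  rw [add_ne _ hj] at h1
  have h3 : b l' = κ l := by omega
  unfold Bc
  rw [prod_eq_zero (i := l), zero_div]
  · simp [hj]
  · rw [cK_add_same]
    unfold cK ct
    rw [h3, ← hl]
    push_cast
    ring

lemma Bd_le {B : ℕ} {κ : Fin r → ℕ} {n n' : ℕ} (h : Bd B κ n) (hn : n' ≤ n) : Bd B κ n' := by
  intro a
  have := h a
  omega

/-- **(B3)** strip past strip -/
theorem bs_ind2 {B : ℕ} (hK : HK K B) {m q : ℕ} {κ b lam : Fin r → ℕ}
    (hB : Bd B κ (m + q)) (hH : Hor κ b) (y x : List (Fin r)) (hy : y.length = q) :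
    Strip.bs κ 0 m q (ind2 K κ m b q lam) (y ++ x) =
      Cw K κ b lam y * ind K κ (q + m) lam (y ++ x) := by
  classical
  induction q generalizing κ b y with
  | zero =>
    obtain rfl : y = [] := List.length_eq_zero_iff.1 hy
    simp only [Strip.bs, LinearMap.id_apply, List.nil_append, Cw]
    unfold ind2 ind
    by_cases h : Lat κ x ∧ x.length = m ∧ sh κ x = lam
    · rw [if_pos (⟨h.1, by omega, h.2.2⟩ : Lat κ x ∧ x.length = 0 + m ∧ sh κ x = lam), mul_one]
      congr 1
      rw [eq_iff_iff, ← h.2.2, List.take_of_length_le h.2.1.le]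
      constructor
      · rintro ⟨-, -, h1, -⟩
        exact h1.symm
      · intro h1
        exact ⟨h.1, by omega, h1.symm, rfl⟩
    · rw [if_neg (fun h1 : Lat κ x ∧ x.length = m + 0 ∧ sh κ (x.take m) = b ∧ sh κ x = lam =>
          h ⟨h1.1, by have := h1.2.1; omega, h1.2.2.2⟩),
        if_neg (fun h1 : Lat κ x ∧ x.length = 0 + m ∧ sh κ x = lam =>
          h ⟨h1.1, by have := h1.2.1; omega, h1.2.2⟩), mul_zero]
  | succ q ih =>
    obtain ⟨j, y', rfl⟩ : ∃ j y', y = j :: y' := by
      cases y with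
      | nil => simp at hy
      | cons j y' => exact ⟨j, y', rfl⟩
    have hy' : y'.length = q := by simpa using hy
    by_cases hκ : Antitone κ
    swap
    · rw [bs_mem 0 m (q + 1) (ind2_mem κ m b (q + 1) lam) _ (fun h => hκ h.1.anti),
        ind_mem κ (q + 1 + m) lam _ (fun h => hκ h.1.anti), mul_zero]
    have e1 : (fun u => cyc κ 0 m (ind2 K κ m b (q + 1) lam) (j :: u)) =
        ∑ k, Bc K (add b k) κ k j • ind2 K (add κ j) m (add b k) q lam := by
      funext u
      rw [cyc_ind2 hK (Bd_le hB (by omega)) hH hκ, Finset.sum_apply]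
      rfl
    have e2 : ind K κ (q + 1 + m) lam (j :: y' ++ x) = ind K (add κ j) (q + m) lam (y' ++ x) := by
      have e3 : q + 1 + m = (q + m) + 1 := by omega
      rw [e3, List.cons_append, ind_cons hκ]
    simp only [Strip.bs, LinearMap.comp_apply]
    rw [e2, List.cons_append, bs_cons, e1, map_sum, Finset.sum_apply, Cw, sum_mul]
    apply sum_congr rfl
    intro k _
    rw [map_smul, Pi.smul_apply, smul_eq_mul]
    by_cases hn : Hor (add κ j) (add b k)
    · rw [ih (hB.add j) hn y' hy']
      ring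
    · rw [Bc_zero hH hn]
      ring

/-- the path sum of the local lemma -/
def FL (K : Type*) [Field K] (κ' κ lam : Fin r → ℕ) (y : List (Fin r)) : K :=
  ∑ k, gc K (add κ k) κ' k * Cw K κ' (add κ k) lam y

lemma gc_zero {κ b : Fin r → ℕ} (hH : Hor κ b) {k : Fin r}
    (hn : ¬ Hor κ (add b k)) : gc K (add b k) κ k = 0 := by
  unfold Hor at hn
  push Not at hn
  obtain ⟨l, l', hl, h1⟩ := hn
  have h2 := hH l l' hl
  have hk : l' = k := by
    by_contra hk
    rw [add_ne _ hk] at h1
    omega
  subst hk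
  rw [add_same] at h1
  have h3 : b l' = κ l := by omega
  unfold gc
  rw [prod_eq_zero (i := l) (mem_univ l), zero_div]
  rw [cK_add_same]
  unfold cK ct
  rw [h3, ← hl]
  push_cast
  ring

/-- **(L)** first form: values at the words `y ++ x` -/
theorem local_val {B : ℕ} (hK : HK K B) {m q : ℕ} {κ' κ lam : Fin r → ℕ}
    (hB : Bd B κ' (m + 1 + q)) (hH : Hor κ' κ) (y x : List (Fin r)) (hy : y.length = q) :
    Strip.bs κ' 0 (m + 1) q (sy κ' 0 m (ind2 K κ' m κ (q + 1) lam)) (y ++ x) =
      FL K κ' κ lam y * ind K κ' (q + (m + 1)) lam (y ++ x) := by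
  have e1 : sy κ' 0 m (ind2 K κ' m κ (q + 1) lam) =
      ∑ k, gc K (add κ k) κ' k • ind2 K κ' (m + 1) (add κ k) q lam := by
    funext w
    rw [sy_ind2 hK (Bd_le hB (by omega)) hH, Finset.sum_apply]
    rfl
  rw [e1, map_sum, Finset.sum_apply, FL, sum_mul]
  apply sum_congr rfl
  intro k _
  rw [map_smul, Pi.smul_apply, smul_eq_mul]
  by_cases hn : Hor κ' (add κ k)
  · rw [bs_ind2 hK hB hn y x hy]
    ring
  · rw [gc_zero hH hn]
    ring

/-! ### invariance of the result in the first block -/

lemma coe_cy (κ : Fin r → ℕ) (n i m : ℕ) (f : V K κ n) :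
    ((Br.cy (TV (K := K) κ n) i m f : V K κ n) : List (Fin r) → K) = cyc κ i m f := by
  induction m generalizing i with
  | zero => rfl
  | succ m ih =>
    rw [Br.cy_succ', Module.End.mul_apply, TV_coe, ih]
    rfl

lemma coe_bs (κ : Fin r → ℕ) (n i m q : ℕ) (f : V K κ n) :
    ((Br.bs (TV (K := K) κ n) i m q f : V K κ n) : List (Fin r) → K) = Strip.bs κ i m q f := by
  induction q generalizing i f with
  | zero => rfl
  | succ q ih =>
    rw [Br.bs_succ, Module.End.mul_apply, ih, coe_cy]
    rfl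

lemma Hor_of_Cw {κ b lam : Fin r → ℕ} {y : List (Fin r)} (hH : Hor κ b)
    (h : Cw K κ b lam y ≠ 0) : Hor (sh κ y) lam := by
  induction y generalizing κ b with
  | nil =>
    have : b = lam := by
      by_contra hb
      exact h (if_neg hb)
    rw [← this]
    exact hH
  | cons j v ih =>
    rw [Cw] at h
    obtain ⟨k, -, hk⟩ := exists_ne_zero_of_sum_ne_zero h
    have h1 := left_ne_zero_of_mul hk
    have h2 := right_ne_zero_of_mul hk
    apply ih _ h2
    by_contra hn
    exact h1 (Bc_zero hH hn)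

lemma Hor_of_FL {κ' κ lam : Fin r → ℕ} {y : List (Fin r)} (hH : Hor κ' κ)
    (h : FL K κ' κ lam y ≠ 0) : Hor (sh κ' y) lam := by
  obtain ⟨k, -, hk⟩ := exists_ne_zero_of_sum_ne_zero h
  have h1 := left_ne_zero_of_mul hk
  have h2 := right_ne_zero_of_mul hk
  apply Hor_of_Cw _ h2
  by_contra hn
  exact h1 (gc_zero hH hn)

lemma Hz_of_Hor {κ lam : Fin r → ℕ} (h : Hor κ lam) (hl : Antitone lam)
    (hle : ∀ i, κ i ≤ lam i) : Ins.Hz κ lam := by
  refine ⟨hle, fun i j hij => ?_⟩
  have h1 : (i : ℕ) + 1 < r := by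
    have h2 : (i : ℕ) < j := hij
    have := j.2
    omega
  have h3 : (⟨(i : ℕ) + 1, h1⟩ : Fin r) ≤ j := hij
  exact (hl h3).trans (h i ⟨(i : ℕ) + 1, h1⟩ rfl)

lemma Hor_of_Hz {κ lam : Fin r → ℕ} (h : Ins.Hz κ lam) : Hor κ lam := by
  intro l l' hl
  apply h.2
  have : (l : ℕ) < l' := by omega
  exact this

/-- the second block of the two-block vector is a strip vector -/
lemma ind2_append (κ b lam : Fin r → ℕ) (m q : ℕ) (u v : List (Fin r)) (hu : u.length = m) :
    ind2 K κ m b q lam (u ++ v) = ind K κ m b u * ind K (sh κ u) q lam v := by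
  classical
  unfold ind2 ind
  have e2 : (u ++ v).take m = u := List.take_left' hu
  by_cases hA : Lat κ u ∧ u.length = m ∧ sh κ u = b
  · rw [if_pos hA, one_mul]
    congr 1
    rw [eq_iff_iff, lat_append, sh_append, e2]
    constructor
    · rintro ⟨⟨h1, h2⟩, h3, h4, h5⟩
      rw [List.length_append, hu] at h3
      exact ⟨h2, by omega, h5⟩
    · rintro ⟨h1, h2, h3⟩
      exact ⟨⟨hA.1, h1⟩, by rw [List.length_append, hu, h2], hA.2.2, h3⟩
  · rw [if_neg hA, zero_mul, if_neg]
    rintro ⟨h1, h2, h3, h4⟩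
    rw [lat_append] at h1
    rw [e2] at h3
    exact hA ⟨h1.1, hu, h3⟩

lemma T_ind2 {κ b lam : Fin r → ℕ} {m q i : ℕ} (hH : Hor b lam) :
    T κ (m + i) (ind2 K κ m b q lam) = ind2 K κ m b q lam := by
  funext w
  by_cases hw : w.length = m + q
  swap
  · rw [T_mem (m + i) (ind2_mem κ m b q lam) w (fun h => hw h.2),
      ind2_mem κ m b q lam w (fun h => hw h.2)]
  obtain ⟨u, v, rfl, hu⟩ : ∃ x y : List (Fin r), w = x ++ y ∧ x.length = m :=
    ⟨w.take m, w.drop m, (List.take_append_drop _ _).symm, by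
      rw [List.length_take]; omega⟩
  have e : T κ (m + i) (ind2 K κ m b q lam) (u ++ v) =
      T (sh κ u) i (fun v => ind2 K κ m b q lam (u ++ v)) v := by
    rw [← hu, T_append_right]
  have e2 : (fun v => ind2 K κ m b q lam (u ++ v)) = ind K κ m b u • ind K (sh κ u) q lam := by
    funext v
    rw [ind2_append κ b lam m q u v hu]
    rfl
  rw [e, e2, map_smul, Pi.smul_apply, smul_eq_mul, ind2_append κ b lam m q u v hu]
  by_cases hb : sh κ u = b
  · rw [hb, T_ind b q hH]
  · have : ind K κ m b u = 0 := by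
      unfold ind
      rw [if_neg]
      rintro ⟨-, -, h⟩
      exact hb h
    rw [this, zero_mul, zero_mul]

/-- the vector of the local lemma -/
noncomputable def LV (K : Type*) [Field K] (κ' : Fin r → ℕ) (m : ℕ) (κ : Fin r → ℕ) (q : ℕ)
    (lam : Fin r → ℕ) : List (Fin r) → K :=
  Strip.bs κ' 0 (m + 1) q (sy κ' 0 m (ind2 K κ' m κ (q + 1) lam))

lemma LV_mem (κ' κ lam : Fin r → ℕ) (m q : ℕ) : LV K κ' m κ q lam ∈ V K κ' (m + 1 + q) := by
  unfold LV
  apply bs_mem
  apply sy_mem
  have e : m + (q + 1) = m + 1 + q := by omega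
  rw [← e]
  exact ind2_mem κ' m κ (q + 1) lam

lemma T_LV {B : ℕ} (hK : HK K B) {m q : ℕ} {κ' κ lam : Fin r → ℕ}
    (hB : Bd B κ' (m + 1 + q)) (hH : Hor κ' κ) (hH2 : Hor κ lam) {k : ℕ} (hk : k + 1 < q) :
    T κ' k (LV K κ' m κ q lam) = LV K κ' m κ q lam := by
  have e0 : m + 1 + q = (m + q) + 1 := by omega
  have e1 : sy κ' 0 m (ind2 K κ' m κ (q + 1) lam) =
      ∑ k, gc K (add κ k) κ' k • ind2 K κ' (m + 1) (add κ k) q lam := by
    funext w
    rw [sy_ind2 hK (Bd_le hB (by omega)) hH, Finset.sum_apply]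
    rfl
  have e2 : T κ' (m + 1 + k) (sy κ' 0 m (ind2 K κ' m κ (q + 1) lam)) =
      sy κ' 0 m (ind2 K κ' m κ (q + 1) lam) := by
    rw [e1, map_sum]
    apply sum_congr rfl
    intro l _
    rw [map_smul, T_ind2 (hH2.add l)]
  have hmem : sy κ' 0 m (ind2 K κ' m κ (q + 1) lam) ∈ V K κ' ((m + q) + 1) := by
    apply sy_mem
    have e : m + (q + 1) = (m + q) + 1 := by omega
    rw [← e]
    exact ind2_mem κ' m κ (q + 1) lam
  have hrel : Cox.Rel (m + q) (TV (K := K) κ' ((m + q) + 1)) := rel_TV hK (by rw [← e0]; exact hB)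
  have h1 := Br.bs_conj_right hrel (i := 0) (m := m + 1) (q := q) (k := k) hk (by omega)
  have h2 := congrArg (fun (F : Module.End K (V K κ' ((m + q) + 1))) =>
    ((F ⟨_, hmem⟩ : V K κ' ((m + q) + 1)) : List (Fin r) → K)) h1
  simp only [Module.End.mul_apply, TV_coe, coe_bs, Nat.zero_add] at h2
  rw [e2] at h2
  exact h2

/-- **(L)**: the effect of one column insertion on the last block -/
theorem local_L {B : ℕ} (hK : HK K B) {m q : ℕ} {κ' κ lam : Fin r → ℕ}
    (hB : Bd B κ' (m + 1 + q)) (hH : Hor κ' κ) (hH2 : Hor κ lam) (y x : List (Fin r))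
    (hy : y.length = q) :
    LV K κ' m κ q lam (y ++ x) =
      if x.length = m + 1 ∧ sh κ' (y ++ x) = lam ∧ Ins.Hz κ' (sh κ' y) ∧ Ins.Hz (sh κ' y) lam
      then FL K κ' κ lam y else 0 := by
  classical
  have hval : LV K κ' m κ q lam (y ++ x) =
      FL K κ' κ lam y * ind K κ' (q + (m + 1)) lam (y ++ x) := local_val hK hB hH y x hy
  split_ifs with h
  · obtain ⟨h1, h2, h3, h4⟩ := h
    rw [hval]
    unfold ind
    rw [if_pos, mul_one]
    refine ⟨?_, ?_, h2⟩
    · rw [lat_append]
      refine ⟨h3.lat rfl, h4.lat ?_⟩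
      rw [← sh_append, h2]
    · rw [List.length_append, hy, h1]
  · by_contra hne
    apply h
    have h0 : FL K κ' κ lam y ≠ 0 := by
      intro h0
      rw [hval, h0, zero_mul] at hne
      exact hne rfl
    have hL : Lat κ' (y ++ x) ∧ (y ++ x).length = m + 1 + q := by
      by_contra hcon
      exact hne (LV_mem κ' κ lam m q _ hcon)
    have hx : x.length = m + 1 := by
      have := hL.2
      rw [List.length_append, hy] at this
      omega
    have hsh : sh κ' (y ++ x) = lam := by
      by_contra hcon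
      apply hne
      rw [hval]
      unfold ind
      rw [if_neg, mul_zero]
      rintro ⟨-, -, h5⟩
      exact hcon h5
    refine ⟨hx, hsh, ?_, ?_⟩
    · -- symmetry in the first block
      have hB' : Bd B κ' q := Bd_le hB (by omega)
      let F : V K κ' q := ⟨fun u => LV K κ' m κ q lam (u ++ x), by
        intro u hu
        apply LV_mem κ' κ lam m q
        rintro ⟨h5, h6⟩
        apply hu
        rw [List.length_append, hx] at h6
        exact ⟨((lat_append _ _ _).1 h5).1, by omega⟩⟩
      have hF : ∀ g : Equiv.Perm (Fin q), Ins.rh hK hB' g F = F := by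
        intro g
        induction g using Ins.gen_induction with
        | h1 => simp
        | hs k g hk ih =>
          rw [map_mul, Module.End.mul_apply, ih, Ins.rh_s hK hB' k hk]
          apply Subtype.ext
          funext u
          by_cases hu : u.length = q
          · have h7 := congrFun (T_LV (K := K) hK hB hH hH2 hk) (u ++ x)
            rw [T_append_left κ' k _ u x (by omega)] at h7
            exact h7
          · rw [(TV (K := K) κ' q k F).2 u (fun h => hu h.2), F.2 u (fun h => hu h.2)]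
      have h8 := Ins.inv_strip hK hB' F hF y
      have h9 : (F : List (Fin r) → K) y ≠ 0 := hne
      rw [h8] at h9
      have h10 := right_ne_zero_of_mul h9
      by_contra hcon
      apply h10
      exact Ins.str_zero (fun h => hcon h.1)
    · apply Hz_of_Hor (Hor_of_FL hH h0)
      · rw [← hsh]
        exact hL.1.sh_anti
      · intro i
        rw [← hsh, sh_append]
        exact Ins.le_sh _ _ _

end Crest.Agent.R187.SN.Loc
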