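import Crest.Agent.R187.SN.Img

/-!
# Row 187, PLAN S, block E4 (theory): pivot patterns

From the reduced echelon form of the tables `V (a+1) b` one gets patterns `pat a λ c : List Sh` on
which the frame vectors take the values `δ`; hence the relation tables ARE the values of the
operators at these patterns.
-/

set_option autoImplicit false

namespace Crest.Agent.R187.SN.Piv

open Crest.Agent.R187.SN Crest.Agent.R187.SN.Spec Crest.Agent.R187.SN.Img

variable {K : Type*} [Field K]

/-- the pattern number `c` of shape `λ` at level `a`, from the pivots `piv (a+1) λ c = (λ', j')` -/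
def pat (piv : ℕ → Sh → ℕ → Sh × ℕ) : ℕ → Sh → ℕ → List Sh
  | 0, _, _ => []
  | a + 1, lam, c => (piv (a + 1) lam c).1 :: pat piv a (piv (a + 1) lam c).1 (piv (a + 1) lam c).2

/-- `piv` are pivots of the tables of level `(a+1, b)` -/
def IsPiv (T : Tab K) (piv : ℕ → Sh → ℕ → Sh × ℕ) (a b : ℕ) : Prop :=
  ∀ lam, ∀ c < T.m (a + 1) b lam, (piv (a + 1) lam c).2 < T.m a b (piv (a + 1) lam c).1 ∧
    ∀ j < T.m (a + 1) b lam,
      T.V (a + 1) b lam (piv (a + 1) lam c).1 j (piv (a + 1) lam c).2 = if j = c then 1 else 0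

theorem vec_pat {T : Tab K} {piv : ℕ → Sh → ℕ → Sh × ℕ} {b : ℕ}
    (h0 : ∀ lam, T.m 0 b lam ≤ 1) :
    ∀ a, (∀ a' < a, IsPiv T piv a' b) → ∀ lam, ∀ j < T.m a b lam, ∀ c < T.m a b lam,
      vec T b a lam j (pat piv a lam c) = if j = c then 1 else 0 := by
  intro a
  induction a with
  | zero =>
    intro _ lam j hj c hc
    have h := h0 lam
    have h1 : j = c := by omega
    rw [if_pos h1]
    simp [vec, pat]
  | succ a ih =>
    intro hp lam j hj c hc
    obtain ⟨h1, h2⟩ := hp a (Nat.lt_succ_self a) lam c hc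
    rw [pat, vec_cons]
    rw [Finset.sum_eq_single (piv (a + 1) lam c).2]
    · rw [ih (fun a' ha' => hp a' (by omega)) _ _ h1 _ h1, if_pos rfl, mul_one, h2 j hj]
    · intro q hq hne
      rw [ih (fun a' ha' => hp a' (by omega)) _ q (Finset.mem_range.mp hq) _ h1, if_neg hne,
        mul_zero]
    · intro hn
      exact absurd (Finset.mem_range.mpr h1) hn

/-- the relation tables are the values at the pivot patterns -/
theorem rel_pat {T : Tab K} {piv : ℕ → Sh → ℕ → Sh × ℕ} {N : Sh → Sh → ℕ → ℕ → K} {a b : ℕ}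
    (h0 : ∀ lam, T.m 0 (b + 1) lam ≤ 1) (hp : ∀ a' < a, IsPiv T piv a' (b + 1))
    (hN : RelAll T N a b) {κ lam : Sh} (h : HS κ lam a) {l : ℕ} (hl : l < T.m a b κ) {c : ℕ}
    (hc : c < T.m a (b + 1) lam) :
    Mop K (b + 1) a κ lam (vec T b a κ l) (pat piv a lam c) = N κ lam l c := by
  rw [hN κ lam h l hl]
  simp only
  rw [Finset.sum_eq_single c]
  · rw [vec_pat h0 a hp lam c hc c hc, if_pos rfl, mul_one]
  · intro j hj hne
    rw [vec_pat h0 a hp lam j (Finset.mem_range.mp hj) c hc, if_neg hne, mul_zero]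
  · intro hn
    exact absurd (Finset.mem_range.mpr hc) hn

end Crest.Agent.R187.SN.Piv
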