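import Crest.Agent.R187.SN.TDef

/-!
# Row 187, PLAN S, block E4: the pivot tables of the levels `(a, 7)` are pivots of `T`
-/

set_option autoImplicit false
set_option Elab.async false

namespace Crest.Agent.R187.SN.Inst

open Crest.Agent.R187.SN Crest.Agent.R187.SN.Spec Crest.Agent.R187.SN.Kern
open Crest.Agent.R187.SN.KKey Crest.Agent.R187.SN.KD Crest.Agent.R187.SN.KE
open Crest.Agent.R187.SN.KRel Crest.Agent.R187.SN.KDec Crest.Agent.R187.SN.Img
open Crest.Agent.R187.SN.Piv Crest.Agent.R187.SN.PivK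

theorem pv1 : pivAll (vtDec 1 gV_1_7) ix_0_7 tP_1_7 ix_1_7 = true := by decide +kernel
theorem pv2 : pivAll (vtDec 1 gV_2_7) ix_1_7 tP_2_7 ix_2_7 = true := by decide +kernel
theorem pv3 : pivAll (vtDec 4 gV_3_7) ix_2_7 tP_3_7 ix_3_7 = true := by decide +kernel
theorem pv4 : pivAll (vtDec 28 gV_4_7) ix_3_7 tP_4_7 ix_4_7 = true := by decide +kernel
theorem pv5 : pivAll (vtDec 319 gV_5_7) ix_4_7 tP_5_7 ix_5_7 = true := by decide +kernel

theorem isPiv_of {a : ℕ} (ha : a < 5)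
    (h : pivAll (vtF (a + 1) 7) (ixF a 7) (tPF (a + 1)) (ixF (a + 1) 7) = true) :
    IsPiv T piv a 7 := by
  have hA : IxOK (a * 7) (totF a 7) (ixF a 7) := ixOK (by omega) le_rfl
  have hD : IxOK ((a + 1) * 7) (totF (a + 1) 7) (ixF (a + 1) 7) := ixOK (by omega) le_rfl
  refine isPiv_of_chk (LA := ixF a 7) (LD := ixF (a + 1) 7) (vt := vtF (a + 1) 7) ?_ ?_ ?_ ?_ h
  · intro e he
    rw [T_m, mOf, hA.look_of_mem he]
  · intro lam hlam
    have h1 : mOf (ixF (a + 1) 7) lam ≠ 0 := by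
      rw [T_m] at hlam; omega
    obtain ⟨h2, h3, h4⟩ := hD.look_pos h1
    refine ⟨_, h2, ?_, h3, rfl, hD.le33 _ h2⟩
    rw [h4]
    apply kyo_of
    intro i
    have h5 := (hD.val _ h2).2 i
    rw [h3] at h5
    exact h5
  · intro e he e' he' hh
    refine (hsk_iff (hA.val e he) (hD.val e' he') ?_).1 hh
    rw [hA.sum e he, hD.sum e' he']; ring
  · intro e he e' he' hh j _ q _
    rw [T_V, if_pos hh, hA.look_of_mem he, kyo_sh7 (hD.val e' he')]

theorem isPiv : ∀ a' < 5, IsPiv T piv a' 7 := by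
  intro a ha
  apply isPiv_of ha
  interval_cases a
  · exact pv1
  · exact pv2
  · exact pv3
  · exact pv4
  · exact pv5

end Crest.Agent.R187.SN.Inst
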