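import Crest.Agent.R187.SN.Gen

/-!
# Row 187, PLAN S: quadrature formulas for `Fc` (general test quintics)
-/

set_option autoImplicit false

namespace Crest.Agent.R187.SN.Quad

open Crest.Agent.R187.SN Crest.Agent.R187.SN.Spec Crest.Agent.R187.SN.Gen Polynomial

variable {K : Type*} [Field K]

/-- the monic test polynomial with given (integer) roots -/
noncomputable def gr (K : Type*) [Field K] (rs : List ℤ) : K[X] :=
  (rs.map (fun r : ℤ => X - C (r : K))).prod

/-- its value at an integer -/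
def gev (K : Type*) [Field K] (rs : List ℤ) (z : ℤ) : K :=
  (rs.map (fun r : ℤ => ((z - r : ℤ) : K))).prod

lemma gr_eval (rs : List ℤ) (z : ℤ) : (gr K rs).eval (z : K) = gev K rs z := by
  induction rs with
  | nil => simp [gr, gev]
  | cons r rs ih =>
    unfold gr gev at ih ⊢
    rw [List.map_cons, List.prod_cons, eval_mul, ih, List.map_cons, List.prod_cons]
    simp

lemma gr_monic (rs : List ℤ) : (gr K rs).Monic := by
  induction rs with
  | nil => simp [gr]
  | cons r rs ih =>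
    unfold gr at ih ⊢
    rw [List.map_cons, List.prod_cons]
    exact (monic_X_sub_C _).mul ih

lemma gr_natDegree (rs : List ℤ) : (gr K rs).natDegree = rs.length := by
  induction rs with
  | nil => simp [gr]
  | cons r rs ih =>
    have h := gr_monic (K := K) rs
    unfold gr at ih h ⊢
    rw [List.map_cons, List.prod_cons, (monic_X_sub_C _).natDegree_mul h, ih,
      natDegree_X_sub_C, List.length_cons]
    omega

lemma gr_coeff {rs : List ℤ} (h : rs.length = 5) : (gr K rs).coeff 5 = 1 := by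
  have h1 := (gr_monic (K := K) rs).coeff_natDegree
  rwa [gr_natDegree, h] at h1

lemma gev_eq_zero {rs : List ℤ} {z : ℤ} (h : z ∈ rs) : gev K rs z = 0 := by
  unfold gev
  apply List.prod_eq_zero
  rw [List.mem_map]
  exact ⟨z, h, by simp⟩

/-- the eigenfunction of a list of roots -/
def psiR (K : Type*) [Field K] (rs : List ℤ) (κ μ : Sh) : K :=
  ∏ i, ∏ s ∈ Finset.range (μ i - κ i), gev K rs (ct κ i + s)

/-- its eigenvalue -/
def pcR (K : Type*) [Field K] (rs : List ℤ) (κ' lam' : Sh) : K :=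
  ((conts κ' lam').map (gev K rs)).prod

lemma psiR_self (rs : List ℤ) (κ : Sh) : psiR K rs κ κ = 1 := by simp [psiR]

lemma psiR_add {rs : List ℤ} {κ ρ : Sh} (h : κ ≤ ρ) (k : Fin 6) :
    psiR K rs κ (add ρ k) = gev K rs (ct ρ k) * psiR K rs κ ρ := by
  unfold psiR
  rw [← Finset.mul_prod_erase _ _ (Finset.mem_univ k),
    ← Finset.mul_prod_erase Finset.univ
      (fun i => ∏ s ∈ Finset.range (ρ i - κ i), gev K rs (ct κ i + s)) (Finset.mem_univ k),
    add_same, ← mul_assoc]
  congr 1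
  · have hk : κ k ≤ ρ k := h k
    have h1 : ρ k + 1 - κ k = (ρ k - κ k) + 1 := by omega
    rw [h1, Finset.prod_range_succ, mul_comm]
    congr 1
    congr 1
    unfold ct
    push_cast [Nat.cast_sub hk]
    ring
  · apply Finset.prod_congr rfl
    intro i hi
    rw [add_ne _ (Finset.ne_of_mem_erase hi)]

/-- generalisation of `Gen.eig` with a bound for the number of boxes -/
theorem eigN {B : ℕ} (hK : ∀ m : ℕ, 0 < m → m ≤ B → (m : K) ≠ 0) (g : K[X])
    (hg : g.natDegree ≤ 5) (f : Sh → K) (κ : Sh) (n : ℕ)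
    (hf1 : ∀ ρ : Sh, κ ≤ ρ → Antitone ρ → ∀ k, f (add ρ k) = g.eval ((ct ρ k : ℤ) : K) * f ρ)
    (hf2 : ∀ ρ : Sh, κ ≤ ρ → Antitone ρ → ∑ i, ρ i < ∑ i, κ i + n → f ρ ≠ 0 →
      ∀ k, ¬ Antitone (add ρ k) → g.eval ((ct ρ k : ℤ) : K) = 0) (S : Finset Sh) :
    ∀ (ts : List (Option ℤ)) (ρ : Sh), κ ≤ ρ → Antitone ρ →
      ∑ i, ρ i + ts.length = ∑ i, κ i + n →
      (∀ i, ρ i + ts.length + 5 ≤ B) →
      (∀ μ, ρ ≤ μ → ∑ i, μ i = ∑ i, ρ i + ts.length → μ ∈ S) →
      ∑ μ ∈ S, Fp K ts ρ μ * f μ = (ts.map (gv g)).prod * f ρ := by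
  intro ts
  induction ts with
  | nil =>
    intro ρ h1 h2 hn h3 h4
    rw [Finset.sum_eq_single ρ]
    · simp [Fp]
    · intro μ _ hμ
      rw [Fp, if_neg (Ne.symm hμ), zero_mul]
    · intro hρ
      exact absurd (h4 ρ le_rfl (by simp)) hρ
  | cons t ts ih =>
    intro ρ h1 h2 hn h3 h4
    rw [List.length_cons] at hn
    have h5 : ∀ μ ∈ S, Fp K (t :: ts) ρ μ * f μ
        = ∑ k : Fin 6, if Antitone (add ρ k) then
            stepCo K ρ k t * (Fp K ts (add ρ k) μ * f μ) else 0 := by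
      intro μ _
      rw [Fp, Finset.sum_mul]
      apply Finset.sum_congr rfl
      intro k _
      split_ifs with h
      · ring
      · simp
    rw [Finset.sum_congr rfl h5, Finset.sum_comm]
    have h6 : ∀ k : Fin 6, (∑ μ ∈ S, if Antitone (add ρ k) then
            stepCo K ρ k t * (Fp K ts (add ρ k) μ * f μ) else 0)
          = (ts.map (gv g)).prod * f ρ * (stepCo K ρ k t * g.eval ((ct ρ k : ℤ) : K)) := by
      intro k
      by_cases h : Antitone (add ρ k)
      · simp only [if_pos h]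
        rw [← Finset.mul_sum, ih (add ρ k) (h1.trans (le_add ρ k)) h, hf1 ρ h1 h2 k]
        · ring
        · rw [sum_add]; omega
        · intro i
          have h7 := h3 i
          rw [List.length_cons] at h7
          by_cases hik : i = k
          · subst hik; rw [add_same]; omega
          · rw [add_ne _ hik]; omega
        · intro μ hμ hs
          apply h4 μ ((le_add ρ k).trans hμ)
          rw [hs, sum_add, List.length_cons]; ring
      · simp only [if_neg h, Finset.sum_const_zero]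
        by_cases h0 : f ρ = 0
        · rw [h0]; ring
        · rw [hf2 ρ h1 h2 (by omega) h0 k h]; ring
    rw [Finset.sum_congr rfl (fun k _ => h6 k), ← Finset.mul_sum,
      step_sum hK h2 (fun i => by have := h3 i; omega) g hg t]
    rw [List.map_cons, List.prod_cons]; ring

/-- THE ROOT CONDITION for strips with `n` boxes: for every pair of neighbouring rows either the gap
is at least `n` or the test polynomial has a root on the way -/
def RC (n : ℕ) (rs : List ℤ) (κ : Sh) : Prop :=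
  ∀ k : Fin 5, κ k.succ + n ≤ κ k.castSucc ∨
    ∃ s ∈ Finset.range (κ k.castSucc - κ k.succ + 1), ct κ k.succ + (s : ℤ) ∈ rs

instance (n : ℕ) (rs : List ℤ) (κ : Sh) : Decidable (RC n rs κ) := by unfold RC; infer_instance

lemma le_sum_of {κ μ : Sh} {n : ℕ} (h : κ ≤ μ) (hs : ∑ i, μ i ≤ ∑ i, κ i + n) (i : Fin 6) :
    μ i ≤ κ i + n := by
  have h1 : ∑ j ∈ Finset.univ.erase i, κ j ≤ ∑ j ∈ Finset.univ.erase i, μ j :=
    Finset.sum_le_sum (fun j _ => h j)
  have h2 : μ i + ∑ j ∈ Finset.univ.erase i, μ j = ∑ j, μ j :=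
    Finset.add_sum_erase Finset.univ μ (Finset.mem_univ i)
  have h3 : κ i + ∑ j ∈ Finset.univ.erase i, κ j = ∑ j, κ j :=
    Finset.add_sum_erase Finset.univ κ (Finset.mem_univ i)
  omega

lemma le_of_psiR {rs : List ℤ} {κ μ : Sh} (h0 : psiR K rs κ μ ≠ 0) (i : Fin 6) (s : ℕ)
    (hs : ct κ i + (s : ℤ) ∈ rs) : μ i ≤ κ i + s := by
  by_contra hlt
  push Not at hlt
  apply h0
  unfold psiR
  apply Finset.prod_eq_zero (Finset.mem_univ i)
  apply Finset.prod_eq_zero (i := s)
  · rw [Finset.mem_range]; omega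
  · exact gev_eq_zero hs

lemma supp_le {n : ℕ} {rs : List ℤ} {κ μ : Sh} (hκ : Antitone κ) (hr : RC n rs κ) (h : κ ≤ μ)
    (hs : ∑ i, μ i ≤ ∑ i, κ i + n) (h0 : psiR K rs κ μ ≠ 0) (k : Fin 5) :
    μ k.succ ≤ κ k.castSucc := by
  have hk : κ k.succ ≤ κ k.castSucc := hκ (Fin.castSucc_lt_succ).le
  rcases hr k with h1 | ⟨s, hs1, hs2⟩
  · exact (le_sum_of h hs k.succ).trans h1
  · rw [Finset.mem_range] at hs1
    have := le_of_psiR h0 k.succ s hs2
    omega

lemma supp_HS {n : ℕ} {rs : List ℤ} {κ μ : Sh} (hκ : Antitone κ) (hr : RC n rs κ) (h : κ ≤ μ)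
    (hs : ∑ i, μ i = ∑ i, κ i + n) (h0 : psiR K rs κ μ ≠ 0) : HS κ μ n := by
  refine ⟨h, ?_, hs⟩
  intro i j hij
  have hj : j ≠ 0 := by rintro rfl; exact absurd hij (Fin.not_lt_zero i)
  obtain ⟨k, rfl⟩ := Fin.exists_succ_eq.mpr hj
  have h1 := supp_le hκ hr h hs.le h0 k
  have h2 : i ≤ k.castSucc := by
    rw [Fin.le_def, Fin.val_castSucc]
    rw [Fin.lt_def, Fin.val_succ] at hij
    omega
  exact h1.trans (hκ h2)

lemma gv_some_map (g : K[X]) (l : List ℤ) :
    ((l.map some).map (gv g)).prod = (l.map (fun z : ℤ => g.eval (z : K))).prod := by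
  rw [List.map_map]; rfl

/-- THE QUADRATURE IDENTITY for a general test quintic -/
theorem quad {B : ℕ} (hK : ∀ m : ℕ, 0 < m → m ≤ B → (m : K) ≠ 0) {a : ℕ} {rs : List ℤ}
    {κ κ' lam' : Sh} (hκ : Antitone κ) (h5 : rs.length = 5) (hr : RC (a + 1) rs κ)
    (hB : ∀ i, κ i + a + 6 ≤ B) (h' : HS κ' lam' a) (S : Finset Sh)
    (hS : ∀ μ, HS κ μ (a + 1) → μ ∈ S) :
    ∑ μ ∈ S, (if HS κ μ (a + 1) then Fc K κ κ' μ lam' * psiR K rs κ μ else 0)
      = - pcR K rs κ' lam' := by
  have hl : (none :: (conts κ' lam').map some : List (Option ℤ)).length = a + 1 := by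
    rw [List.length_cons, List.length_map, conts_length h']
  have h := eigN hK (gr K rs) (by rw [gr_natDegree, h5]) (psiR K rs κ) κ (a + 1)
    (fun ρ h1 _ k => by rw [psiR_add h1, gr_eval])
    (fun ρ h1 h2 h3 h4 k hk => by
      rw [gr_eval]
      obtain ⟨i, hik, he⟩ := not_antitone_add h2 hk
      have hk0 : k ≠ 0 := by rintro rfl; exact absurd hik (Fin.not_lt_zero i)
      obtain ⟨j, rfl⟩ := Fin.exists_succ_eq.mpr hk0
      have h6 : ρ j.succ ≤ κ j.castSucc := supp_le hκ hr h1 (by omega) h4 j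
      have h7 : ρ j.castSucc ≤ ρ i := h2 (by
        rw [Fin.le_def, Fin.val_castSucc]
        rw [Fin.lt_def, Fin.val_succ] at hik
        omega)
      have h8 : κ j.castSucc ≤ ρ j.castSucc := h1 j.castSucc
      have h9 : κ j.succ ≤ ρ j.succ := h1 j.succ
      rcases hr j with h10 | ⟨s, hs1, hs2⟩
      · have h11 := le_sum_of (n := a) h1 (by omega) j.succ
        omega
      · rw [Finset.mem_range] at hs1
        have h11 := le_of_psiR h4 j.succ s hs2
        have h12 : s = ρ j.succ - κ j.succ := by omega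
        have h13 : ct ρ j.succ = ct κ j.succ + (s : ℤ) := by
          rw [h12]; unfold ct; push_cast [Nat.cast_sub h9]; ring
        rw [h13]
        exact gev_eq_zero hs2)
    (bx κ (a + 1)) (none :: (conts κ' lam').map some) κ le_rfl hκ (by rw [hl])
    (fun i => by rw [hl]; have := hB i; omega)
    (fun μ h1 h2 => mem_bx h1 (by rw [h2, hl]))
  rw [psiR_self, mul_one, List.map_cons, List.prod_cons, gv_some_map] at h
  have h9 : gv (gr K rs) none = -1 := by
    show - (gr K rs).coeff 5 = -1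
    rw [gr_coeff h5]
  have h10 : ((conts κ' lam').map (fun z : ℤ => (gr K rs).eval (z : K))).prod
      = pcR K rs κ' lam' := by
    unfold pcR
    congr 1
    apply List.map_congr_left
    intro z _
    exact gr_eval rs z
  rw [h9, h10, neg_one_mul] at h
  rw [← h]
  have h11 : ∀ μ : Sh, (if HS κ μ (a + 1) then Fc K κ κ' μ lam' * psiR K rs κ μ else 0)
      = Fp K (none :: (conts κ' lam').map some) κ μ * psiR K rs κ μ := by
    intro μ
    split_ifs with hc
    · rfl
    · by_cases hF : Fc K κ κ' μ lam' = 0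
      · have : Fp K (none :: (conts κ' lam').map some) κ μ = 0 := hF
        rw [this, zero_mul]
      · have h12 := Fc_supp h' hF
        by_contra h13
        have h14 : psiR K rs κ μ ≠ 0 := right_ne_zero_of_mul (Ne.symm h13)
        exact hc (supp_HS hκ hr h12.1 h12.2 h14)
  rw [Finset.sum_congr rfl (fun μ _ => h11 μ)]
  -- the two finite sets carry the same support
  have h12 : ∀ T : Finset Sh, (∀ μ, HS κ μ (a + 1) → μ ∈ T) →
      ∑ μ ∈ T, Fp K (none :: (conts κ' lam').map some) κ μ * psiR K rs κ μ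
        = ∑ μ ∈ T ∪ bx κ (a + 1), Fp K (none :: (conts κ' lam').map some) κ μ * psiR K rs κ μ := by
    intro T hT
    apply Finset.sum_subset Finset.subset_union_left
    intro μ _ hμ
    rw [← h11, if_neg (fun hc => hμ (hT μ hc))]
  rw [h12 S hS]
  symm
  apply Finset.sum_subset Finset.subset_union_right
  intro μ _ hμ
  rw [← h11, if_neg (fun hc => hμ (mem_bx hc.1 hc.2.2))]

/-- `Fc` from a quadrature -/
theorem Fc_quad {B : ℕ} (hK : ∀ m : ℕ, 0 < m → m ≤ B → (m : K) ≠ 0) {a : ℕ} {κ lam : Sh}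
    (hκ : Antitone κ) (hB : ∀ i, κ i + a + 6 ≤ B) (q : List (K × List ℤ))
    (h5 : ∀ t ∈ q, t.2.length = 5) (hr : ∀ t ∈ q, RC (a + 1) t.2 κ) (hlam : HS κ lam (a + 1))
    (hw : ∀ μ, HS κ μ (a + 1) →
      (q.map (fun t => t.1 * psiR K t.2 κ μ)).sum = if μ = lam then 1 else 0)
    {κ' lam' : Sh} (h' : HS κ' lam' a) :
    Fc K κ κ' lam lam' = - (q.map (fun t => t.1 * pcR K t.2 κ' lam')).sum := by
  have h1 : ∀ q' : List (K × List ℤ), (∀ t ∈ q', t.2.length = 5) →
      (∀ t ∈ q', RC (a + 1) t.2 κ) →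
      ∑ μ ∈ bx κ (a + 1), (if HS κ μ (a + 1) then
        Fc K κ κ' μ lam' * (q'.map (fun t => t.1 * psiR K t.2 κ μ)).sum else 0)
      = - (q'.map (fun t => t.1 * pcR K t.2 κ' lam')).sum := by
    intro q'
    induction q' with
    | nil => intro _ _; simp
    | cons t q' ih =>
      intro h1 h2
      have h3 := ih (fun t ht => h1 t (List.mem_cons_of_mem _ ht))
        (fun t ht => h2 t (List.mem_cons_of_mem _ ht))
      have h4 := quad hK hκ (h1 t List.mem_cons_self) (h2 t List.mem_cons_self) hB h'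
        (bx κ (a + 1)) (fun μ hc => mem_bx hc.1 hc.2.2)
      rw [List.map_cons, List.sum_cons, neg_add, ← h3, ← mul_neg, ← h4, Finset.mul_sum,
        ← Finset.sum_add_distrib]
      apply Finset.sum_congr rfl
      intro μ _
      split_ifs
      · rw [List.map_cons, List.sum_cons]; ring
      · simp
  rw [← h1 q h5 hr, Finset.sum_eq_single lam]
  · rw [if_pos hlam, hw lam hlam, if_pos rfl, mul_one]
  · intro μ _ hne
    split_ifs with hc
    · rw [hw μ hc, if_neg hne, mul_zero]
    · rfl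
  · intro hn
    exact absurd (mem_bx hlam.1 hlam.2.2) hn

end Crest.Agent.R187.SN.Quad
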