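import Crest.Agent.R187.SN.Gen
import Crest.Agent.R187.SN.Img

/-!
# Row 187, PLAN S: relation tables from the linear check identity (*)

`relAll_star` : the matrix form of `Gen.star` for all targets implies `RelAll` (no `Fc` involved).
-/

set_option autoImplicit false

namespace Crest.Agent.R187.SN.Rel

open Crest.Agent.R187.SN Crest.Agent.R187.SN.Spec Crest.Agent.R187.SN.Gen Crest.Agent.R187.SN.Img

variable {K : Type*} [Field K]

/-- all `μ ⊇ κ` with `n` more boxes and `μ_i ≤ lam_i` for `i ≥ 1` (row `0` is free) -/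
def box (κ lam : Sh) (n : ℕ) : Finset Sh :=
  (Fintype.piFinset (fun i : Fin 6 => Finset.Icc (κ i) (if i = 0 then κ 0 + n else lam i))).filter
    (fun μ => ∑ i, μ i = ∑ i, κ i + n)

lemma mem_box {κ lam μ : Sh} {n : ℕ} :
    μ ∈ box κ lam n ↔ κ ≤ μ ∧ (∀ i, i ≠ 0 → μ i ≤ lam i) ∧ ∑ i, μ i = ∑ i, κ i + n := by
  unfold box
  rw [Finset.mem_filter, Fintype.mem_piFinset]
  constructor
  · rintro ⟨h1, h2⟩
    refine ⟨fun i => (Finset.mem_Icc.mp (h1 i)).1, fun i hi => ?_, h2⟩
    have h3 := (Finset.mem_Icc.mp (h1 i)).2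
    rwa [if_neg hi] at h3
  · rintro ⟨h1, h2, h3⟩
    refine ⟨fun i => ?_, h3⟩
    rw [Finset.mem_Icc]
    refine ⟨h1 i, ?_⟩
    split_ifs with hi
    · subst hi
      have h4 := mem_bx h1 h3
      rw [bx, Fintype.mem_piFinset] at h4
      have h5 := h4 0
      rw [Finset.mem_range] at h5
      omega
    · exact h2 i hi

lemma HS_of_mem_box {κ lam μ : Sh} {n : ℕ} (hlam : HS κ lam n) (h : μ ∈ box κ lam n) :
    HS κ μ n := by
  rw [mem_box] at h
  exact HS_of hlam h.1 h.2.2 h.2.1

lemma self_mem_box {κ lam : Sh} {n : ℕ} (hlam : HS κ lam n) : lam ∈ box κ lam n := by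
  rw [mem_box]
  exact ⟨hlam.1, fun _ _ => le_rfl, hlam.2.2⟩

lemma lt_of_mem_box {κ lam μ : Sh} {n : ℕ} (hlam : HS κ lam n) (h : μ ∈ box κ lam n)
    (hne : μ ≠ lam) : ∑ j ∈ Finset.univ.erase (0 : Fin 6), μ j
      < ∑ j ∈ Finset.univ.erase (0 : Fin 6), lam j := by
  rw [mem_box] at h
  apply Finset.sum_lt_sum (fun j hj => h.2.1 j (Finset.ne_of_mem_erase hj))
  by_contra hcon
  push Not at hcon
  have h6 : ∀ j ∈ Finset.univ.erase (0 : Fin 6), μ j = lam j := fun j hj =>
    le_antisymm (h.2.1 j (Finset.ne_of_mem_erase hj)) (hcon j hj)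
  have h7 : ∑ j, μ j = ∑ j, lam j := by rw [h.2.2, hlam.2.2]
  have h8 : μ 0 + ∑ j ∈ Finset.univ.erase (0 : Fin 6), μ j = ∑ j, μ j :=
    Finset.add_sum_erase Finset.univ μ (Finset.mem_univ (0 : Fin 6))
  have h9 : lam 0 + ∑ j ∈ Finset.univ.erase (0 : Fin 6), lam j = ∑ j, lam j :=
    Finset.add_sum_erase Finset.univ lam (Finset.mem_univ (0 : Fin 6))
  have h10 : ∑ j ∈ Finset.univ.erase (0 : Fin 6), μ j
      = ∑ j ∈ Finset.univ.erase (0 : Fin 6), lam j := Finset.sum_congr rfl h6
  apply hne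
  funext j
  by_cases hj : j = 0
  · subst hj; omega
  · exact h6 j (by simp [hj])

/-- `Gen.star` with the sum over `box` -/
theorem star_box {B : ℕ} (hK : ∀ m : ℕ, 0 < m → m ≤ B → (m : K) ≠ 0)
    {a b : ℕ} {lam κ lam' : Sh} (hκ : Antitone κ) (hlam : HS κ lam (a + 1))
    (hlam' : HS lam' lam b) (hB : ∀ i, κ i + a + 6 ≤ B) (x : List Sh → K)
    (hx : ∀ κ' l', x (κ' :: l') ≠ 0 → κ' ≤ κ) (l' : List Sh) :
    ∑ μ ∈ box κ lam (a + 1), psi K lam κ μ * Mop K b (a + 1) κ μ x (lam' :: l')
      = - ∑ κ' ∈ below lam', if HS κ' lam' a then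
          pc K lam κ' lam' * Mop K b a κ' lam' (fun m => x (κ' :: m)) l' else 0 := by
  rw [← star hK hκ hlam hlam' hB x hx l' (bx κ (a + 1)) (fun μ h1 h2 => mem_bx h1 h2)]
  have h1 : box κ lam (a + 1) ⊆ bx κ (a + 1) := by
    intro μ hμ
    rw [mem_box] at hμ
    exact mem_bx hμ.1 hμ.2.2
  rw [← Finset.sum_subset h1]
  · apply Finset.sum_congr rfl
    intro μ hμ
    rw [mem_box] at hμ
    rw [if_pos ⟨hμ.1, hμ.2.2⟩]
  · intro μ _ hμ
    split_ifs with hc
    · by_cases hp : psi K lam κ μ = 0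
      · rw [hp, zero_mul]
      · exact absurd (mem_box.mpr ⟨hc.1, fun j hj => psi_ne_zero_le hlam.1 hp hj, hc.2⟩) hμ
    · rfl

/-- matrix form of the check identity for a vector `x` with coordinates `X`: the family `W μ`
(given by coordinates `Y μ`) is the family of images -/
theorem mop_eq_of_star {B : ℕ} (hK : ∀ m : ℕ, 0 < m → m ≤ B → (m : K) ≠ 0)
    {T : Tab K} {M : Sh → Sh → ℕ → ℕ → K} {a b : ℕ} (hM : RelAll T M a b)
    {κ : Sh} (hκ : Antitone κ) (hB : ∀ i, κ i + a + 6 ≤ B)
    {X : Sh → ℕ → K} {x : List Sh → K} (hx : Coord T a b X x)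
    (hX : ∀ κ', ¬ κ' ≤ κ → ∀ l < T.m a b κ', X κ' l = 0)
    (W : Sh → List Sh → K) (Y : Sh → Sh → ℕ → K)
    (hW : ∀ μ, HS κ μ (a + 1) → Coord T a (b + 1) (Y μ) (W μ))
    (hY0 : ∀ μ, HS κ μ (a + 1) → ∀ lam', ¬ HS lam' μ (b + 1) →
      ∀ j < T.m a (b + 1) lam', Y μ lam' j = 0)
    (h : ∀ lam, HS κ lam (a + 1) → ∀ lam', HS lam' lam (b + 1) → ∀ j < T.m a (b + 1) lam',
      (∑ μ ∈ box κ lam (a + 1), psi K lam κ μ * Y μ lam' j)
        + (∑ κ' ∈ below lam', if HS κ' lam' a then
          pc K lam κ' lam' * ∑ l ∈ Finset.range (T.m a b κ'), X κ' l * M κ' lam' l j else 0)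
        = 0) :
    ∀ lam, HS κ lam (a + 1) → Mop K (b + 1) (a + 1) κ lam x = W lam := by
  have hx' : ∀ κ' l', x (κ' :: l') ≠ 0 → κ' ≤ κ := by
    intro κ' l' hne
    by_contra hle
    apply hne
    rw [hx.2]
    apply Finset.sum_eq_zero
    intro l hl
    rw [hX κ' hle l (Finset.mem_range.mp hl), zero_mul]
  have key : ∀ (n : ℕ) (lam : Sh), ∑ j ∈ Finset.univ.erase (0 : Fin 6), lam j = n →
      HS κ lam (a + 1) → Mop K (b + 1) (a + 1) κ lam x = W lam := by
    intro n
    induction n using Nat.strong_induction_on with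
    | _ n ih =>
      intro lam hn hlam
      funext p
      cases p with
      | nil => rw [Mop_nil, (hW lam hlam).1]
      | cons lam' l' =>
        by_cases hl : HS lam' lam (b + 1)
        · have h1 := star_box hK hκ hlam hl hB x hx' l'
          have h2 : ∀ κ' ∈ below lam', (if HS κ' lam' a then
              pc K lam κ' lam' * Mop K (b + 1) a κ' lam' (fun m => x (κ' :: m)) l' else 0)
              = ∑ j ∈ Finset.range (T.m a (b + 1) lam'), (if HS κ' lam' a then
                pc K lam κ' lam' * ∑ l ∈ Finset.range (T.m a b κ'), X κ' l * M κ' lam' l j else 0)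
                * vec T (b + 1) a lam' j l' := by
            intro κ' _
            split_ifs with h2
            · have h3 : (fun m => x (κ' :: m)) = fun m => ∑ l ∈ Finset.range (T.m a b κ'),
                  X κ' l * vec T b a κ' l m := funext (fun m => hx.2 κ' m)
              rw [h3, Mop_sum]
              simp only
              have h4 : ∀ l ∈ Finset.range (T.m a b κ'),
                  X κ' l * Mop K (b + 1) a κ' lam' (vec T b a κ' l) l'
                  = ∑ j ∈ Finset.range (T.m a (b + 1) lam'),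
                    X κ' l * M κ' lam' l j * vec T (b + 1) a lam' j l' := by
                intro l hl
                rw [hM κ' lam' h2 l (Finset.mem_range.1 hl), Finset.mul_sum]
                exact Finset.sum_congr rfl (fun j _ => by ring)
              rw [Finset.sum_congr rfl h4, Finset.sum_comm, Finset.mul_sum]
              refine Finset.sum_congr rfl (fun j _ => ?_)
              rw [← Finset.sum_mul]; ring
            · simp
          rw [Finset.sum_congr rfl h2, Finset.sum_comm] at h1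
          have h3 : ∀ j ∈ Finset.range (T.m a (b + 1) lam'),
              (∑ κ' ∈ below lam', (if HS κ' lam' a then
                pc K lam κ' lam' * ∑ l ∈ Finset.range (T.m a b κ'), X κ' l * M κ' lam' l j else 0)
                * vec T (b + 1) a lam' j l')
              = - ∑ μ ∈ box κ lam (a + 1), psi K lam κ μ * (Y μ lam' j *
                  vec T (b + 1) a lam' j l') := by
            intro j hj
            have h4 := h lam hlam lam' hl j (Finset.mem_range.mp hj)
            rw [← Finset.sum_mul, ← neg_eq_of_add_eq_zero_right h4, neg_mul, Finset.sum_mul]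
            congr 1
            apply Finset.sum_congr rfl
            intro μ _
            ring
          rw [Finset.sum_congr rfl h3, Finset.sum_neg_distrib, neg_neg, Finset.sum_comm] at h1
          have h5 : ∀ μ ∈ box κ lam (a + 1),
              (∑ j ∈ Finset.range (T.m a (b + 1) lam'),
                psi K lam κ μ * (Y μ lam' j * vec T (b + 1) a lam' j l'))
              = psi K lam κ μ * W μ (lam' :: l') := by
            intro μ hμ
            rw [(hW μ (HS_of_mem_box hlam hμ)).2, Finset.mul_sum]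
          rw [Finset.sum_congr rfl h5, ← sub_eq_zero, ← Finset.sum_sub_distrib,
            Finset.sum_eq_single lam] at h1
          · rw [← mul_sub] at h1
            have h6 := (mul_eq_zero.mp h1).resolve_left (psi_ne_zero hK hκ hlam (fun i => by
              have := hB i; omega))
            exact sub_eq_zero.mp h6
          · intro μ hμ hne
            rw [ih _ (by rw [← hn]; exact lt_of_mem_box hlam hμ hne) μ rfl
              (HS_of_mem_box hlam hμ), sub_self]
          · intro hn
            exact absurd (self_mem_box hlam) hn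
        · rw [Mop_cons, if_neg hl, (hW lam hlam).2]
          symm
          apply Finset.sum_eq_zero
          intro j hj
          rw [hY0 lam hlam lam' hl j (Finset.mem_range.mp hj), zero_mul]
  intro lam hlam
  exact key _ lam rfl hlam

/-- THE RELATION TABLES FROM (*) -/
theorem relAll_star {B : ℕ} (hK : ∀ m : ℕ, 0 < m → m ≤ B → (m : K) ≠ 0)
    {T : Tab K} {M N : Sh → Sh → ℕ → ℕ → K} {a b : ℕ} (hM : RelAll T M a b)
    (hV0 : VSupp T a b) (hV1 : VSupp T a (b + 1))
    (hκ : ∀ κ, T.m (a + 1) b κ ≠ 0 → Antitone κ ∧ ∀ i, κ i + a + 6 ≤ B)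
    (h : ∀ κ lam, HS κ lam (a + 1) → ∀ lam', HS lam' lam (b + 1) → ∀ i < T.m (a + 1) b κ,
      ∀ j < T.m a (b + 1) lam',
      (∑ μ ∈ box κ lam (a + 1), psi K lam κ μ *
          ∑ q ∈ Finset.range (T.m (a + 1) (b + 1) μ), N κ μ i q * T.V (a + 1) (b + 1) μ lam' q j)
        + (∑ κ' ∈ below lam', if HS κ' lam' a then pc K lam κ' lam' *
          ∑ l ∈ Finset.range (T.m a b κ'), T.V (a + 1) b κ κ' i l * M κ' lam' l j else 0)
        = 0) :
    RelAll T N (a + 1) b := by
  intro κ lam hlam i hi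
  obtain ⟨h1, h2⟩ := hκ κ (by omega)
  exact mop_eq_of_star hK hM h1 h2 (coord_vec T a b κ i)
    (fun κ' hle l hl => hV0 κ κ' (fun hc => hle hc.1) i hi l hl)
    (fun μ p => ∑ q ∈ Finset.range (T.m (a + 1) (b + 1) μ),
        N κ μ i q * vec T (b + 1) (a + 1) μ q p)
    (fun μ lam' j => ∑ q ∈ Finset.range (T.m (a + 1) (b + 1) μ),
        N κ μ i q * T.V (a + 1) (b + 1) μ lam' q j)
    (fun μ _ => Coord.sum _ _ (fun q _ => coord_vec T a (b + 1) μ q))
    (fun μ _ lam' hl j hj => Finset.sum_eq_zero (fun q hq => by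
      rw [hV1 μ lam' hl q (Finset.mem_range.1 hq) j hj, mul_zero]))
    (fun lam hlam lam' hl j hj => h κ lam hlam lam' hl i hi j hj) lam hlam

end Crest.Agent.R187.SN.Rel
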