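import Mathlib
import Crest.Agent.R187.SN.Rank

/-!
# Row 187, PLAN S, block E5: rows of horizontally concatenated packed blocks

`BL` = list of blocks `(x_c, n_c)` (packed matrices with common stride `S` and slot width `W`, block
`c` has `n_c` columns).  `rowN W S r L` = row `r` of the concatenation `[x_1 | x_2 | ...]`;
`rowsN W S L t tail` = the rows `0, …, t-1`, followed by the list `tail`.
-/

set_option autoImplicit false

namespace Crest.Agent.R187.SN.Rows

open Crest.Agent.R187.SN.Kern Crest.Agent.R187.SN.Rank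

/-- blocks: packed matrix, number of columns -/
inductive BL : Type
  | nil : BL
  | cons (x n : ℕ) (t : BL) : BL

/-- row `r` of the concatenation; `sh = W * S * r` -/
noncomputable def rowA (W sh : ℕ) (L : BL) : ℕ :=
  @BL.rec (fun _ => ℕ) 0 (fun x n _ ih =>
    Nat.add (Nat.mod (Nat.shiftRight x sh) (Nat.pow 2 (Nat.mul W n)))
      (Nat.shiftLeft ih (Nat.mul W n))) L

/-- row `r` of the concatenation -/
noncomputable def rowN (W S r : ℕ) (L : BL) : ℕ := rowA W (Nat.mul W (Nat.mul S r)) L

/-- total number of columns -/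
noncomputable def colsN (L : BL) : ℕ := @BL.rec (fun _ => ℕ) 0 (fun _ n _ ih => Nat.add n ih) L

/-- the rows `t-1, …, 0` of the concatenation, then `tail` -/
noncomputable def rowsN (W S : ℕ) (L : BL) (t : ℕ) (tail : List ℕ) : List ℕ :=
  @Nat.rec (fun _ => List ℕ) tail (fun r ih => List.cons (rowN W S r L) ih) t

theorem rowN_nil (W S r : ℕ) : rowN W S r BL.nil = 0 := rfl

theorem rowN_cons (W S r x n : ℕ) (L : BL) : rowN W S r (.cons x n L)
    = Nat.add (Nat.mod (Nat.shiftRight x (Nat.mul W (Nat.mul S r))) (Nat.pow 2 (Nat.mul W n)))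
      (Nat.shiftLeft (rowN W S r L) (Nat.mul W n)) := rfl

theorem colsN_cons (x n : ℕ) (L : BL) : colsN (.cons x n L) = n + colsN L := rfl

theorem slot_rowN_cons {W : ℕ} (hW : 0 < W) (S r x n : ℕ) (L : BL) (j : ℕ) :
    slot W (rowN W S r (.cons x n L)) j
      = if j < n then slot W x (S * r + j) else slot W (rowN W S r L) (j - n) := by
  have h1 : ∀ j, slot W (Nat.mod (Nat.shiftRight x (Nat.mul W (Nat.mul S r)))
      (Nat.pow 2 (Nat.mul W n))) j = if j < n then slot W x (S * r + j) else 0 := by
    intro j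
    rw [slot_mod, slot_shr]
    rfl
  have h2 : ∀ j, slot W (Nat.shiftLeft (rowN W S r L) (Nat.mul W n)) j
      = if n ≤ j then slot W (rowN W S r L) (j - n) else 0 := fun j => slot_shl hW _ _ _
  rw [rowN_cons, slot_add hW, h1, h2]
  · by_cases hj : j < n
    · rw [if_pos hj, if_neg (by omega), if_pos hj, add_zero]
    · rw [if_neg hj, if_pos (by omega), if_neg hj, zero_add]
  · intro i
    rw [h1, h2]
    by_cases hi : i < n
    · rw [if_pos hi, if_neg (by omega), add_zero]
      exact slot_lt _ _ _
    · rw [if_neg hi, if_pos (by omega), zero_add]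
      exact slot_lt _ _ _

/-- all blocks satisfy `P` -/
def BL.All (P : ℕ → ℕ → Prop) : BL → Prop
  | .nil => True
  | .cons x n t => P x n ∧ t.All P

theorem slot_rowN_lt {W k : ℕ} (hW : 0 < W) (S r : ℕ) (L : BL)
    (hL : L.All (fun x _ => ∀ i, slot W x i < 2 ^ k)) (j : ℕ) :
    slot W (rowN W S r L) j < 2 ^ k := by
  induction L generalizing j with
  | nil => rw [rowN_nil, slot_zero]; positivity
  | cons x n t ih =>
    obtain ⟨h1, h2⟩ := hL
    rw [slot_rowN_cons hW]
    split_ifs
    · exact h1 _
    · exact ih h2 _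

theorem rowsN_zero (W S : ℕ) (L : BL) (tail : List ℕ) : rowsN W S L 0 tail = tail := rfl

theorem rowsN_succ (W S : ℕ) (L : BL) (t : ℕ) (tail : List ℕ) :
    rowsN W S L (t + 1) tail = rowN W S t L :: rowsN W S L t tail := rfl

theorem mem_rowsN {W S : ℕ} {L : BL} {t : ℕ} {tail : List ℕ} {x : ℕ} :
    x ∈ rowsN W S L t tail ↔ (∃ r, r < t ∧ x = rowN W S r L) ∨ x ∈ tail := by
  induction t with
  | zero => simp [rowsN_zero]
  | succ t ih =>
    rw [rowsN_succ, List.mem_cons, ih]
    constructor
    · rintro (h | ⟨r, hr, h⟩ | h)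
      · exact Or.inl ⟨t, by omega, h⟩
      · exact Or.inl ⟨r, by omega, h⟩
      · exact Or.inr h
    · rintro (⟨r, hr, h⟩ | h)
      · rcases Nat.lt_or_ge r t with h1 | h1
        · exact Or.inr (Or.inl ⟨r, h1, h⟩)
        · have : r = t := by omega
          rw [this] at h
          exact Or.inl h
      · exact Or.inr (Or.inr h)

/-! ### blocks coming from a list of records -/

section

variable {β : Type*}

/-- the blocks `(B w, n w)` of a list of records -/
noncomputable def blocks (B n : β → ℕ) (l : List β) : BL :=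
  @List.rec β (fun _ => BL) BL.nil (fun w _ ih => BL.cons (B w) (n w) ih) l

theorem blocks_cons (B n : β → ℕ) (w : β) (l : List β) :
    blocks B n (w :: l) = .cons (B w) (n w) (blocks B n l) := rfl

/-- total number of columns -/
noncomputable def ncols (n : β → ℕ) (l : List β) : ℕ :=
  @List.rec β (fun _ => ℕ) 0 (fun w _ ih => Nat.add (n w) ih) l

theorem ncols_cons (n : β → ℕ) (w : β) (l : List β) : ncols n (w :: l) = n w + ncols n l := rfl

theorem colsN_blocks (B n : β → ℕ) (l : List β) : colsN (blocks B n l) = ncols n l := by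
  induction l with
  | nil => rfl
  | cons w l ih => rw [blocks_cons, colsN_cons, ih, ncols_cons]

/-- the point (functional) of column `j` -/
def colP {P : Type*} [Inhabited P] (n : β → ℕ) (pt : β → ℕ → P) : List β → ℕ → P
  | [], _ => default
  | w :: l, j => if j < n w then pt w j else colP n pt l (j - n w)

theorem blocks_all {B n : β → ℕ} {l : List β} {Q : ℕ → ℕ → Prop} (h : ∀ w ∈ l, Q (B w) (n w)) :
    (blocks B n l).All Q := by
  induction l with
  | nil => trivial
  | cons w l ih =>
    exact ⟨h w List.mem_cons_self, ih (fun w' hw' => h w' (List.mem_cons_of_mem _ hw'))⟩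

/-- entries of the concatenated row = values at the points of the columns -/
theorem rowN_blocks {R : Type*} [NatCast R] {P : Type*} [Inhabited P] {W : ℕ} (hW : 0 < W)
    (S r : ℕ) (B n : β → ℕ) (pt : β → ℕ → P) (F : P → R) (l : List β)
    (h : ∀ w ∈ l, ∀ c < n w, F (pt w c) = (slot W (B w) (S * r + c) : R)) :
    ∀ j < ncols n l, F (colP n pt l j) = (slot W (rowN W S r (blocks B n l)) j : R) := by
  induction l with
  | nil => intro j hj; exact absurd hj (Nat.not_lt_zero _)
  | cons w l ih =>
    intro j hj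
    rw [ncols_cons] at hj
    rw [blocks_cons, slot_rowN_cons hW, colP]
    split_ifs with h1
    · exact h w List.mem_cons_self j h1
    · exact ih (fun w' hw' => h w' (List.mem_cons_of_mem _ hw')) _ (by omega)

end

/-- **Rank step, membership form**: every packed row is the value row of a vector of `D`. -/
theorem le_finrank_of_rows {p W k n : ℕ} [Fact p.Prime] (hP : Par p W k) {m L : ℕ}
    (hb : 2 ^ k + m * 2 ^ (2 * k) ≤ 2 ^ W) (rows : List ℕ)
    (hrows : ∀ x ∈ rows, ∀ i, slot W x i < 2 ^ k)
    (h : rankChk p W k n L rows m = true)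
    {V : Type*} [AddCommGroup V] [Module (ZMod p) V] (D : Submodule (ZMod p) V)
    (hD : Module.Finite (ZMod p) D) (φ : Fin n → (V →ₗ[ZMod p] ZMod p))
    (hφ : ∀ x ∈ rows, ∃ y ∈ D, ∀ j : Fin n, φ j y = (slot W x j : ZMod p)) :
    m ≤ Module.finrank (ZMod p) D := by
  choose! y hy1 hy2 using hφ
  exact le_finrank_of_rankChk hP hb rows hrows h D (fun i => y (rows.get i))
    (fun i => hy1 _ (List.get_mem _ _)) φ (fun i j => hy2 _ (List.get_mem _ _) j)

end Crest.Agent.R187.SN.Rows
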