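import Crest.Agent.R187.SN.Semi

/-!
# Row 187, PLAN S: the recursion as a DEFINITION (border between theory and computation)

Shapes are `Fin 6 → ℕ`.  A vector of level `a` (number of grid rows) with top shape `λ` is a
function `x : List Sh → K` of the list `[κ_{a-1}, ..., κ_1, κ_0 = 0]` of lower shapes.
`Mop b a κ λ` = insertion of one column (from `a × (b-1)` to `a × b`), top shape `κ → λ`.
-/

set_option autoImplicit false

namespace Crest.Agent.R187.SN.Spec

open Crest.Agent.R187.SN

/-- shapes with at most six rows -/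
abbrev Sh := Fin 6 → ℕ

/-- `λ / κ` is a horizontal strip with `m` boxes -/
def HS (κ lam : Sh) (m : ℕ) : Prop :=
  (∀ i, κ i ≤ lam i) ∧ (∀ i j : Fin 6, i < j → lam j ≤ κ i) ∧ ∑ i, lam i = ∑ i, κ i + m

instance (κ lam : Sh) (m : ℕ) : Decidable (HS κ lam m) := by unfold HS; infer_instance

/-- the contents of the boxes of `λ / κ` (row by row) -/
def conts (κ lam : Sh) : List ℤ :=
  (List.finRange 6).flatMap (fun i => (List.range (lam i - κ i)).map
    (fun c => ((κ i + c : ℕ) : ℤ) - (i : ℕ)))

/-- all shapes contained in `λ` -/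
def below (lam : Sh) : Finset Sh := Fintype.piFinset (fun i => Finset.range (lam i + 1))

section
variable (K : Type*) [Field K]

/-- coefficient of "add a box in row `k`" in `T_∞` (`none`) resp. `T_x` (`some x`) -/
def stepCo (κ : Sh) (k : Fin 6) : Option ℤ → K
  | none => ∏ i ∈ Finset.univ.erase k, (((ct κ i - ct κ k : ℤ) : K))⁻¹
  | some x => ∏ i ∈ Finset.univ.erase k,
      ((ct κ i - x : ℤ) : K) * (((ct κ i - ct κ k : ℤ) : K))⁻¹

/-- matrix element `κ → λ` of the product of the operators in the list (first = applied first) -/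
def Fp : List (Option ℤ) → Sh → Sh → K
  | [], κ, lam => if κ = lam then 1 else 0
  | t :: ts, κ, lam =>
      ∑ k : Fin 6, if Antitone (add κ k) then stepCo K κ k t * Fp ts (add κ k) lam else 0

/-- `F(κ, κ'; λ, λ')` -/
def Fc (κ κ' lam lam' : Sh) : K := Fp K (none :: (conts κ' lam').map some) κ lam

/-- column insertion `a × (b-1) → a × b` on pattern functions (`b` = new number of columns),
top shape `κ → λ`, where `λ / κ` should be a horizontal `a`-strip -/
def Mop (b : ℕ) : ℕ → Sh → Sh → (List Sh → K) → (List Sh → K)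
  | 0, _, _, x => x
  | a + 1, κ, lam, x => fun l =>
      match l with
      | [] => 0
      | lam' :: l' =>
        if HS lam' lam b then
          ∑ κ' ∈ below lam', if HS κ' lam' a then
            Fc K κ κ' lam lam' * Mop b a κ' lam' (fun m => x (κ' :: m)) l' else 0
        else 0

/-- the starting vector (zero columns, `a` rows) -/
def x0 (a : ℕ) : List Sh → K := fun l => if l = List.replicate a 0 then 1 else 0

/-- `D a b λ`: span of all chains of column insertions -/
def D (a : ℕ) : ℕ → Sh → Submodule K (List Sh → K)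
  | 0, lam => if lam = 0 then Submodule.span K {x0 K a} else ⊥
  | b + 1, lam => Submodule.span K
      {y | ∃ κ, HS κ lam a ∧ ∃ x ∈ D a b κ, y = Mop K (b + 1) a κ lam x}

end

/-! The equation lemmas are generated here once, so that no two later modules generate them. -/

theorem eqns_touch : True := by
  have _h1 := @Fp.eq_1.{0}
  have _h2 := @Fp.eq_2.{0}
  have _h3 := @Fp.eq_def.{0}
  have _h4 := @Mop.eq_1.{0}
  have _h5 := @Mop.eq_2.{0}
  have _h6 := @Mop.eq_def.{0}
  have _h7 := @D.eq_1.{0}
  have _h8 := @D.eq_2.{0}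
  have _h9 := @D.eq_def.{0}
  have _h10 := @x0.eq_1.{0}
  trivial

end Crest.Agent.R187.SN.Spec
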