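import Crest.Agent.R187.SN.Img
import Crest.Agent.R187.SN.Gen

/-!
# Row 187, PLAN S, block E2: relations from the linear identity (*)

`relAll_star`: if for every source `κ`, every target `λ` and every `λ'` the claimed coordinates
`C μ = ∑ q, N κ μ i q * V μ λ' q j` satisfy the identity (*)
`∑_{μ ≤ λ off row 0} psi λ κ μ * C μ = - ∑_{κ'} pc λ κ' λ' * (X M)`, then `C = img`, hence the
relations of level `a + 1` hold.
-/

set_option autoImplicit false

namespace Crest.Agent.R187.SN.Img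

open Crest.Agent.R187.SN Crest.Agent.R187.SN.Spec Crest.Agent.R187.SN.Gen

variable {K : Type*} [Field K]

/-- `μ` is a horizontal strip over `κ` with `μ i ≤ λ i` for `i ≥ 1` -/
def InBox (κ lam μ : Sh) (n : ℕ) : Prop := HS κ μ n ∧ ∀ i : Fin 6, i ≠ 0 → μ i ≤ lam i

instance (κ lam μ : Sh) (n : ℕ) : Decidable (InBox κ lam μ n) := by
  unfold InBox; infer_instance

lemma sum_erase_lt {κ lam μ : Sh} {n : ℕ} (hlam : HS κ lam n) (hμ : InBox κ lam μ n)
    (hne : μ ≠ lam) :
    ∑ j ∈ Finset.univ.erase (0 : Fin 6), μ j < ∑ j ∈ Finset.univ.erase (0 : Fin 6), lam j := by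
  apply Finset.sum_lt_sum (fun j hj => hμ.2 j (Finset.ne_of_mem_erase hj))
  by_contra hcon
  push Not at hcon
  have h6 : ∀ j ∈ Finset.univ.erase (0 : Fin 6), μ j = lam j := fun j hj =>
    le_antisymm (hμ.2 j (Finset.ne_of_mem_erase hj)) (hcon j hj)
  have h7 : ∑ j, μ j = ∑ j, lam j := by rw [hμ.1.2.2, hlam.2.2]
  have h8 : μ 0 + ∑ j ∈ Finset.univ.erase (0 : Fin 6), μ j = ∑ j, μ j :=
    Finset.add_sum_erase Finset.univ μ (Finset.mem_univ (0 : Fin 6))
  have h9 : lam 0 + ∑ j ∈ Finset.univ.erase (0 : Fin 6), lam j = ∑ j, lam j :=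
    Finset.add_sum_erase Finset.univ lam (Finset.mem_univ (0 : Fin 6))
  have h10 : ∑ j ∈ Finset.univ.erase (0 : Fin 6), μ j
      = ∑ j ∈ Finset.univ.erase (0 : Fin 6), lam j := Finset.sum_congr rfl h6
  apply hne
  funext j
  by_cases hj : j = 0
  · subst hj; omega
  · exact h6 j (by simp [hj])

/-- row `0` of a strip in the box is at least `λ 0` -/
lemma box_zero_ge {κ lam μ : Sh} {n : ℕ} (hlam : HS κ lam n) (hμ : InBox κ lam μ n) :
    lam 0 ≤ μ 0 := by
  have h7 : ∑ j, μ j = ∑ j, lam j := by rw [hμ.1.2.2, hlam.2.2]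
  have h8 : μ 0 + ∑ j ∈ Finset.univ.erase (0 : Fin 6), μ j = ∑ j, μ j :=
    Finset.add_sum_erase Finset.univ μ (Finset.mem_univ (0 : Fin 6))
  have h9 : lam 0 + ∑ j ∈ Finset.univ.erase (0 : Fin 6), lam j = ∑ j, lam j :=
    Finset.add_sum_erase Finset.univ lam (Finset.mem_univ (0 : Fin 6))
  have h10 : ∑ j ∈ Finset.univ.erase (0 : Fin 6), μ j
      ≤ ∑ j ∈ Finset.univ.erase (0 : Fin 6), lam j :=
    Finset.sum_le_sum (fun j hj => hμ.2 j (Finset.ne_of_mem_erase hj))
  omega

/-- in the box, `λ' / μ`-interlacing can only fail through `μ i < λ' i` -/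
lemma HS_of_box {κ lam lam' μ : Sh} {n m : ℕ} (hlam : HS κ lam n) (hlam' : HS lam' lam m)
    (hμ : InBox κ lam μ n) (h : ∀ i : Fin 6, i ≠ 0 → lam' i ≤ μ i) : HS lam' μ m := by
  refine ⟨fun i => ?_, fun i j hij => ?_, ?_⟩
  · by_cases hi : i = 0
    · subst hi; exact (hlam'.1 0).trans (box_zero_ge hlam hμ)
    · exact h i hi
  · have hj : j ≠ 0 := by
      intro h; subst h; exact absurd hij (Fin.not_lt_zero i)
    exact (hμ.2 j hj).trans (hlam'.2.1 i j hij)
  · rw [hμ.1.2.2, ← hlam.2.2, hlam'.2.2]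

/-- the identity (*) determines the images -/
theorem img_eq_of_star {T : Tab K} {M : Sh → Sh → ℕ → ℕ → K} {a b B : ℕ}
    (hK : ∀ m : ℕ, 0 < m → m ≤ B → (m : K) ≠ 0) {κ lam' : Sh} (hκ : Antitone κ)
    (hB : ∀ i, κ i + a + 6 ≤ B) (X : Sh → ℕ → K)
    (hX : ∀ κ', (∃ l < T.m a b κ', X κ' l ≠ 0) → κ' ≤ κ) (j : ℕ) (C : Sh → K)
    (hC : ∀ μ, ¬ HS lam' μ (b + 1) → C μ = 0)
    (h : ∀ lam, HS κ lam (a + 1) → HS lam' lam (b + 1) →
      ∑ μ ∈ bx κ (a + 1), (if InBox κ lam μ (a + 1) then psi K lam κ μ * C μ else 0)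
        = - ∑ κ' ∈ below lam', if HS κ' lam' a then pc K lam κ' lam' *
            ∑ l ∈ Finset.range (T.m a b κ'), X κ' l * M κ' lam' l j else 0) :
    ∀ (n : ℕ) (lam : Sh), ∑ i ∈ Finset.univ.erase (0 : Fin 6), lam i = n →
      HS κ lam (a + 1) → HS lam' lam (b + 1) → img T M a b κ lam lam' X j = C lam := by
  intro n
  induction n using Nat.strong_induction_on with
  | _ n ih =>
    intro lam hn hlam hlam'
    -- the star identity for `img`
    have h1 : ∑ μ ∈ bx κ (a + 1), psi K lam κ μ * img T M a b κ μ lam' X j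
        = - ∑ κ' ∈ below lam', if HS κ' lam' a then pc K lam κ' lam' *
            ∑ l ∈ Finset.range (T.m a b κ'), X κ' l * M κ' lam' l j else 0 := by
      have e1 : ∀ μ ∈ bx κ (a + 1), psi K lam κ μ * img T M a b κ μ lam' X j
          = ∑ κ' ∈ below lam', if HS κ' lam' a then (Fc K κ κ' μ lam' * psi K lam κ μ) *
            ∑ l ∈ Finset.range (T.m a b κ'), X κ' l * M κ' lam' l j else 0 := by
        intro μ _
        rw [img, Finset.mul_sum]
        refine Finset.sum_congr rfl (fun κ' _ => ?_)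
        split_ifs
        · rw [← mul_assoc, mul_comm (psi K lam κ μ)]
        · rw [mul_zero]
      rw [Finset.sum_congr rfl e1, Finset.sum_comm, ← Finset.sum_neg_distrib]
      refine Finset.sum_congr rfl (fun κ' _ => ?_)
      by_cases h2 : HS κ' lam' a
      · simp only [if_pos h2]
        rw [← Finset.sum_mul, star_F hK hκ hlam hB h2 (bx κ (a + 1))
          (fun μ h3 h4 => mem_bx h3 h4), neg_mul]
      · simp only [if_neg h2]
        rw [Finset.sum_const_zero, neg_zero]
    -- compare term by term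
    have h2 : ∀ μ ∈ bx κ (a + 1), μ ≠ lam →
        psi K lam κ μ * img T M a b κ μ lam' X j
          = if InBox κ lam μ (a + 1) then psi K lam κ μ * C μ else 0 := by
      intro μ _ hne
      by_cases hb : InBox κ lam μ (a + 1)
      · rw [if_pos hb]
        suffices hs : img T M a b κ μ lam' X j = C μ by rw [hs]
        by_cases h3 : HS lam' μ (b + 1)
        · exact ih _ (by rw [← hn]; exact sum_erase_lt hlam hb hne) μ rfl hb.1 h3
        · rw [hC μ h3]
          have h4 : ∃ i : Fin 6, i ≠ 0 ∧ μ i < lam' i := by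
            by_contra hcon
            push Not at hcon
            exact h3 (HS_of_box hlam hlam' hb hcon)
          obtain ⟨i, hi0, hi⟩ := h4
          rw [img]
          refine Finset.sum_eq_zero (fun κ' _ => ?_)
          split_ifs with h5
          · by_cases h6 : κ' ≤ κ
            · rw [Fc_vanish hK hκ hB h5 h6 i hi0 _ μ rfl hb.1 hi, zero_mul]
            · have h7 : ∑ l ∈ Finset.range (T.m a b κ'), X κ' l * M κ' lam' l j = 0 := by
                refine Finset.sum_eq_zero (fun l hl => ?_)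
                by_cases h8 : X κ' l = 0
                · rw [h8, zero_mul]
                · exact absurd (hX κ' ⟨l, Finset.mem_range.1 hl, h8⟩) h6
              rw [h7, mul_zero]
          · rfl
      · rw [if_neg hb]
        by_cases hp : psi K lam κ μ = 0
        · rw [hp, zero_mul]
        · have h3 : img T M a b κ μ lam' X j = 0 := by
            rw [img]
            refine Finset.sum_eq_zero (fun κ' _ => ?_)
            split_ifs with h5
            · by_cases hF : Fc K κ κ' μ lam' = 0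
              · rw [hF, zero_mul]
              · exfalso
                obtain ⟨h6, h7⟩ := Fc_supp h5 hF
                apply hb
                have h8 : ∀ i, i ≠ 0 → μ i ≤ lam i := fun i hi => psi_ne_zero_le hlam.1 hp hi
                exact ⟨HS_of hlam h6 h7 h8, h8⟩
            · rfl
          rw [h3, mul_zero]
    have hmem : lam ∈ bx κ (a + 1) := mem_bx hlam.1 hlam.2.2
    have hbox : InBox κ lam lam (a + 1) := ⟨hlam, fun _ _ => le_rfl⟩
    have h3 := h lam hlam hlam'
    rw [← h1, ← Finset.add_sum_erase _ _ hmem, ← Finset.add_sum_erase _ _ hmem,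
      if_pos hbox] at h3
    have h4 : ∑ μ ∈ (bx κ (a + 1)).erase lam,
          (if InBox κ lam μ (a + 1) then psi K lam κ μ * C μ else 0)
        = ∑ μ ∈ (bx κ (a + 1)).erase lam, psi K lam κ μ * img T M a b κ μ lam' X j :=
      Finset.sum_congr rfl (fun μ hμ => (h2 μ (Finset.mem_of_mem_erase hμ)
        (Finset.ne_of_mem_erase hμ)).symm)
    rw [h4] at h3
    have h5 : psi K lam κ lam * C lam = psi K lam κ lam * img T M a b κ lam lam' X j :=
      add_right_cancel h3
    exact (mul_left_cancel₀ (psi_ne_zero hK hκ hlam (fun i => by have := hB i; omega)) h5).symm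

/-- relations from (*) -/
theorem relAll_star {T : Tab K} {M N : Sh → Sh → ℕ → ℕ → K} {a b B : ℕ}
    (hK : ∀ m : ℕ, 0 < m → m ≤ B → (m : K) ≠ 0) (hM : RelAll T M a b)
    (hV : VSupp T a (b + 1)) (hV' : VSupp T a b)
    (hκ : ∀ κ, 0 < T.m (a + 1) b κ → Antitone κ ∧ ∀ i, κ i + a + 6 ≤ B)
    (h : ∀ κ, 0 < T.m (a + 1) b κ → ∀ lam, HS κ lam (a + 1) → ∀ lam', HS lam' lam (b + 1) →
      ∀ i < T.m (a + 1) b κ, ∀ j < T.m a (b + 1) lam',
      ∑ μ ∈ bx κ (a + 1), (if InBox κ lam μ (a + 1) then psi K lam κ μ *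
          ∑ q ∈ Finset.range (T.m (a + 1) (b + 1) μ),
            N κ μ i q * T.V (a + 1) (b + 1) μ lam' q j else 0)
        = - ∑ κ' ∈ below lam', if HS κ' lam' a then pc K lam κ' lam' *
            ∑ l ∈ Finset.range (T.m a b κ'), T.V (a + 1) b κ κ' i l * M κ' lam' l j else 0) :
    RelAll T N (a + 1) b := by
  refine relAll_succ hM hV (fun κ lam hlam lam' hlam' i hi j hj => ?_)
  have hpos : 0 < T.m (a + 1) b κ := lt_of_le_of_lt (Nat.zero_le _) hi
  obtain ⟨h1, h2⟩ := hκ κ hpos
  refine img_eq_of_star hK h1 h2 (fun κ' l => T.V (a + 1) b κ κ' i l) (fun κ' hk => ?_) j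
    (fun μ => ∑ q ∈ Finset.range (T.m (a + 1) (b + 1) μ),
            N κ μ i q * T.V (a + 1) (b + 1) μ lam' q j) (fun μ hμ => ?_)
    (fun l hl hl' => h κ hpos l hl lam' hl' i hi j hj) _ lam rfl hlam hlam'
  · obtain ⟨l, hl, hne⟩ := hk
    by_contra hcon
    exact hne (hV' κ κ' (fun hs => hcon hs.1) i hi l hl)
  · refine Finset.sum_eq_zero (fun q hq => ?_)
    rw [hV μ lam' hμ q (Finset.mem_range.1 hq) j hj, mul_zero]

end Crest.Agent.R187.SN.Img
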