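import Crest.Agent.R187.SN.IotaVC
import Crest.Agent.R187.SN.Assemble

/-!
# Row 187, PLAN S, block (C): assembly of `TargetC`
-/

set_option autoImplicit false

namespace Crest.Agent.R187.SN.Iota

open Crest.Agent.R187.SN Gauge

variable {K : Type*} [Field K]

/-- the recursion (R) -/
def RStmt (K : Type*) [Field K] : Prop :=
  ∀ (B : ℕ) (_ : HK K B) (a b : ℕ) (κ lam : Spec.Sh) (_ : Bd B (0 : Fin 6 → ℕ) (a * (b + 1)))
    (_ : Antitone lam) (_ : ∑ i, lam i = a * (b + 1)) (_ : Spec.HS κ lam a)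
    (x : List Spec.Sh → K) (_ : VC K a b κ x),
    Ins.Pop K 6 b a (Zf K (a * b) a lam (iota K a b κ x))
      = iota K a (b + 1) lam (Spec.Mop K (b + 1) a κ lam x)

lemma Mop_zero (b : ℕ) (a : ℕ) : ∀ κ lam : Spec.Sh, Spec.Mop K b a κ lam 0 = 0 := by
  induction a with
  | zero => intro κ lam; rfl
  | succ a ih =>
    intro κ lam
    funext l
    rcases l with _ | ⟨lam', l⟩
    · rfl
    · simp only [Spec.Mop, Pi.zero_apply]
      split_ifs with h
      · refine Finset.sum_eq_zero fun κ' _ => ?_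
        split_ifs
        · have h2 : Spec.Mop K b a κ' lam' (fun _ => (0 : K)) l = 0 := congrFun (ih κ' lam') l
          rw [h2, mul_zero]
        · rfl
      · rfl

lemma D_bot (a : ℕ) (b : ℕ) : ∀ lam : Spec.Sh, ¬ (∑ i, lam i = a * b ) →
    Spec.D K a b lam = ⊥ := by
  induction b with
  | zero =>
    intro lam h
    rw [Spec.D, if_neg]
    rintro rfl
    apply h
    simp
  | succ b ih =>
    intro lam h
    rw [Spec.D, Submodule.span_eq_bot]
    rintro y ⟨κ, hs, x, hx, rfl⟩
    rw [ih κ] at hx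
    · rw [(Submodule.mem_bot K).1 hx, Mop_zero]
    · intro h1
      apply h
      rw [hs.2.2, h1]
      ring

lemma rangeD (hR : RStmt K) {B : ℕ} (hK : HK K B) (a : ℕ) (ha : (a.factorial : K) ≠ 0) (b : ℕ) :
    ∀ (hB : Bd B (0 : Fin 6 → ℕ) (a * b)) (lam : Spec.Sh) (_ : Antitone lam)
    (x : List Spec.Sh → K) (_ : x ∈ Spec.D K a b lam),
    (⟨iota K a b lam x, iota_mem a b lam x⟩ : V K (0 : Fin 6 → ℕ) (a * b)) ∈
      LinearMap.range (Ins.rhA hK hB (Link.E K (Ins.eE a b))) := by
  induction b with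
  | zero =>
    intro hB lam _ x _
    rw [← Ins.inX_iff hK a 0 hB ha]
    exact Ins.InX.base hK a hB _
  | succ b ih =>
    intro hB lam hlam x hx
    by_cases hsum : ∑ i, lam i = a * (b + 1)
    swap
    · rw [D_bot a (b + 1) lam hsum, Submodule.mem_bot] at hx
      subst hx
      have : (⟨iota K a (b + 1) lam 0, iota_mem a (b + 1) lam 0⟩ :
          V K (0 : Fin 6 → ℕ) (a * (b + 1))) = 0 := by
        apply Subtype.ext
        exact iota_zero a (b + 1) lam
      rw [this]
      exact Submodule.zero_mem _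
    set W : Submodule K (List Spec.Sh → K) :=
      (LinearMap.range (Ins.rhA hK hB (Link.E K (Ins.eE a (b + 1))))).comap
        ((iotaL (K := K) a (b + 1) lam).codRestrict (V K (0 : Fin 6 → ℕ) (a * (b + 1)))
          (fun x => iota_mem a (b + 1) lam x)) with hW
    have hle : Spec.D K a (b + 1) lam ≤ W := by
      rw [Spec.D, Submodule.span_le]
      rintro y ⟨κ, hs, z, hz, rfl⟩
      show _ ∈ W
      rw [hW, Submodule.mem_comap]
      have hB0 : Bd B (0 : Fin 6 → ℕ) (a * b) :=
        Ins.bd_mono (Nat.mul_le_mul_left a (Nat.le_succ b)) hB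
      have h1 := ih hB0 κ (HS_antitone hs) z hz
      obtain ⟨h2, h3⟩ := Ins.pop_range hK a b hB0 hB ha κ lam (HS_Hz hs)
        ⟨iota K a b κ z, iota_mem a b κ z⟩ h1 (fun w hw => iota_shape a b κ z w hw)
        (Zf K (a * b) a lam (iota K a b κ z))
        (fun w hw1 hw2 hw3 => by
          unfold Zf
          rw [if_pos ⟨hw1, by rw [hw2]; ring, hw3⟩])
        (fun w hw => by
          unfold Zf
          rw [if_neg]
          rintro ⟨h4, h5, h6⟩
          exact hw ⟨h4, by rw [h5]; ring, h6⟩)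
      have hR' := hR B hK a b κ lam hB hlam hsum hs z (D_le a b κ hz)
      have e : ((iotaL (K := K) a (b + 1) lam).codRestrict (V K (0 : Fin 6 → ℕ) (a * (b + 1)))
          (fun x => iota_mem a (b + 1) lam x)) (Spec.Mop K (b + 1) a κ lam z)
          = ⟨Ins.Pop K 6 b a (Zf K (a * b) a lam (iota K a b κ z)), h2⟩ := by
        apply Subtype.ext
        show iota K a (b + 1) lam (Spec.Mop K (b + 1) a κ lam z) = _
        exact hR'.symm
      rw [e]
      exact h3
    exact hle hx

/-- `TargetC` from the recursion (R) -/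
theorem targetC_of_R (hR : RStmt K) (h6 : ((6).factorial : K) ≠ 0) : Assemble.TargetC K := by
  intro B hK hB lam hlam hsum
  have hB' : Bd B (0 : Fin 6 → ℕ) (6 * 7) := hB
  refine ⟨((iotaL (K := K) 6 7 lam).codRestrict (V K (0 : Fin 6 → ℕ) (6 * 7))
          (fun x => iota_mem 6 7 lam x)).domRestrict (Spec.D K 6 7 lam), ?_, ?_, ?_⟩
  · rw [injective_iff_map_eq_zero]
    rintro ⟨x, hx⟩ h
    have h1 : iota K 6 7 lam x = 0 := congrArg Subtype.val h
    have h2 : x = 0 := iota_inj hK 7 6 lam hlam (fun i => by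
      have h3 : lam i ≤ ∑ j, lam j := Finset.single_le_sum (fun _ _ => Nat.zero_le _)
        (Finset.mem_univ i)
      have h4 := hB i
      simp only [Pi.zero_apply] at h4
      omega) x (D_le 6 7 lam hx) h1
    exact Subtype.ext h2
  · rintro ⟨x, hx⟩
    exact rangeD hR hK 6 h6 7 hB' lam hlam x hx
  · rintro ⟨x, hx⟩ w hw
    exact iota_shape 6 7 lam x w hw

end Crest.Agent.R187.SN.Iota
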