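import Crest.Agent.R187.SN.TopInst
import Crest.Agent.R187.SN.RelInst

/-!
# Row 187, PLAN S, block E5: soundness of the records of the top level, final form
-/

set_option autoImplicit false

namespace Crest.Agent.R187.SN.Top

open Crest.Agent.R187.SN Crest.Agent.R187.SN.Inst Crest.Agent.R187.SN.Img
open Crest.Agent.R187.SN.Fwd

/-- a checked record gives the rank bound -/
theorem top_sound (R : Rec) (hV : AllSrc (Has6 Inst.T 6) R.src)
    (hW : AllCol (WtOk Inst.T (MT 5 6) 6) R.cols) (h : chkRec R = true) : HH 127 (R.key, R.m) :=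
  top_sound_of relAll_5_6 R hV hW h

end Crest.Agent.R187.SN.Top
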