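import Crest.Agent.R187.SN.Top
import Crest.Agent.R187.SN.FwdDef
import Crest.Agent.R187.SN.Piv

/-!
# Row 187, PLAN S, block E5: the check of one record in terms of `Has6` and `WtOk`

`top_sound'` : from the relations `RelAll T M 5 6`, the pivots of level `(·, 7)`, the tables
`Fwd.Has6 T 6` (E3) and `Fwd.WtOk T M 6` (E4), and `chkRec R = true`, one gets the rank bound.
-/

set_option autoImplicit false

namespace Crest.Agent.R187.SN.Top

open Crest.Agent.R187.SN Crest.Agent.R187.SN.Spec Crest.Agent.R187.SN.Img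
open Crest.Agent.R187.SN.Kern Crest.Agent.R187.SN.Fwd Crest.Agent.R187.SN.Piv

lemma vget_eq (e : VE) (κ' : Sh) : vget e κ' = vx e κ' := by
  induction e with
  | nil => rfl
  | cons k x t ih =>
    show (if shp k = κ' then x else vget t κ') = if shp k = κ' then x else vx t κ'
    rw [ih]

lemma vSorted_of {e : VE} : ∀ {B : ℕ}, (vkeys e).Pairwise (fun x y => y < x) →
    (∀ k ∈ vkeys e, k < B) → vSorted B e := by
  induction e with
  | nil => intro _ _ _; trivial
  | cons k x t ih =>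
    intro B h1 h2
    have h1' : (k :: vkeys t).Pairwise (fun x y => y < x) := h1
    have h2' : ∀ k' ∈ k :: vkeys t, k' < B := h2
    rw [List.pairwise_cons] at h1'
    exact ⟨h2' k List.mem_cons_self, ih h1'.2 h1'.1⟩

lemma vSmall_of {e : VE} (h : AllV (fun _ x => ∀ n, slot 24 x n < 2 ^ 7) e) : vSmall e := by
  induction e with
  | nil => trivial
  | cons k x t ih => exact ⟨h.1, ih h.2⟩

lemma VT.Good.of_has6 {T : Tab (ZMod 127)} {b : ℕ} {t : VT} (h : Has6 T b t) :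
    t.Good ∧ HasV (fun κ' l => vec T b 5 κ' l) (T.m 5 b) b t := by
  obtain ⟨h1, x, hx⟩ := h
  refine ⟨⟨vSorted_of h1.sorted h1.lt, vSmall_of h1.slots⟩, x, fun r hr => ?_⟩
  obtain ⟨h2, h3⟩ := hx r hr
  refine ⟨h2, fun κ' m => ?_⟩
  rw [h3.2 κ' m]
  refine Finset.sum_congr rfl fun l _ => ?_
  rw [vget_eq]
  rfl

lemma wSorted_of {e : WE} : ∀ {B : ℕ}, (wkeys e).Pairwise (fun x y => y < x) →
    (∀ k ∈ wkeys e, k < B) → wSorted B e := by
  induction e with
  | nil => intro _ _ _; trivial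
  | cons k cs K x t ih =>
    intro B h1 h2
    have h1' : (k :: wkeys t).Pairwise (fun x y => y < x) := h1
    have h2' : ∀ k' ∈ k :: wkeys t, k' < B := h2
    rw [List.pairwise_cons] at h1'
    exact ⟨h2' k List.mem_cons_self, ih h1'.2 h1'.1⟩

lemma allW_all {P : ℕ → ℕ → ℕ → ℕ → Prop} {e : WE} (h : AllW P e) : e.All P := by
  induction e with
  | nil => trivial
  | cons k cs K x t ih => exact ⟨h.1, ih h.2⟩

lemma all_wkeys {P : ℕ → ℕ → ℕ → ℕ → Prop} {p : ℕ → Prop} {e : WE} (h : e.All P)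
    (hp : ∀ k cs K x, P k cs K x → p k) : ∀ k ∈ wkeys e, p k := by
  induction e with
  | nil => intro k hk; exact absurd hk (by simp [wkeys])
  | cons k0 cs K x t ih =>
    intro k hk
    have hk' : k ∈ k0 :: wkeys t := hk
    rcases List.mem_cons.1 hk' with rfl | h2
    · exact hp _ _ _ _ h.1
    · exact ih h.2 k h2

lemma wLen_eq (e : WE) : wLen e = (wkeys e).length := by
  induction e with
  | nil => rfl
  | cons k cs K x t ih =>
    show Nat.succ (wLen t) = (k :: wkeys t).length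
    rw [ih]
    rfl

lemma mem_wShapes_of {e : WE} {k : ℕ} (h : k ∈ wkeys e) : shp k ∈ wShapes e := by
  induction e with
  | nil => exact absurd h (by simp [wkeys])
  | cons k0 cs K x t ih =>
    have hk' : k ∈ k0 :: wkeys t := h
    show shp k ∈ insert (shp k0) (wShapes t)
    rcases List.mem_cons.1 hk' with rfl | h2
    · exact Finset.mem_insert_self _ _
    · exact Finset.mem_insert_of_mem (ih h2)

lemma WT.Good.of_wtOk {T : Tab (ZMod 127)} {M : Sh → Sh → ℕ → ℕ → ZMod 127} {b : ℕ} {w : WT}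
    (h : WtOk T M b w) : w.Good (T.m 5 b) := by
  have hA := allW_all h.ent
  refine ⟨h.n_le, h.bd, wSorted_of h.sorted (all_wkeys hA (fun _ _ _ _ h => h.1)),
    hA.imp (fun _ _ _ _ h => ⟨h.2.1, h.2.2.1, h.2.2.2.2.1, h.2.2.2.2.2.1⟩), ?_, ?_⟩
  · rw [wLen_eq]; exact h.len
  · intro κ' h1 h2
    obtain ⟨k, hk, rfl⟩ := h.compl κ' h1 h2
    exact mem_wShapes_of hk

lemma hasW_of_wtOk {T : Tab (ZMod 127)} {M : Sh → Sh → ℕ → ℕ → ZMod 127} {b : ℕ} {w : WT}
    (h : WtOk T M b w) {pt : Sh → ℕ → List Sh}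
    (hM : ∀ κ lam, HS κ lam 5 → ∀ l < T.m 5 b κ, ∀ c < T.m 5 (b + 1) lam,
      Mop (ZMod 127) (b + 1) 5 κ lam (vec T b 5 κ l) (pt lam c) = M κ lam l c) :
    HasW (fun κ' l => vec T b 5 κ' l) (T.m 5 b) (b + 1) pt w := by
  unfold HasW
  refine (allW_all h.ent).imp ?_
  rintro k cs K x ⟨_, h2, _, h4, _, _, h7⟩
  refine ⟨h4, fun l hl c hc => ?_⟩
  rw [hM _ _ h2 l (h4 ▸ hl) c (h.n_eq ▸ hc), ← h7 l hl c hc]
  rfl

lemma hasM_of_wtOk {T : Tab (ZMod 127)} {M : Sh → Sh → ℕ → ℕ → ZMod 127} {b : ℕ} {w : WT}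
    (h : WtOk T M b w) (hM : RelAll T M 5 b) :
    HasM (fun κ' l => vec T b 5 κ' l) (T.m 5 b) (b + 1) (fun κ' l => vec T (b + 1) 5 κ' l) w := by
  unfold HasM
  refine (allW_all h.ent).imp ?_
  rintro k cs K x ⟨_, h2, _, h4, _, _, h7⟩
  refine ⟨h4, fun l hl m => ?_⟩
  rw [hM _ _ h2 l (h4 ▸ hl), ← h.n_eq]
  refine Finset.sum_congr rfl fun j hj => ?_
  rw [← h7 l hl j (Finset.mem_range.1 hj)]
  rfl

/-- **soundness of the records of the top level** from the tables of E3 and E4 -/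
theorem top_sound' {T : Tab (ZMod 127)} {M : Sh → Sh → ℕ → ℕ → ZMod 127}
    {pt : Sh → ℕ → List Sh}
    (hM : ∀ κ lam, HS κ lam 5 → ∀ l < T.m 5 6 κ, ∀ c < T.m 5 7 lam,
      Mop (ZMod 127) 7 5 κ lam (vec T 6 5 κ l) (pt lam c) = M κ lam l c)
    (R : Rec) (hV : AllSrc (Has6 T 6) R.src) (hW : AllCol (WtOk T M 6) R.cols)
    (h : chkRec R = true) :
    R.m ≤ Module.finrank (ZMod 127) (Spec.D (ZMod 127) 6 7 (shp R.key)) := by
  refine chkRec_sound (mm := T.m 5 6) (v := fun κ' l => vec T 6 5 κ' l) (pat := pt) R ?_ ?_ h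
  · have : ∀ L : List Src, AllSrc (Has6 T 6) L →
        AllSrc (fun t => t.Good ∧ HasV (fun κ' l => vec T 6 5 κ' l) (T.m 5 6) 6 t) L := by
      intro L
      induction L with
      | nil => intro _; trivial
      | cons s t ih => intro hL; exact ⟨VT.Good.of_has6 hL.1, ih hL.2⟩
    exact this _ hV
  · have : ∀ L : List WT, AllCol (WtOk T M 6) L →
        AllCol (fun w => w.Good (T.m 5 6) ∧
          HasW (fun κ' l => vec T 6 5 κ' l) (T.m 5 6) 7 pt w) L := by
      intro L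
      induction L with
      | nil => intro _; trivial
      | cons w t ih => intro hL; exact ⟨⟨WT.Good.of_wtOk hL.1, hasW_of_wtOk hL.1 hM⟩, ih hL.2⟩
    exact this _ hW

/-- the same from the relations and the pivots -/
theorem top_sound_piv {T : Tab (ZMod 127)} {M : Sh → Sh → ℕ → ℕ → ZMod 127}
    {piv : ℕ → Sh → ℕ → Sh × ℕ} (h0 : ∀ lam, T.m 0 7 lam ≤ 1)
    (hp : ∀ a' < 5, IsPiv T piv a' 7) (hN : RelAll T M 5 6)
    (R : Rec) (hV : AllSrc (Has6 T 6) R.src) (hW : AllCol (WtOk T M 6) R.cols)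
    (h : chkRec R = true) :
    R.m ≤ Module.finrank (ZMod 127) (Spec.D (ZMod 127) 6 7 (shp R.key)) :=
  top_sound' (pt := pat piv 5) (fun _ _ h1 _ hl _ hc => rel_pat h0 hp hN h1 hl hc) R hV hW h

end Crest.Agent.R187.SN.Top
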