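import Crest.Agent.R187.SN.TopI
import Crest.Agent.R187.SN.AllH
import Crest.Agent.R187.SN.Piv7Ok

/-!
# Row 187, PLAN S, block E5: soundness of the top level records for the concrete tables

`top_sound_of` : with the relations `RelAll T (MT 5 6) 5 6` of the concrete tables `Inst.T`,
a checked record gives the rank bound `HH 127 (R.key, R.m)`.
-/

set_option autoImplicit false

namespace Crest.Agent.R187.SN.Top

open Crest.Agent.R187.SN Crest.Agent.R187.SN.Inst Crest.Agent.R187.SN.Img
open Crest.Agent.R187.SN.Fwd

theorem top_sound_of (hN : RelAll Inst.T (MT 5 6) 5 6) (R : Rec)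
    (hV : AllSrc (Has6 Inst.T 6) R.src) (hW : AllCol (WtOk Inst.T (MT 5 6) 6) R.cols)
    (h : chkRec R = true) : HH 127 (R.key, R.m) :=
  top_sound_piv (T := Inst.T) (M := MT 5 6) (piv := piv) m_zero_le
    isPiv hN R hV hW h

end Crest.Agent.R187.SN.Top
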